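import Vale.Agent.P339.Basic

/-!
The folding (aux names: `fo_*`).
`out_eq`: `tab_congr`; `(S.succ jn k).spd r p = (kids r p, mat jn r p)` and `ev r = sumc ∘ slc r` by `rfl`.
`fM_atc`: `can (d, M + κ ⊗ atc i f) = can (d, M)`, since for `σ* = pick (can d_i) (lab (can d_i) σ)` one has
`lab (can d_i) σ* = lab (can d_i) σ` (`choose_spec`), hence `lab d_i σ* = lab d_i σ` (`lab_can`) and `f σ* = f σ`.
If `tab` answers `(w, y)` then the answer is `(fun i => rel d_i (w i), y + sh (d, M) w)`, `sh` grows by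
`f (pick (can d_i) (w i)) • κ`, and `pt d_i (rel d_i (w i)) = pick (can d_i) (w i)`.
`fM_tt`: `tt = atc 0 1`.  `fM_HH`: span induction on the property
`∀ M' with fM M' = lam, fM (M' + κ ⊗ η) = lam` (for scalars use `z2_cases`); on generators
`κ ⊗ (atc i f + c • tt) = κ ⊗ atc i f + (c • κ) ⊗ tt`.  `valid_pt`: `atc_dot`.
-/

namespace Vale.Agent.P339

open Vale.Agent.P325 Finset
open scoped BigOperators

variable {P : Prm} {S : Stage P} {jn : Fin P.T} {k n : ℕ} {g : Eg P}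

theorem fo_z2 (c : ZMod 2) : c = 0 ∨ c = 1 := by
  revert c; decide

theorem fo_pick (d : S.Dat) (σ : S.Om) : S.lab d (S.pick d (S.lab d σ)) = S.lab d σ := by
  have h : ∃ σ', S.lab d σ' = S.lab d σ := ⟨σ, rfl⟩
  unfold Stage.pick
  rw [dif_pos h]
  exact h.choose_spec

theorem fo_meas (hS : S.Good n) {d : S.Dat} {f : S.Fn} (hf : S.Meas d f) (σ : S.Om) :
    f (S.pick (S.can d) (S.lab (S.can d) σ)) = f σ := by
  apply hf
  rw [hS.lab_can d, hS.lab_can d σ, fo_pick]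

theorem fo_can (hS : S.Good n) (d : Fin (k + 1) → S.Dat) (M : Mat P.l (S.X k)) (κ : P.K)
    (i : Fin (k + 1)) {f : S.Fn} (hf : S.Meas (d i) f) :
    (S.succ jn k).can (d, M + Matrix.vecMulVec κ (Stage.atc i f)) = (S.succ jn k).can (d, M) := by
  refine Prod.ext rfl ?_
  funext q y
  change (M + Matrix.vecMulVec κ (Stage.atc i f)) q y - (M + Matrix.vecMulVec κ (Stage.atc i f)) q
      (y.1, S.pick (S.can (d y.1)) (S.lab (S.can (d y.1)) y.2)) =
    M q y - M q (y.1, S.pick (S.can (d y.1)) (S.lab (S.can (d y.1)) y.2))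
  have h : Stage.atc i f (y.1, S.pick (S.can (d y.1)) (S.lab (S.can (d y.1)) y.2)) =
      Stage.atc i f y := by
    unfold Stage.atc
    by_cases hy : y.1 = i
    · rw [if_pos hy, if_pos hy, hy]
      exact fo_meas hS hf y.2
    · rw [if_neg hy, if_neg hy]
  simp only [Matrix.add_apply, Matrix.vecMulVec_apply, h]
  ring

theorem fo_sh (d : Fin (k + 1) → S.Dat) (M : Mat P.l (S.X k)) (κ : P.K)
    (i : Fin (k + 1)) (f : S.Fn) (w : Fin (k + 1) → S.Lab) :
    Stage.sh (d, M + Matrix.vecMulVec κ (Stage.atc i f)) w =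
      Stage.sh (d, M) w + f (S.pick (S.can (d i)) (w i)) • κ := by
  funext q
  simp only [Stage.sh, Matrix.add_apply, Matrix.vecMulVec_apply, Finset.sum_add_distrib,
    Pi.add_apply, Pi.smul_apply, smul_eq_mul, Stage.atc]
  congr 1
  rw [Finset.sum_eq_single i (fun b _ hb => by simp [hb]) (by simp)]
  simp [mul_comm]

theorem fo_zero (M : Mat P.l (S.X k)) (κ : P.K) :
    M + Matrix.vecMulVec κ (0 : S.X k → ZMod 2) = M := by
  funext q y
  simp [Matrix.add_apply, Matrix.vecMulVec_apply]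

theorem out_eq (hj : (jn : ℕ) = n + 1) (s : Strat (S.succ jn k) (n + 1) g)
    (ε : Fin (k + 1) × S.Co → g.E) (r : S.Rn' k) (w : S.W' k) :
    s.out ε r w = s.fM (Stage.sdq jn g ε r w) (Stage.mtq jn g ε r w) := by
  unfold Strat.out Strat.fM
  refine congrArg _ ?_
  refine s.tab_congr _ _ _ _ fun t ht => ?_
  have ht' : (jn : ℕ) < (t.1 : ℕ) := by omega
  exact (if_pos ht').symm

theorem fM_atc (hS : S.Good n) {n' : ℕ} (s : Strat (S.succ jn k) n' g) (sd : S.Side k)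
    (M : Mat P.l (S.X k)) (κ : P.K) (i : Fin (k + 1)) {f : S.Fn} (hf : S.Meas (sd.2.1 i) f) :
    s.fM sd (M + Matrix.vecMulVec κ (Stage.atc i f)) =
      Stage.addY (f (S.pt (sd.2.1 i) ((s.fM sd M).1 i)) • κ) (s.fM sd M) := by
  unfold Strat.fM
  rw [fo_can hS sd.2.1 M κ i hf]
  generalize s.tab sd.1 ((S.succ jn k).can (sd.2.1, M)) sd.2.2 = w
  refine Prod.ext rfl ?_
  change w.2 + Stage.sh (sd.2.1, M + Matrix.vecMulVec κ (Stage.atc i f)) w.1 =
    w.2 + Stage.sh (sd.2.1, M) w.1 +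
      f (S.pick (S.can (sd.2.1 i)) ((S.rel (sd.2.1 i)).symm (S.rel (sd.2.1 i) (w.1 i)))) • κ
  rw [fo_sh, Equiv.symm_apply_apply, add_assoc]

theorem fM_tt (hS : S.Good n) {n' : ℕ} (s : Strat (S.succ jn k) n' g) (sd : S.Side k)
    (M : Mat P.l (S.X k)) (κ : P.K) :
    s.fM sd (M + Matrix.vecMulVec κ (S.tt k)) = Stage.addY κ (s.fM sd M) := by
  rw [Stage.tt_eq, fM_atc hS s sd M κ 0 (f := 1) fun _ _ _ => rfl]
  simp

theorem fM_HH (hS : S.Good n) {n' : ℕ} (s : Strat (S.succ jn k) n' g) (sd : S.Side k)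
    (M : Mat P.l (S.X k)) (κ : P.K) :
    ∀ η ∈ Stage.HH sd (s.fM sd M), s.fM sd (M + Matrix.vecMulVec κ η) = s.fM sd M := by
  intro η hη
  generalize hlam : s.fM sd M = lam at hη
  suffices h : ∀ M', s.fM sd M' = lam → s.fM sd (M' + Matrix.vecMulVec κ η) = lam from h M hlam
  unfold Stage.HH at hη
  induction hη using Submodule.span_induction with
  | mem η hη =>
    obtain ⟨i, f, hf, rfl⟩ := hη
    intro M' hM'
    have e : M' + Matrix.vecMulVec κ (Stage.atc i f + f (S.pt (sd.2.1 i) (lam.1 i)) • S.tt k) =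
        M' + Matrix.vecMulVec κ (Stage.atc i f) +
          Matrix.vecMulVec (f (S.pt (sd.2.1 i) (lam.1 i)) • κ) (S.tt k) := by
      funext q y
      simp only [Matrix.add_apply, Matrix.vecMulVec_apply, Pi.add_apply, Pi.smul_apply,
        smul_eq_mul]
      ring
    rw [e, fM_tt hS, fM_atc hS s sd M' κ i hf, hM']
    refine Prod.ext rfl ?_
    change lam.2 + _ + _ = lam.2
    rw [add_assoc, mod2_add_self, add_zero]
  | zero =>
    intro M' hM'
    rw [fo_zero, hM']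
  | add x y _ _ hx hy =>
    intro M' hM'
    rw [Matrix.vecMulVec_add, ← add_assoc]
    exact hy _ (hx _ hM')
  | smul c x _ hx =>
    intro M' hM'
    rcases fo_z2 c with rfl | rfl
    · rw [zero_smul, fo_zero, hM']
    · rw [one_smul]; exact hx _ hM'

theorem valid_pt {sd : S.Side k} {lam : S.Lab' k} {z : S.X k → ZMod 2} (h1 : S.tt k ⬝ᵥ z = 1)
    (h2 : ∀ η ∈ Stage.HH sd lam, η ⬝ᵥ z = 0) (i : Fin (k + 1)) {f : S.Fn}
    (hf : S.Meas (sd.2.1 i) f) : (fun σ => z (i, σ)) ⬝ᵥ f = f (S.pt (sd.2.1 i) (lam.1 i)) := by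
  have h := h2 _ (Submodule.subset_span ⟨i, f, hf, rfl⟩)
  rw [add_dotProduct, smul_dotProduct, h1, Stage.atc_dot, smul_eq_mul, mul_one] at h
  have h3 := mod2_add_self (f (S.pt (sd.2.1 i) (lam.1 i)))
  exact add_right_cancel (h.trans h3.symm)

end Vale.Agent.P339
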