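import Vale.Agent.P339.NL
import Vale.Agent.P339.Fold

/-!
Averaging over the hidden products (aux names: `b1_*`).
Plan.  For `x : Fin ρ × Bool → Par'` let `q[x] t = x (s, b)` if `t = (jn, inr (κ, s, b))`, else `q t`.
`𝔼 q, F q = 𝔼 q, 𝔼 x, F q[x]` (for instance `q[x] = q[0] + emb x`; or `F (q + emb x)` with `expect_add_right'`
and bilinearity; or `expect_resample`).  `sideP U r q[x] = sideP U r q` (`side_congr`),
`mat r q[x] = mat r q[0] + hid κ ⊗ atc r.1 (∑ s, ev (low (x (s,false))) * ev (low (x (s,true))))`,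
`(q + δ)[x] = q[x] + δ`, `mat r (q + δ) = mat r q` (`mat_congr`).  By `z_inv`, `ys_inv`, `sg_shift`, `atc_dot`:
`∑ y, hb hb' = c * chi (∑ s, B (x (s,false)) (x (s,true)))` with `|c| ≤ 1` independent of `x` and
`B α β = (zs + zs') ⬝ᵥ (ev (low α) * ev (low β))` (`LinearMap.mk₂`).  If `B ≠ 0`: `hid_le`.  If `B = 0`: pointwise
`≤ ind (Agr q[x] (q[x] + δ))` (`low_surj`; if `c ≠ 0` then `sg' ≠ 0` and `Bad`).
-/

namespace Vale.Agent.P339

open Vale.Agent.P325 Finset
open scoped BigOperators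

variable {P : Prm} {S : Stage P} {jn : Fin P.T} {k n : ℕ} {g : Eg P}


theorem b1_resample {ι I V : Type} [Fintype ι] [DecidableEq ι] [Fintype I] [DecidableEq I]
    [Fintype V] [Nonempty V] (i : ι → I) (hi : Function.Injective i) (F : (I → V) → ℝ) :
    (𝔼 q, F q) = 𝔼 q : I → V, 𝔼 x : ι → V, F (Function.extend i x q) := by
  have h := expect_equiv' (Function.Involutive.toPerm
    (fun p : (I → V) × (ι → V) => (Function.extend i p.2 p.1, p.1 ∘ i)) fun p => by
      refine Prod.ext (funext fun t => ?_) (funext fun s => hi.extend_apply _ _ s)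
      by_cases ht : ∃ s, i s = t
      · obtain ⟨s, rfl⟩ := ht
        exact hi.extend_apply _ _ s
      · exact (Function.extend_apply' _ _ t ht).trans (Function.extend_apply' _ _ t ht))
    fun p => F p.1
  rw [expect_prod', expect_prod'] at h
  simp only [Finset.expect_const univ_nonempty] at h
  exact h.symm

/-- The names of the hidden products along `κ`. -/
def b1i (jn : Fin P.T) (κ : F2 P.e) (sb : Fin P.ρ × Bool) : P.I := (jn, Sum.inr (κ, sb))

theorem b1i_inj (jn : Fin P.T) (κ : F2 P.e) : Function.Injective (b1i jn κ) := fun a b h => by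
  simpa [b1i] using h

theorem b1_off {V : Type} {κ : F2 P.e} (x : Fin P.ρ × Bool → V) (q : P.I → V) {t : P.I}
    (h : ∀ sb, b1i jn κ sb ≠ t) : Function.extend (b1i jn κ) x q t = q t :=
  Function.extend_apply' _ _ t fun ⟨sb, e⟩ => h sb e

theorem b1_on {V : Type} {κ : F2 P.e} (x : Fin P.ρ × Bool → V) (q : P.I → V)
    (sb : Fin P.ρ × Bool) : Function.extend (b1i jn κ) x q (jn, Sum.inr (κ, sb)) = x sb :=
  (b1i_inj jn κ).extend_apply _ _ sb

/-- The sum of the hidden products. -/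
def b1f (r : S.Rn' k) (x : Fin P.ρ × Bool → S.Par' k) : S.Fn :=
  ∑ s, S.ev r.2.2 (Stage.low (x (s, false))) * S.ev r.2.2 (Stage.low (x (s, true)))

theorem b1_mat {κ : F2 P.e} (r : S.Rn' k) (x : Fin P.ρ × Bool → S.Par' k) (q : P.I → S.Par' k) :
    Stage.mat jn r (Function.extend (b1i jn κ) x q) =
      Stage.mat jn r (Function.extend (b1i jn κ) 0 q) +
        Matrix.vecMulVec (P.hid κ) (Stage.atc r.1 (b1f r x)) := by
  have h1 : ∀ σ, Stage.hidT jn (fun t => S.ev r.2.2 (Stage.low (Function.extend (b1i jn κ) x q t))) σ =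
      Stage.hidT jn (fun t => S.ev r.2.2 (Stage.low (Function.extend (b1i jn κ) 0 q t))) σ +
        b1f r x σ • P.hid κ := by
    intro σ
    unfold Stage.hidT
    rw [← Finset.add_sum_erase _ _ (mem_univ κ), ← Finset.add_sum_erase _ _ (mem_univ κ),
      add_right_comm]
    congr 1
    · simp [b1_on, b1f, Finset.sum_smul]
    · refine Finset.sum_congr rfl fun κ' h => Finset.sum_congr rfl fun s _ => ?_
      have h2 : ∀ (b : Bool) sb, b1i jn κ sb ≠ (jn, Sum.inr (κ', s, b)) := fun b sb e =>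
        (mem_erase.1 h).1 (by simp only [b1i, Prod.mk.injEq, Sum.inr.injEq] at e; exact e.2.1.symm)
      simp only [b1_off _ q (h2 _)]
  funext i y
  have h2 : ∀ sb, b1i jn κ sb ≠ (jn, Sum.inl i) := fun sb e => by simp [b1i] at e
  simp only [Stage.mat, b1_off _ q h2, h1, Matrix.add_apply, Matrix.vecMulVec_apply, Stage.atc]
  split_ifs
  · simp only [Pi.add_apply, Pi.smul_apply, smul_eq_mul]
    ring
  · simp

theorem b1_form (r : S.Rn' k) (z : S.Fn) :
    ∃ B : S.Par' k →ₗ[ZMod 2] S.Par' k →ₗ[ZMod 2] ZMod 2, ∀ α β,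
      B α β = z ⬝ᵥ (S.ev r.2.2 (Stage.low α) * S.ev r.2.2 (Stage.low β)) :=
  ⟨LinearMap.mk₂ (ZMod 2)
    (fun α β => z ⬝ᵥ (S.ev r.2.2 (Stage.low α) * S.ev r.2.2 (Stage.low β)))
    (fun _ _ _ => by rw [map_add, map_add, add_mul, dotProduct_add])
    (fun _ _ _ => by rw [map_smul, map_smul, smul_mul_assoc, dotProduct_smul])
    (fun _ _ _ => by rw [map_add, map_add, mul_add, dotProduct_add])
    (fun _ _ _ => by rw [map_smul, map_smul, mul_smul_comm, dotProduct_smul]), fun _ _ => rfl⟩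

theorem bw1 (hS : S.Good n) (hj : (jn : ℕ) = n + 1) {κ : F2 P.e}
    (D : Dec (Stage.HH (S := S) (k := k)) (S.tt k) (P.hid κ)) (L : ℕ)
    (U : Fin (k + 1) × S.Co → ℕ) (r : S.Rn' k) (δ : P.I → S.Par' k) (hδ : ∀ q, δ (jn, q) = 0) :
    (𝔼 q : P.I → S.Par' k, ∑ y, D.hb L r (Stage.sideP jn U r q) (Stage.mat jn r q) y *
        D.hb L r (Stage.sideP jn U r (q + δ)) (Stage.mat jn r (q + δ)) y) ≤
      (1 / 2) ^ P.ρ + 𝔼 q : P.I → S.Par' k, ind (D.Agr jn L U r q (q + δ)) := by
  rw [b1_resample (b1i jn κ) (b1i_inj jn κ), b1_resample (b1i jn κ) (b1i_inj jn κ)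
    fun q => ind (D.Agr jn L U r q (q + δ))]
  rw [← Finset.expect_const (univ_nonempty (α := P.I → S.Par' k)) ((1 / 2 : ℝ) ^ P.ρ),
    ← Finset.expect_add_distrib]
  refine expect_mono' fun q => ?_
  obtain ⟨M, hM⟩ : ∃ M, M = Stage.mat jn r (Function.extend (b1i jn κ) 0 q) := ⟨_, rfl⟩
  obtain ⟨sd, hsd⟩ : ∃ sd, sd = Stage.sideP jn U r q := ⟨_, rfl⟩
  obtain ⟨sd', hsd'⟩ : ∃ sd', sd' = Stage.sideP jn U r (q + δ) := ⟨_, rfl⟩
  have e1 : ∀ x, Stage.sideP jn U r (Function.extend (b1i jn κ) x q) = sd := fun x =>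
    hsd ▸ Stage.side_congr hS hj U r fun t ht => b1_off x q fun sb e => ht (e ▸ rfl)
  have e2 : ∀ x, Stage.sideP jn U r (Function.extend (b1i jn κ) x q + δ) = sd' := fun x =>
    hsd' ▸ Stage.side_congr hS hj U r fun t ht => by
      rw [Pi.add_apply, Pi.add_apply, b1_off x q fun sb e => ht (congrArg Prod.fst e).symm]
  have e3 : ∀ x, Stage.mat jn r (Function.extend (b1i jn κ) x q) =
      M + Matrix.vecMulVec (P.hid κ) (Stage.atc r.1 (b1f r x)) := fun x => hM ▸ b1_mat r x q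
  have e4 : ∀ x, Stage.mat jn r (Function.extend (b1i jn κ) x q + δ) =
      M + Matrix.vecMulVec (P.hid κ) (Stage.atc r.1 (b1f r x)) := fun x =>
    (Stage.mat_congr r fun t => by rw [Pi.add_apply, hδ, add_zero]).trans (e3 x)
  obtain ⟨c, hc⟩ : ∃ c, c = ∑ y, D.hb L r sd M y * D.hb L r sd' M y := ⟨_, rfl⟩
  have c1 : c = D.sg sd M * ind (Stage.Bad L r (D.z sd M)) *
      (D.sg sd' M * ind (Stage.Bad L r (D.z sd' M))) * ind (D.ys sd M = D.ys sd' M) := by
    rw [hc, ← sum_ind_mul_ind, Finset.mul_sum]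
    exact Finset.sum_congr rfl fun y _ => by unfold Dec.hb; ring
  have c2 : |c| ≤ 1 := by
    rw [c1]
    simp only [abs_mul]
    exact mul_le_one₀ (mul_le_one₀ (mul_le_one₀ (D.abs_le _ _) (abs_nonneg _) (abs_ind_le _))
      (by positivity) (mul_le_one₀ (D.abs_le _ _) (abs_nonneg _) (abs_ind_le _)))
      (abs_nonneg _) (abs_ind_le _)
  obtain ⟨B, hB⟩ := b1_form r ((fun σ => D.z sd M (r.1, σ)) + fun σ => D.z sd' M (r.1, σ))
  have e5 : ∀ x : Fin P.ρ × Bool → S.Par' k,
      ∑ y, D.hb L r sd (M + Matrix.vecMulVec (P.hid κ) (Stage.atc r.1 (b1f r x))) y *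
        D.hb L r sd' (M + Matrix.vecMulVec (P.hid κ) (Stage.atc r.1 (b1f r x))) y =
      c * chi (∑ s, B (x (s, false)) (x (s, true))) := by
    intro x
    simp only [hB]
    rw [← dotProduct_sum, add_dotProduct, chi_add, hc, Finset.sum_mul]
    refine Finset.sum_congr rfl fun y _ => ?_
    simp only [Dec.hb, D.z_inv, D.ys_inv, D.sg_shift, Stage.atc_dot, b1f]
    ring
  simp only [e1, e2, e3, e4, e5]
  by_cases h0 : B = 0
  · refine le_add_of_nonneg_of_le (by positivity) (expect_mono' fun x => ?_)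
    simp only [h0, LinearMap.zero_apply, Finset.sum_const_zero, chi, if_true, mul_one]
    by_cases h1 : c = 0
    · rw [h1]
      exact ind_nonneg' _
    rw [ind_pos]
    · exact (le_abs_self c).trans c2
    rw [c1] at h1
    simp only [mul_eq_zero, not_or] at h1
    refine ⟨?_, ?_, fun α β => ?_⟩
    · rw [e2, e4, D.sg_shift]
      exact mul_ne_zero h1.1.2.1 fun h2 => by
        have h3 := congrArg abs h2
        rw [abs_chi, abs_zero] at h3
        exact one_ne_zero h3
    · rw [e1, e3, D.z_inv]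
      by_contra h2
      exact h1.1.1.2 (ind_neg h2)
    · have h2 := hB ((0, α.1), α.2) ((0, β.1), β.2)
      rw [h0, Stage.low_surj, Stage.low_surj, add_dotProduct] at h2
      unfold Dec.zs
      rw [e1, e2, e3, e4, D.z_inv, D.z_inv]
      exact z2_add_eq_zero.1 h2.symm
  · refine le_add_of_le_of_nonneg ?_ (Finset.expect_nonneg fun x _ => ind_nonneg' _)
    rw [← Finset.mul_expect]
    refine (le_abs_self _).trans ?_
    rw [abs_mul]
    exact (mul_le_of_le_one_left (abs_nonneg _) c2).trans (hid_le B h0 _)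

end Vale.Agent.P339
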