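import Vale.Agent.P339.Basic

/-!
Random directions are independent modulo the hidden directions; a bad vector has a rare radical
(aux names: `in_*`).
`ind_le`: if no nonzero `γ : J → ZMod 2` has `∑ u, γ u • a u ∈ range hid`, the duals exist: for each `u`,
`a u ∉ range hid ⊔ span {a u' | u' ≠ u}`, so some functional vanishes on that subspace and not on `a u`
(`Submodule.exists_dual_map_eq_bot_of_notMem` or `Subspace.forall_mem_dualAnnihilator_apply_eq_zero_iff`).
Union bound over `γ ≠ 0` and `κ`: `∑ u, γ u • a u` is uniform (`expect_update`, `expect_add_left'`),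
`𝔼 v, ind (v = hid κ) = 1 / 2^l` (`expect_ind_eq`).
`badp_le`: let `μ a` be the marginal, `T` its support, `a0 ∈ T`.  Write `β = β0 + (0, single c g)` with
`β0`, `g` uniform (`expect_add_right'`).  Testing with `α = (0, single c (single a 1))` gives for `a ∈ T`:
`z ⬝ᵥ (1_a * R β) = z ⬝ᵥ R β`, where `z ⬝ᵥ (1_a * R β) = z ⬝ᵥ (1_a * R β0) + g a`.  Hence
`g a = g a0 + t a` for `a ∈ T.erase a0` with `t` depending on `β0` only; this has probability
`(1/2)^(card T - 1) ≤ (1/2)^L` (for instance `expect_update` at `a0`, then `expect_pi_prod`).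
-/

namespace Vale.Agent.P339

open Vale.Agent.P325 Finset
open scoped BigOperators

theorem in_dual {l e : ℕ} (hid : F2 e →ₗ[ZMod 2] F2 l) {J : Type} [Fintype J] [DecidableEq J]
    (a : J → F2 l) (h : ∀ γ : J → ZMod 2, γ ≠ 0 → ∀ κ, ∑ u, γ u • a u ≠ hid κ) :
    ∃ ψ : J → F2 l →ₗ[ZMod 2] ZMod 2, (∀ u κ, ψ u (hid κ) = 0) ∧
      ∀ u u', ψ u (a u') = if u = u' then 1 else 0 := by
  let T : (J → ZMod 2) →ₗ[ZMod 2] (F2 l ⧸ LinearMap.range hid) :=
    (LinearMap.range hid).mkQ ∘ₗ Fintype.linearCombination (ZMod 2) a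
  have hT : LinearMap.ker T = ⊥ := by
    refine LinearMap.ker_eq_bot'.2 fun γ hγ => ?_
    by_contra h0
    have h1 : Fintype.linearCombination (ZMod 2) a γ ∈ LinearMap.range hid :=
      (Submodule.Quotient.mk_eq_zero _).1 hγ
    obtain ⟨κ, hκ⟩ := h1
    exact h γ h0 κ (by rw [hκ, Fintype.linearCombination_apply])
  obtain ⟨g, hg⟩ := T.exists_leftInverse_of_injective hT
  refine ⟨fun u => LinearMap.proj u ∘ₗ g ∘ₗ (LinearMap.range hid).mkQ, fun u κ => ?_,
    fun u u' => ?_⟩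
  · have : (LinearMap.range hid).mkQ (hid κ) = 0 :=
      (Submodule.Quotient.mk_eq_zero _).2 ⟨κ, rfl⟩
    simp only [LinearMap.comp_apply, this, map_zero]
  · have h1 : (LinearMap.range hid).mkQ (a u') = T (Pi.single u' 1) := by
      simp only [T, LinearMap.comp_apply, Fintype.linearCombination_apply_single, one_smul]
    have h2 : g (T (Pi.single u' 1)) = Pi.single u' 1 := LinearMap.congr_fun hg _
    simp only [LinearMap.comp_apply, h1, h2, LinearMap.proj_apply, Pi.single_apply]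

theorem in_unif {l : ℕ} {J : Type} [Fintype J] [DecidableEq J] (γ : J → ZMod 2) (v : F2 l) :
    (𝔼 a : J → F2 l, ind (γ ≠ 0 ∧ ∑ u, γ u • a u = v)) ≤ 1 / 2 ^ l := by
  by_cases hγ : γ = 0
  · exact expect_le_of_le fun a => by rw [ind_neg fun h => h.1 hγ]; positivity
  obtain ⟨u0, hu⟩ := Function.ne_iff.1 hγ
  have hu1 : γ u0 = 1 := z2_ne_zero.1 hu
  rw [expect_update u0]
  refine expect_le_of_le fun a => ?_
  have e : ∀ w, ind (γ ≠ 0 ∧ ∑ u, γ u • Function.update a u0 w u = v) =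
      ind (w = v - ∑ u ∈ univ.erase u0, γ u • a u) := by
    intro w
    refine ind_congr' ?_
    rw [← Finset.add_sum_erase _ _ (mem_univ u0), Function.update_self, hu1, one_smul,
      Finset.sum_congr rfl fun u hu => by rw [Function.update_of_ne (ne_of_mem_erase hu)],
      eq_sub_iff_add_eq]
    exact and_iff_right hγ
  simp only [e]
  rw [expect_ind_eq]
  simp

theorem ind_le {l e : ℕ} (hid : F2 e →ₗ[ZMod 2] F2 l) (J : Type) [Fintype J] [DecidableEq J] :
    (𝔼 a : J → F2 l, ind (¬ ∃ ψ : J → F2 l →ₗ[ZMod 2] ZMod 2, (∀ u κ, ψ u (hid κ) = 0) ∧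
      ∀ u u', ψ u (a u') = if u = u' then 1 else 0)) ≤ 2 ^ Fintype.card J * 2 ^ e / 2 ^ l := by
  classical
  have h1 : ∀ a : J → F2 l, ind (¬ ∃ ψ : J → F2 l →ₗ[ZMod 2] ZMod 2, (∀ u κ, ψ u (hid κ) = 0) ∧
      ∀ u u', ψ u (a u') = if u = u' then 1 else 0) ≤
      ∑ p : (J → ZMod 2) × F2 e, ind (p.1 ≠ 0 ∧ ∑ u, p.1 u • a u = hid p.2) := by
    intro a
    by_cases h : ∀ γ : J → ZMod 2, γ ≠ 0 → ∀ κ, ∑ u, γ u • a u ≠ hid κ
    · rw [ind_neg (not_not.2 (in_dual hid a h))]
      exact Finset.sum_nonneg fun _ _ => ind_nonneg' _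
    · push Not at h
      obtain ⟨γ, hγ, κ, hκ⟩ := h
      refine (ind_le_one' _).trans ?_
      rw [← ind_pos (show γ ≠ 0 ∧ ∑ u, γ u • a u = hid κ from ⟨hγ, hκ⟩)]
      exact Finset.single_le_sum (f := fun p : (J → ZMod 2) × F2 e =>
        ind (p.1 ≠ 0 ∧ ∑ u, p.1 u • a u = hid p.2)) (fun _ _ => ind_nonneg' _) (mem_univ (γ, κ))
  refine (expect_mono' h1).trans ?_
  rw [Finset.expect_sum_comm]
  refine (Finset.sum_le_sum fun p _ => in_unif p.1 (hid p.2)).trans (le_of_eq ?_)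
  simp [div_eq_mul_inv]

theorem in_pi {A : Type} [Fintype A] [DecidableEq A] (S : Finset A) (t : A → ZMod 2) :
    (𝔼 g : A → ZMod 2, ind (∀ a ∈ S, g a = t a)) = (1 / 2) ^ S.card := by
  have e : ∀ g : A → ZMod 2, ind (∀ a ∈ S, g a = t a) =
      ∏ a, if a ∈ S then ind (g a = t a) else 1 := by
    intro g
    rw [Finset.prod_ite_mem, univ_inter]
    by_cases h : ∀ a ∈ S, g a = t a
    · rw [ind_pos h, Finset.prod_eq_one fun a ha => ind_pos (h a ha)]
    · rw [ind_neg h]
      push Not at h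
      obtain ⟨a, ha, h⟩ := h
      exact (Finset.prod_eq_zero ha (ind_neg h)).symm
  simp only [e]
  rw [expect_pi_prod fun a y => if a ∈ S then ind (y = t a) else 1]
  have e2 : ∀ a, (𝔼 y : ZMod 2, if a ∈ S then ind (y = t a) else 1) =
      if a ∈ S then (1 / 2 : ℝ) else 1 := by
    intro a
    split_ifs
    · rw [expect_ind_eq]; simp
    · exact Finset.expect_const univ_nonempty _
  simp only [e2]
  rw [Finset.prod_ite_mem, univ_inter, Finset.prod_const]

theorem in_shift {A : Type} [Fintype A] [DecidableEq A] (T : Finset A) {L : ℕ} (hL : L < T.card)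
    (t : A → ZMod 2) (p : (A → ZMod 2) → Prop)
    (hp : ∀ g, p g → ∃ s, ∀ a ∈ T, t a + g a + s = 0) : (𝔼 g, ind (p g)) ≤ (1 / 2) ^ L := by
  obtain ⟨a0, ha0⟩ : T.Nonempty := Finset.card_pos.1 (by omega)
  have h1 : ∀ g, p g → ∀ a ∈ T.erase a0, g a = g a0 + t a0 - t a := by
    intro g hg a ha
    obtain ⟨s, h2⟩ := hp g hg
    linear_combination h2 a (mem_of_mem_erase ha) - h2 a0 ha0
  refine (expect_mono' fun g => ind_mono' (h1 g)).trans ?_
  rw [expect_update a0, expect_comm]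
  refine expect_le_of_le fun b => ?_
  have e : ∀ g : A → ZMod 2, ind (∀ a ∈ T.erase a0,
      Function.update g a0 b a = Function.update g a0 b a0 + t a0 - t a) =
      ind (∀ a ∈ T.erase a0, g a = b + t a0 - t a) := fun g =>
    ind_congr' (forall₂_congr fun a ha => by
      rw [Function.update_self, Function.update_of_ne (ne_of_mem_erase ha)])
  simp only [e]
  rw [in_pi (T.erase a0) fun a => b + t a0 - t a, Finset.card_erase_of_mem ha0]
  exact pow_le_pow_of_le_one (by norm_num) (by norm_num) (by omega)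

theorem in_avg {V G : Type} [AddCommGroup V] [Fintype V] [Fintype G] [Nonempty G] (F : V → ℝ)
    (k : G → V) {c : ℝ} (h : ∀ β, (𝔼 g, F (β + k g)) ≤ c) : (𝔼 β, F β) ≤ c := by
  have : Nonempty V := ⟨0⟩
  have h1 : (𝔼 β, F β) = 𝔼 g : G, 𝔼 β, F (β + k g) := by
    simp only [expect_add_right']
    exact (Finset.expect_const univ_nonempty _).symm
  rw [h1, expect_comm]
  exact expect_le_of_le h

theorem badp_le {U C A Co : Type} [AddCommGroup U] [Module (ZMod 2) U] [Fintype U] [Fintype C]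
    [DecidableEq C] [Fintype A] [DecidableEq A] [Fintype Co] [DecidableEq Co] (bc : C → Co)
    (R : (U × (C → A → ZMod 2)) →ₗ[ZMod 2] ((Co → A) → ZMod 2))
    (hR : ∀ b σ, R (0, b) σ = ∑ c, b c (σ (bc c))) (z : (Co → A) → ZMod 2) (c : C) {L : ℕ}
    (hL : L < (univ.filter fun a => (∑ σ : Co → A, if σ (bc c) = a then z σ else 0) ≠ 0).card) :
    (𝔼 β, ind (∀ α, z ⬝ᵥ (R α * R β) + (z ⬝ᵥ R α) * (z ⬝ᵥ R β) = 0)) ≤ (1 / 2) ^ L := by
  have hRs : ∀ (g : A → ZMod 2) σ, R (0, Pi.single c g) σ = g (σ (bc c)) := by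
    intro g σ
    rw [hR, Finset.sum_eq_single c (fun b _ hb => by simp [hb]) (by simp)]
    simp
  have hdot : ∀ a, (∑ σ : Co → A, if σ (bc c) = a then z σ else 0) ≠ 0 → ∀ g : A → ZMod 2,
      z ⬝ᵥ (R (0, Pi.single c (Pi.single a 1)) * R (0, Pi.single c g)) = g a := by
    intro a ha g
    refine Eq.trans ?_ ((congrArg (· * g a) (z2_ne_zero.1 ha)).trans (one_mul _))
    simp only [Finset.sum_mul]
    refine Finset.sum_congr rfl fun σ _ => ?_
    rw [Pi.mul_apply, hRs, hRs, Pi.single_apply]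
    split_ifs with h
    · rw [h, one_mul]
    · simp
  have hone : ∀ a, (∑ σ : Co → A, if σ (bc c) = a then z σ else 0) ≠ 0 →
      z ⬝ᵥ R (0, Pi.single c (Pi.single a 1)) = 1 := by
    intro a ha
    have h1 := hdot a ha 1
    have h2 : R (0, Pi.single c 1) = 1 := funext fun σ => hRs 1 σ
    rwa [h2, mul_one] at h1
  refine in_avg (G := A → ZMod 2) _ (fun g => (0, Pi.single c g)) fun β => ?_
  refine in_shift _ hL (fun a => z ⬝ᵥ (R (0, Pi.single c (Pi.single a 1)) * R β)) _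
    fun g hg => ⟨z ⬝ᵥ R (β + (0, Pi.single c g)), fun a ha => ?_⟩
  have ha' := (mem_filter.1 ha).2
  have h3 := hg (0, Pi.single c (Pi.single a 1))
  rw [hone a ha', one_mul] at h3
  rw [← h3, map_add R β, mul_add, dotProduct_add z (_ * _), hdot a ha']

end Vale.Agent.P339
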