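import Vale.Agent.P339.NL
import Vale.Agent.P339.Ind
import Vale.Agent.P339.Fold

/-!
A bad vector rarely survives the walk (aux names: `b2_*`).
Plan.  `z = D.zs jn U r q`, `R = S.row r.2.2 j' ∘ low`, `B α β = z ⬝ᵥ (R α * R β) + (z ⬝ᵥ R α) * (z ⬝ᵥ R β)`
(`LinearMap.mk₂`), `o u = ∑ i, ψ u (single i 1) • q (j', inl i)`.  If `Bad` fails the left side is zero.
Otherwise `badp_le` (with `U = (Fin (k+1) → Fn) × Up`, `bc = S.botc r.2.2`, `row_bot`) and `nl_le`.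
`Agr` implies `B (o a + x a) (o b + x b) = 0`: for `q' = q + ∑ u, ..` one has
`∑ i, ψ u (single i 1) • q' (j', inl i) = o u + x u` (`psi_sum`, `hψ`), so `F u = R (o u + x u)` is `Meas` for the
question of the special child (`hS.meas`, `side_kid`), so are the products; `D.valid`, `valid_pt` give
`z' ⬝ᵥ (F a * F b) = (z' ⬝ᵥ F a) * (z' ⬝ᵥ F b)`; by `row_ev`, `Good.ev_one` and the agreement the same holds for `z`.
-/

namespace Vale.Agent.P339

open Vale.Agent.P325 Finset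
open scoped BigOperators

variable {P : Prm} {S : Stage P} {jn : Fin P.T} {k n : ℕ} {g : Eg P}


theorem b2_form {V X : Type} [AddCommGroup V] [Module (ZMod 2) V] [Fintype X]
    (R : V →ₗ[ZMod 2] (X → ZMod 2)) (z : X → ZMod 2) :
    ∃ B : V →ₗ[ZMod 2] V →ₗ[ZMod 2] ZMod 2, ∀ α β,
      B α β = z ⬝ᵥ (R α * R β) + (z ⬝ᵥ R α) * (z ⬝ᵥ R β) :=
  ⟨LinearMap.mk₂ (ZMod 2) (fun α β => z ⬝ᵥ (R α * R β) + (z ⬝ᵥ R α) * (z ⬝ᵥ R β))
    (fun _ _ _ => by rw [map_add, add_mul, dotProduct_add, dotProduct_add]; ring)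
    (fun _ _ _ => by
      rw [map_smul, smul_mul_assoc, dotProduct_smul, dotProduct_smul]
      simp only [smul_eq_mul]; ring)
    (fun _ _ _ => by rw [map_add, mul_add, dotProduct_add, dotProduct_add]; ring)
    (fun _ _ _ => by
      rw [map_smul, mul_smul_comm, dotProduct_smul, dotProduct_smul]
      simp only [smul_eq_mul]; ring), fun _ _ => rfl⟩

theorem b2_sum {V J : Type} [AddCommGroup V] [Module (ZMod 2) V] [Fintype J] [DecidableEq J]
    {j : Fin P.T} (q : P.I → V) (a : J → P.K) (x : J → V) (ψ : J → P.K →ₗ[ZMod 2] ZMod 2)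
    (hψ : ∀ u u', ψ u (a u') = if u = u' then 1 else 0) (u : J) :
    ∑ i, ψ u (Pi.single i 1) • (q + ∑ u, Prm.bump j (a u) (x u) 0) (j, Sum.inl i) =
      ∑ i, ψ u (Pi.single i 1) • q (j, Sum.inl i) + x u := by
  simp only [Pi.add_apply, Finset.sum_apply, Prm.bump_inl, Pi.zero_apply, zero_add, smul_add,
    Finset.sum_add_distrib, Finset.smul_sum, smul_smul]
  rw [Finset.sum_comm]
  simp only [← Finset.sum_smul, psi_sum, hψ]
  simp

theorem bw2 (hS : S.Good n) {j' : Fin P.T} (hj' : (j' : ℕ) ≤ n) {κ : P.K}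
    (D : Dec (Stage.HH (S := S) (k := k)) (S.tt k) κ) (L : ℕ) (U : Fin (k + 1) × S.Co → ℕ)
    (r : S.Rn' k) (q : P.I → S.Par' k) (η : ℕ) (a : Fin η ⊕ Fin η → P.K)
    (ψ : Fin η ⊕ Fin η → P.K →ₗ[ZMod 2] ZMod 2) (hψ0 : ∀ u κ', ψ u (P.hid κ') = 0)
    (hψ : ∀ u u', ψ u (a u') = if u = u' then 1 else 0) :
    (𝔼 x : Fin η ⊕ Fin η → S.Par' k,
      ind (D.Agr jn L U r q (q + ∑ u, Prm.bump j' (a u) (x u) 0))) ≤
      (1 / 2) ^ (η * η) + (1 / 2) ^ L := by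
  by_cases hb : Stage.Bad L r (D.z (Stage.sideP jn U r q) (Stage.mat jn r q))
  swap
  · exact expect_le_of_le fun x => (ind_neg fun h => hb h.2.1).trans_le (by positivity)
  obtain ⟨c, hc⟩ := hb
  obtain ⟨R, hR⟩ : ∃ R : S.Par' k →ₗ[ZMod 2] S.Fn, R = S.row r.2.2 j' ∘ₗ Stage.low := ⟨_, rfl⟩
  obtain ⟨B, hB⟩ := b2_form R (D.zs jn U r q)
  have h1 : (𝔼 β, ind (∀ α, B α β = 0)) ≤ (1 / 2) ^ L := by
    simp only [hB]
    exact badp_le (S.botc r.2.2) R (fun b σ => by rw [hR]; exact hS.row_bot r.2.2 j' b σ) _ c hc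
  refine le_trans (expect_mono' fun x => ind_mono' ?_)
    (nl_le B h1 η fun u => ∑ i, ψ u (Pi.single i 1) • q (j', Sum.inl i))
  obtain ⟨q', hq'⟩ : ∃ q', q' = q + ∑ u, Prm.bump j' (a u) (x u) 0 := ⟨_, rfl⟩
  rw [← hq']
  rintro ⟨g1, -, g3⟩
  obtain ⟨v1, lam, v2⟩ := D.valid _ _ g1
  have m1 : ∀ u, S.Meas ((Stage.sideP jn U r q').2.1 r.1)
      (R (∑ i, ψ u (Pi.single i 1) • q (j', Sum.inl i) + x u)) := by
    intro u σ σ' h
    rw [Stage.side_kid] at h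
    have h2 := hS.meas r.2.2 _ j' hj' (ψ u) (hψ0 u) σ σ' h
    simp only [← map_smul, ← map_sum] at h2
    rw [hR, ← b2_sum q a x ψ hψ u, ← hq']
    exact h2
  obtain ⟨o, ho⟩ := hS.ev_one jn r.2.2
  have key : ∀ α β : S.Par' k, S.Meas ((Stage.sideP jn U r q').2.1 r.1) (R α) →
      S.Meas ((Stage.sideP jn U r q').2.1 r.1) (R β) → B α β = 0 := by
    intro α β hα hβ
    have p1 := valid_pt v1 v2 r.1 hα
    have p2 := valid_pt v1 v2 r.1 hβ
    have p3 := valid_pt v1 v2 r.1 (f := R α * R β) fun σ σ' h => by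
      rw [Pi.mul_apply, Pi.mul_apply, hα σ σ' h, hβ σ σ' h]
    obtain ⟨α', e1⟩ : ∃ α', R α = S.ev r.2.2 α' := hR ▸ hS.row_ev r.2.2 j' _
    obtain ⟨β', e2⟩ : ∃ β', R β = S.ev r.2.2 β' := hR ▸ hS.row_ev r.2.2 j' _
    have t1 := g3 α' o
    have t2 := g3 β' o
    have t3 := g3 α' β'
    rw [ho, mul_one] at t1 t2
    rw [← e1] at t1 t3
    rw [← e2] at t2 t3
    rw [hB, t1, t2, t3]
    unfold Dec.zs
    rw [p1, p2, p3]
    exact z2_add_self _
  exact fun a b => key _ _ (m1 _) (m1 _)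

end Vale.Agent.P339
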