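import Vale.Agent.P339.Walk
import Vale.Agent.P339.BW1
import Vale.Agent.P339.BW2

/-!
The walk bound (aux names: `bw_*`).
Plan.  `walk_le` with `G = I → Par'`, `Ξ = K × Par'`, `s ξ = bump j' ξ.1 ξ.2 0` (`bump j a x q = q + bump j a x 0`),
`h q y = D.hb L r (sideP U r q) (mat r q) y` (`∑ y, h² ≤ 1` by `abs_le`, `sum_ind_eq`).  Swap the averages,
`bw1`, swap back, `expect_pi_pair`, and for fixed `q`, `a`: the average over `x` is at most
`ind (¬ ∃ ψ, ..) + ((1/2)^(η η) + (1/2)^L)` (`bw2`); `ind_le`.  Finally `pow_le_pow_left₀` / `abs_le_of_pow_le`: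
`Θ^(2^(p+1)) ≤ θ^(2^(p+1))` and `0 ≤ θ` give `Θ ≤ θ` (`pow_le_pow_iff_left₀`, or `lt_of_pow_lt_pow_left₀`).
-/

namespace Vale.Agent.P339

open Vale.Agent.P325 Finset
open scoped BigOperators

variable {P : Prm} {S : Stage P} {jn : Fin P.T} {k n : ℕ} {g : Eg P}


theorem bw_sq {κ : P.K} (D : Dec (Stage.HH (S := S) (k := k)) (S.tt k) κ) (L : ℕ) (r : S.Rn' k)
    (sd : S.Side k) (M : Mat P.l (S.X k)) : ∑ y, D.hb L r sd M y ^ 2 ≤ 1 := by
  rw [← sum_ind_eq (D.ys sd M)]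
  refine Finset.sum_le_sum fun y _ => ?_
  unfold Dec.hb
  by_cases h : D.ys sd M = y
  · rw [ind_pos h, mul_one, sq_le_one_iff_abs_le_one, abs_mul]
    exact mul_le_one₀ (D.abs_le _ _) (abs_nonneg _) (abs_ind_le _)
  · rw [ind_neg h]
    simp

theorem badWalk (hS : S.Good n) (hj : (jn : ℕ) = n + 1) {j' : Fin P.T} (hj' : (j' : ℕ) ≤ n)
    {κ : F2 P.e} (D : Dec (Stage.HH (S := S) (k := k)) (S.tt k) (P.hid κ)) {L p : ℕ} {θ : ℝ}
    (hθ : 0 ≤ θ) (hw : werr P.l P.e P.ρ p L ≤ θ ^ (2 ^ (p + 1))) (U : Fin (k + 1) × S.Co → ℕ)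
    (r : S.Rn' k) :
    (𝔼 a : P.K, 𝔼 q : P.I → S.Par' k, 𝔼 x : S.Par' k,
      ∑ y, D.hb L r (Stage.sideP jn U r q) (Stage.mat jn r q) y *
        D.hb L r (Stage.sideP jn U r (Prm.bump j' a x q)) (Stage.mat jn r (Prm.bump j' a x q)) y) ≤
      θ := by
  have hne : jn ≠ j' := fun e => by rw [e] at hj; omega
  have hb : ∀ (a : P.K) (x : S.Par' k) (q : P.I → S.Par' k),
      Prm.bump j' a x q = q + Prm.bump j' a x 0 := fun a x q => by
    funext t
    simp [Prm.bump]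
  have h1 := walk_le (G := P.I → S.Par' k) (Ξ := P.K × S.Par' k) mod2_add_self
    (fun ξ => Prm.bump j' ξ.1 ξ.2 0)
    (fun q y => D.hb L r (Stage.sideP jn U r q) (Stage.mat jn r q) y) (fun q => bw_sq D L r _ _) p
  rw [expect_comm]
  refine le_of_pow_le_pow_left₀ (n := 2 ^ (p + 1)) (by positivity) hθ
    ((le_of_eq ?_).trans (h1.trans (le_trans ?_ hw)))
  · refine congrArg (· ^ _) (expect_congr rfl fun q _ => ?_)
    rw [expect_prod' (A := P.K)]
    simp only [← hb]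
  rw [expect_comm]
  refine (expect_mono' fun ξ => bw1 hS hj D L U r _ fun t => ?_).trans ?_
  · rw [Finset.sum_apply]
    exact Finset.sum_eq_zero fun u _ => Prm.bump_of_ne _ _ _ hne
  rw [Finset.expect_add_distrib, Finset.expect_const univ_nonempty, expect_comm, werr, add_assoc]
  refine add_le_add le_rfl (expect_le_of_le fun q => ?_)
  rw [expect_pi_pair]
  have h2 := ind_le P.hid (Fin (2 ^ p) ⊕ Fin (2 ^ p))
  rw [Fintype.card_sum, Fintype.card_fin] at h2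
  refine le_trans ?_ (add_le_add h2 le_rfl)
  rw [← Finset.expect_const (univ_nonempty (α := Fin (2 ^ p) ⊕ Fin (2 ^ p) → P.K))
    ((1 / 2 : ℝ) ^ (2 ^ p * 2 ^ p) + (1 / 2) ^ L), ← Finset.expect_add_distrib]
  refine expect_mono' fun a => ?_
  by_cases h3 : ∃ ψ : Fin (2 ^ p) ⊕ Fin (2 ^ p) → F2 P.l →ₗ[ZMod 2] ZMod 2,
      (∀ u κ, ψ u (P.hid κ) = 0) ∧ ∀ u u', ψ u (a u') = if u = u' then 1 else 0
  · obtain ⟨ψ, h4, h5⟩ := h3
    exact le_add_of_nonneg_of_le (ind_nonneg' _) (bw2 hS hj' D L U r q _ a ψ h4 h5)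
  · rw [ind_pos h3]
    exact le_add_of_le_of_nonneg (expect_le_of_le fun _ => ind_le_one' _) (by positivity)

end Vale.Agent.P339
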