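import Vale.Agent.P339.Defs

/-! Elementary facts about the parameters of the test. -/

namespace Vale.Agent.P339

open Vale.Agent.P325 Finset
open scoped BigOperators

theorem mod2_add_self {V : Type} [AddCommGroup V] [Module (ZMod 2) V] (x : V) : x + x = 0 := by
  rw [← two_smul (ZMod 2) x, show (2 : ZMod 2) = 0 from rfl, zero_smul]

theorem psi_sum {l : ℕ} (ψ : F2 l →ₗ[ZMod 2] ZMod 2) (a : F2 l) :
    ∑ q, ψ (Pi.single q 1) * a q = ψ a := by
  conv_rhs => rw [pi_eq_sum_univ' a, map_sum]
  exact Finset.sum_congr rfl fun q _ => by rw [map_smul, smul_eq_mul, mul_comm]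

/-- Resampling one coordinate. -/
theorem expect_update {ι A : Type} [Fintype ι] [DecidableEq ι] [Fintype A] [Nonempty A] (i : ι)
    (F : (ι → A) → ℝ) : (𝔼 x, F x) = 𝔼 x : ι → A, 𝔼 a : A, F (Function.update x i a) := by
  have h := expect_equiv' (Function.Involutive.toPerm
    (fun p : (ι → A) × A => (Function.update p.1 i p.2, p.1 i)) fun p => by simp) fun p => F p.1
  rw [expect_prod', expect_prod'] at h
  simp only [Finset.expect_const univ_nonempty] at h
  exact h.symm

namespace Prm

variable {P : Prm} {U : Type}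

theorem abar_ne (a : P.K) : P.abar a ≠ 0 := by
  unfold abar; split_ifs with h
  exacts [P.he0, h]

theorem setd_setd (w : P.W U) (i : Fin P.T) (x y : U × P.Bot) :
    setd (setd w i x) i y = setd w i y := by simp [setd]

theorem setd_self (w : P.W U) (i : Fin P.T) : setd w i (w.2.1 i) = w := by simp [setd]

theorem expect_W [Fintype U] (F : P.W U → ℝ) : (𝔼 w, F w) =
    𝔼 a, 𝔼 d, 𝔼 p, 𝔼 pos, 𝔼 val, F (a, d, p, pos, val) := by
  simp only [expect_prod']

/-- Resampling a fresh part. -/
theorem expect_setd [Fintype U] [Nonempty U] (i : Fin P.T) (F : P.W U → ℝ) :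
    (𝔼 w, F w) = 𝔼 w : P.W U, 𝔼 x, F (setd w i x) := by
  rw [expect_prod', expect_prod']
  refine expect_congr rfl fun a _ => ?_
  rw [expect_prod', expect_prod', expect_update i]
  refine expect_congr rfl fun d _ => ?_
  rw [expect_comm]
  rfl

variable [AddCommGroup U]

/-- Two samples of a fresh part. -/
theorem expect_setd2 [Fintype U] (i : Fin P.T) (F : P.W U → P.W U → ℝ) :
    (𝔼 w : P.W U, 𝔼 x, 𝔼 y, F (setd w i x) (setd w i y)) =
      𝔼 w : P.W U, 𝔼 x, F w (setd w i (w.2.1 i + x)) := by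
  rw [expect_setd i fun w => 𝔼 x, F w (setd w i (w.2.1 i + x))]
  refine expect_congr rfl fun w _ => expect_congr rfl fun x _ => ?_
  rw [← expect_add_left' (fun y => F (setd w i x) (setd w i y)) x]
  simp [setd]

variable [Module (ZMod 2) U]

/-- The unplanted parameters are uniform. -/
theorem expect_tot [Fintype U] (F : (Fin P.T → P.K) → (P.I → U × P.Bot) → Fin (P.m + 1) →
    (P.Grp → P.B → ZMod 2) → ℝ) :
    (𝔼 w : P.W U, F w.1 (tot w.1 w.2.1 w.2.2.1) w.2.2.2.1 w.2.2.2.2) =
      𝔼 a, 𝔼 p, 𝔼 pos, 𝔼 val, F a p pos val := by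
  rw [expect_W]
  refine expect_congr rfl fun a _ => ?_
  refine (expect_congr rfl fun d _ => ?_).trans (expect_const univ_nonempty _)
  exact expect_add_right' (fun p => 𝔼 pos, 𝔼 val, F a p pos val)
    fun t => P.dirc (a t.1) t.2 • d t.1

theorem ppg_setd {Co : Type} (bc : P.C → Co) (πs : Co → P.A → P.B) (w : P.W U) (j : Fin P.T)
    (x : U × P.Bot) : ppg bc πs (setd w j (w.2.1 j + x)) =
      bump j (w.1 j) (zer w.2.2.2.1 x) (ppg bc πs w) := by
  funext t
  have h : tot w.1 (Function.update w.2.1 j (w.2.1 j + x)) w.2.2.1 t =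
      tot w.1 w.2.1 w.2.2.1 t + P.co j (w.1 j) t • x := by
    unfold tot co
    by_cases h : t.1 = j
    · rw [if_pos h, h, Function.update_self, smul_add, add_assoc]
    · rw [if_neg h, Function.update_of_ne h, zero_smul, add_zero]
  refine Prod.ext ?_ (funext fun c => ?_)
  · simp only [ppg, plant, setd, bump, zer, h, Prod.fst_add, Prod.smul_fst]
  · simp only [ppg, plant, setd, bump, zer, h, Prod.snd_add, Prod.smul_snd, Pi.add_apply,
      Pi.smul_apply]
    split_ifs <;> simp

theorem bump_of_ne {V : Type} [AddCommGroup V] [Module (ZMod 2) V] {j : Fin P.T} (a : P.K) (x : V)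
    (p : P.I → V) {t : P.I} (h : t.1 ≠ j) : bump j a x p t = p t := by simp [bump, co, h]

theorem bump_inl {V : Type} [AddCommGroup V] [Module (ZMod 2) V] (j : Fin P.T) (a : P.K) (x : V)
    (p : P.I → V) (q : Fin P.l) : bump j a x p (j, Sum.inl q) = p (j, Sum.inl q) + a q • x := by
  simp [bump, co, dirc]

theorem bump_inr {V : Type} [AddCommGroup V] [Module (ZMod 2) V] (j j' : Fin P.T) (a : P.K) (x : V)
    (p : P.I → V) (q : F2 P.e × Fin P.ρ × Bool) :
    bump j a x p (j', Sum.inr q) = p (j', Sum.inr q) := by simp [bump, co, dirc]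

end Prm

namespace Stage

variable {P : Prm} {S : Stage P} {jn : Fin P.T} {k n : ℕ}

theorem low_surj (x : S.Par) : low (k := k) ((0, x.1), x.2) = x := rfl

theorem low_bump (j : Fin P.T) (a : P.K) (x : S.Par' k) (p : P.I → S.Par' k) :
    (fun t => low (Prm.bump j a x p t)) = Prm.bump j a (low x) fun t => low (p t) := by
  funext t; simp [Prm.bump]

/-- The matrix only depends on the parameters of level `jn`. -/
theorem mat_congr (r : S.Rn' k) {p p' : P.I → S.Par' k} (h : ∀ q, p (jn, q) = p' (jn, q)) :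
    mat jn r p = mat jn r p' := by
  funext q y
  simp only [mat, hidT, h]

theorem mat_bump (r : S.Rn' k) (a : P.K) (x : S.Par' k) (p : P.I → S.Par' k) :
    mat jn r (Prm.bump jn a x p) = mat jn r p + Matrix.vecMulVec a (slc r x) := by
  funext q y
  simp only [mat, hidT, Prm.bump_inl, Prm.bump_inr, map_add, map_smul, Matrix.add_apply,
    Matrix.vecMulVec_apply, Pi.add_apply, Pi.smul_apply, smul_eq_mul]
  ring

/-- The side information does not depend on the parameters of level `jn`. -/
theorem side_congr (hS : S.Good n) (hj : (jn : ℕ) = n + 1) (U : Fin (k + 1) × S.Co → ℕ)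
    (r : S.Rn' k) {p p' : P.I → S.Par' k} (h : ∀ t, t.1 ≠ jn → p t = p' t) :
    sideP jn U r p = sideP jn U r p' := by
  unfold sideP kids
  rw [hS.spd_congr r.2.2 (fun t => low (p t)) (fun t => low (p' t)) fun t ht => by
    rw [h t fun e => by rw [e] at ht; omega]]
  congr 2
  funext t
  split_ifs with ht
  · rw [h t fun e => by rw [e] at ht; omega]
  · rfl

theorem side_kid (U : Fin (k + 1) × S.Co → ℕ) (r : S.Rn' k) (p : P.I → S.Par' k) :
    (sideP jn U r p).2.1 r.1 = S.spd r.2.2 fun t => low (p t) := by simp [sideP, kids]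

theorem atc_dot (i : Fin (k + 1)) (f : S.Fn) (z : S.X k → ZMod 2) :
    atc i f ⬝ᵥ z = (fun σ => z (i, σ)) ⬝ᵥ f := by
  simp only [dotProduct, Fintype.sum_prod_type, atc]
  rw [Finset.sum_eq_single i (fun b _ hb => by simp [hb]) (by simp)]
  simp [mul_comm]

theorem tt_eq : S.tt k = atc 0 1 := rfl

/-- The constant one is a value of `ev`. -/
theorem Good.ev_one (hS : S.Good n) (j : Fin P.T) (r : S.Rn) : ∃ x, S.ev r x = 1 := by
  classical
  refine ⟨(0, Pi.single (0, j, 0) 1), funext fun σ => ?_⟩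
  rw [hS.ev_bot, Finset.sum_eq_single (0, j, 0) (fun b _ hb => by simp [hb]) (by simp)]
  simp

end Stage

end Vale.Agent.P339
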