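import Vale.Agent.P339.Basic

/-!
Three applications of Cauchy-Schwarz (aux names: `cs_*`).
`(𝔼 ω, a ω)² ≤ 𝔼 ω, a ω ²` (`Finset.expect_mul_sq_le_sq_mul_sq` with the constant one), `Real.le_sqrt`.
`unc_le`: for fixed `ω` let `p1 = 𝔼 d, ind (F = γ ∧ U)`, `p2 = 𝔼 d, ind (F = γ' ∧ F ≠ γ ∧ U)`; the left
integrand is `p1 + p2`, the collision probability is at least `p1² + p2²` (pointwise in `d, d'`).
`cs_le`: `(𝔼 d, h ω d (g ω))² ≤ ∑ y, (𝔼 d, h ω d y)² = 𝔼 d, 𝔼 d', ∑ y, h ω d y * h ω d' y`.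
`pair_le`: `(𝔼 i, ind (Q i ω))² = 𝔼 i, 𝔼 j, ind (Q i ω ∧ Q j ω)`, and after averaging over `ω` the term
`(i, j)` is at most `ind (j = i) + η` (`expect_ind_eq`).
-/

namespace Vale.Agent.P339

open Vale.Agent.P325 Finset
open scoped BigOperators

theorem cs_sq {Ω : Type} [Fintype Ω] [Nonempty Ω] (a : Ω → ℝ) :
    (𝔼 ω, a ω) ^ 2 ≤ 𝔼 ω, a ω ^ 2 := by
  have h := Finset.expect_mul_sq_le_sq_mul_sq (univ : Finset Ω) a fun _ => (1 : ℝ)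
  simpa [Finset.expect_const univ_nonempty] using h

theorem cs_sqrt {Ω : Type} [Fintype Ω] [Nonempty Ω] (a : Ω → ℝ) {c : ℝ}
    (h : (𝔼 ω, a ω ^ 2) ≤ c) : (𝔼 ω, a ω) ≤ √c :=
  Real.le_sqrt_of_sq_le ((cs_sq a).trans h)

theorem cs_sq_expect {D : Type} [Fintype D] (a : D → ℝ) :
    (𝔼 d, a d) ^ 2 = 𝔼 d, 𝔼 d', a d * a d' := by
  rw [sq, Finset.expect_mul_expect]

theorem unc_le {Ω D Λ : Type} [Fintype Ω] [Nonempty Ω] [Fintype D] [Nonempty D] (F : Ω → D → Λ)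
    (U : Ω → D → Prop) (γ γ' : Ω → Λ) :
    (𝔼 ω, 𝔼 d, ind ((F ω d = γ ω ∨ F ω d = γ' ω) ∧ U ω d)) ≤
      √(2 * 𝔼 ω, 𝔼 d, 𝔼 d', ind (U ω d ∧ U ω d' ∧ F ω d = F ω d')) := by
  refine cs_sqrt _ ?_
  rw [Finset.mul_expect]
  refine expect_mono' fun ω => ?_
  have h1 : (𝔼 d, ind ((F ω d = γ ω ∨ F ω d = γ' ω) ∧ U ω d)) =
      (𝔼 d, ind (F ω d = γ ω ∧ U ω d)) +
        𝔼 d, ind (F ω d = γ' ω ∧ F ω d ≠ γ ω ∧ U ω d) := by
    rw [← Finset.expect_add_distrib]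
    refine Finset.expect_congr rfl fun d _ => ?_
    by_cases a : F ω d = γ ω <;> by_cases b : F ω d = γ' ω <;> by_cases c : U ω d <;>
      simp only [ind, a, b, c, ne_eq] <;> simp_all
  have h2 : (𝔼 d, ind (F ω d = γ ω ∧ U ω d)) ^ 2 +
      (𝔼 d, ind (F ω d = γ' ω ∧ F ω d ≠ γ ω ∧ U ω d)) ^ 2 ≤
      𝔼 d, 𝔼 d', ind (U ω d ∧ U ω d' ∧ F ω d = F ω d') := by
    rw [cs_sq_expect, cs_sq_expect, ← Finset.expect_add_distrib]
    refine expect_mono' fun d => ?_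
    rw [← Finset.expect_add_distrib]
    refine expect_mono' fun d' => ?_
    rw [← ind_and, ← ind_and]
    by_cases a : (F ω d = γ ω ∧ U ω d) ∧ (F ω d' = γ ω ∧ U ω d')
    · rw [ind_pos a, ind_neg fun b => b.1.2.1 a.1.1, add_zero,
        ind_pos ⟨a.1.2, a.2.2, a.1.1.trans a.2.1.symm⟩]
    · rw [ind_neg a, zero_add]
      exact ind_mono fun b => ⟨b.1.2.2, b.2.2.2, b.1.1.trans b.2.1.symm⟩
  rw [h1]
  nlinarith [sq_nonneg ((𝔼 d, ind (F ω d = γ ω ∧ U ω d)) -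
    𝔼 d, ind (F ω d = γ' ω ∧ F ω d ≠ γ ω ∧ U ω d))]

theorem cs_le {Ω D Y : Type} [Fintype Ω] [Nonempty Ω] [Fintype D] [Nonempty D] [Fintype Y]
    (h : Ω → D → Y → ℝ) (g : Ω → Y) :
    (𝔼 ω, 𝔼 d, h ω d (g ω)) ≤ √(𝔼 ω, 𝔼 d, 𝔼 d', ∑ y, h ω d y * h ω d' y) := by
  refine cs_sqrt _ (expect_mono' fun ω => ?_)
  calc (𝔼 d, h ω d (g ω)) ^ 2 ≤ ∑ y, (𝔼 d, h ω d y) ^ 2 :=
        Finset.single_le_sum (f := fun y => (𝔼 d, h ω d y) ^ 2) (fun y _ => sq_nonneg _)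
          (mem_univ (g ω))
    _ = _ := by
        simp only [cs_sq_expect, Finset.expect_sum_comm]

theorem pair_le {Ω ι : Type} [Fintype Ω] [Nonempty Ω] [Fintype ι] [Nonempty ι] (Q : ι → Ω → Prop)
    {η : ℝ} (hη : 0 ≤ η) (h : ∀ i j, i ≠ j → (𝔼 ω, ind (Q i ω ∧ Q j ω)) ≤ η) :
    (𝔼 ω, 𝔼 i, ind (Q i ω)) ≤ √(1 / Fintype.card ι + η) := by
  refine cs_sqrt _ ?_
  simp only [cs_sq_expect, ← ind_and]
  rw [Finset.expect_comm]
  refine expect_le_of_le fun i => ?_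
  rw [Finset.expect_comm]
  calc (𝔼 j, 𝔼 ω, ind (Q i ω ∧ Q j ω)) ≤ 𝔼 j, (ind (j = i) + η) := by
        refine expect_mono' fun j => ?_
        by_cases e : j = i
        · rw [ind_pos e]
          exact (expect_le_of_le fun ω => ind_le_one _).trans (by linarith)
        · rw [ind_neg e, zero_add]
          exact h i j (Ne.symm e)
    _ = _ := by
        rw [Finset.expect_add_distrib, expect_ind_eq, Finset.expect_const univ_nonempty, one_div]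

end Vale.Agent.P339
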