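import Vale.Agent.P339.Plant

/-!
Planting at the bottom position (aux names: `plb_*`).
Plan.  Split `p : I → U × Bot` and `x : U × Bot` into the first components `(pu, xu)` and the family
`X : Fin (m+1) → Tup0`, `X pos = (fun t c => (p t).2 (pos, c), fun c => x.2 (pos, c))` (one explicit
`Equiv`, `expect_equiv'`, `expect_prod'`).  For fixed `(pu, xu)` use `plant_le` with
`ν' pos ω = (fun t c => co c.1 (hid c.2) t • ν pos ω c, 0)` and `F X = Ψ (p of X) (x of X)`:
`plant pos (ν pos ω) p`, `zer pos x` correspond to `update X pos (ν' pos ω)`.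
-/

namespace Vale.Agent.P339

open Vale.Agent.P325 Finset
open scoped BigOperators

/-- Splitting the parameters by the bottom position. -/
def plbE (P : Prm) (U : Type) :
    ((P.I → U) × U) × (Fin (P.m + 1) → P.Tup0) ≃ (P.I → U × P.Bot) × (U × P.Bot) where
  toFun z := (fun t => (z.1.1 t, fun c => (z.2 c.1).1 t c.2), (z.1.2, fun c => (z.2 c.1).2 c.2))
  invFun z := ((fun t => (z.1 t).1, z.2.1),
    fun pos => (fun t c => (z.1 t).2 (pos, c), fun c => z.2.2 (pos, c)))
  left_inv _ := rfl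
  right_inv _ := rfl

theorem plb_expect (P : Prm) {U : Type} [Fintype U] (G : (P.I → U × P.Bot) → U × P.Bot → ℝ) :
    (𝔼 p, 𝔼 x, G p x) = 𝔼 q : (P.I → U) × U, 𝔼 X : Fin (P.m + 1) → P.Tup0,
      G (plbE P U (q, X)).1 (plbE P U (q, X)).2 := by
  rw [← expect_prod' fun z : (P.I → U × P.Bot) × (U × P.Bot) => G z.1 z.2,
    ← expect_equiv' (plbE P U), expect_prod']

theorem plb_update (P : Prm) {U : Type} (q : (P.I → U) × U) (X : Fin (P.m + 1) → P.Tup0)
    (pos : Fin (P.m + 1)) (val : P.Grp → P.A → ZMod 2) :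
    plbE P U (q, Function.update X pos (fun t c => P.co c.1 (P.hid c.2) t • val c, 0)) =
      (Prm.plant pos val (plbE P U (q, X)).1, Prm.zer pos (plbE P U (q, X)).2) := by
  refine Prod.ext (funext fun t => Prod.ext rfl (funext fun c => ?_)) (Prod.ext rfl (funext fun c => ?_))
  · show (Function.update X pos _ c.1).1 t c.2 = if c.1 = pos then _ else (X c.1).1 t c.2
    split_ifs with h
    · rw [h, Function.update_self]
    · rw [Function.update_of_ne h]
  · show (Function.update X pos _ c.1).2 c.2 = if c.1 = pos then 0 else (X c.1).2 c.2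
    split_ifs with h
    · rw [h, Function.update_self]
      rfl
    · rw [Function.update_of_ne h]

theorem plantB_le (P : Prm) {U Ω : Type} [Fintype U] [Nonempty U] [Fintype Ω] [Nonempty Ω]
    (ν : Fin (P.m + 1) → Ω → P.Grp → P.A → ZMod 2)
    (Ψ : (P.I → U × P.Bot) → U × P.Bot → ℝ) (hΨ : ∀ p x, |Ψ p x| ≤ 1) :
    (𝔼 pos, 𝔼 ω, 𝔼 p : P.I → U × P.Bot, 𝔼 x : U × P.Bot,
        Ψ (Prm.plant pos (ν pos ω) p) (Prm.zer pos x)) ≤
      (𝔼 p, 𝔼 x, Ψ p x) + √((Fintype.card P.Tup0 : ℝ) / (P.m + 1)) := by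
  have e1 : ∀ pos ω, (𝔼 p : P.I → U × P.Bot, 𝔼 x : U × P.Bot,
      Ψ (Prm.plant pos (ν pos ω) p) (Prm.zer pos x)) =
      𝔼 q : (P.I → U) × U, 𝔼 X : Fin (P.m + 1) → P.Tup0,
        Ψ (plbE P U (q, Function.update X pos
            (fun t c => P.co c.1 (P.hid c.2) t • ν pos ω c, 0))).1
          (plbE P U (q, Function.update X pos
            (fun t c => P.co c.1 (P.hid c.2) t • ν pos ω c, 0))).2 := fun pos ω => by
    rw [plb_expect P fun p x => Ψ (Prm.plant pos (ν pos ω) p) (Prm.zer pos x)]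
    simp only [plb_update]
  simp only [e1]
  rw [plb_expect P Ψ, ← Finset.expect_const (s := (univ : Finset ((P.I → U) × U))) univ_nonempty
    √((Fintype.card P.Tup0 : ℝ) / (P.m + 1)), ← Finset.expect_add_distrib]
  refine le_trans (le_of_eq ?_) (expect_mono' fun q => (plant_le
    (fun pos ω => ((fun t c => P.co c.1 (P.hid c.2) t • ν pos ω c, 0) : P.Tup0))
    (fun X => Ψ (plbE P U (q, X)).1 (plbE P U (q, X)).2) (c := 1) fun X => hΨ _ _).trans_eq ?_)
  · rw [Finset.expect_comm (univ : Finset ((P.I → U) × U))]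
    refine expect_congr rfl fun pos _ => ?_
    rw [Finset.expect_comm]
    exact expect_congr rfl fun q _ => Finset.expect_comm _ _ _
  · rw [one_mul, Fintype.card_fin, Nat.cast_add, Nat.cast_one]

end Vale.Agent.P339
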