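import Vale.Agent.P339.BadWalk
import Vale.Agent.P339.PlantB
import Vale.Agent.P339.CS

/-!
The bad part (aux names: `cb_*`).
Plan.  `Prm.expect_setd j'`, `cs_le` with `ω = (ε, r, w)`; `Prm.expect_setd2`, `Prm.ppg_setd` give
`𝔼 ε r w x, Ψ (pq w) (zer pos x)` with `Ψ q x = ∑ y, hb (q) y * hb (bump j' (w.1 j') x q) y`, `|Ψ| ≤ 1`.
`Prm.expect_tot`, `plantB_le` for fixed `ε r a` (`Ω = Grp → B → ZMod 2`), `expect_eval`, `badWalk`.
-/

namespace Vale.Agent.P339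

open Vale.Agent.P325 Finset
open scoped BigOperators

variable {P : Prm} {S : Stage P} {jn : Fin P.T} {k n : ℕ} {g : Eg P}

theorem cb_e3 {A B C : Type} [Fintype A] [Fintype B] [Fintype C] (f : A × B × C → ℝ) :
    (𝔼 p, f p) = 𝔼 a, 𝔼 b, 𝔼 c, f (a, b, c) := by
  rw [expect_prod']
  exact expect_congr rfl fun a _ => expect_prod' _

theorem cb_abs {κ : P.K} (D : Dec (Stage.HH (S := S) (k := k)) (S.tt k) κ) (L : ℕ) (r : S.Rn' k)
    (sd sd' : S.Side k) (M M' : Mat P.l (S.X k)) :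
    |∑ y, D.hb L r sd M y * D.hb L r sd' M' y| ≤ 1 := by
  refine (abs_sum_le_sum_abs _ _).trans (le_trans (sum_le_sum fun y _ => ?_)
    (sum_ind_eq (D.ys sd M)).le)
  have h1 : |D.hb L r sd M y| ≤ ind (D.ys sd M = y) := by
    rw [Dec.hb, abs_mul, abs_mul, abs_of_nonneg (ind_nonneg (D.ys sd M = y))]
    exact (mul_le_of_le_one_right (mul_nonneg (abs_nonneg _) (ind_nonneg _)) (abs_ind_le _)).trans
      (mul_le_of_le_one_left (ind_nonneg _) (D.abs_le _ _))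
  have h2 : |D.hb L r sd' M' y| ≤ 1 := by
    rw [Dec.hb, abs_mul, abs_mul]
    exact mul_le_one₀ (mul_le_one₀ (D.abs_le _ _) (abs_nonneg _) (abs_ind_le _)) (abs_nonneg _)
      (abs_ind_le _)
  rw [abs_mul]
  exact (mul_le_of_le_one_right (abs_nonneg _) h2).trans h1

theorem cb_unplant {Co : Type} {V : Type} [AddCommGroup V] [Module (ZMod 2) V] [Fintype V]
    (bc : P.C → Co) (πs : Co → P.A → P.B) (j : Fin P.T)
    (Ψ : P.K → (P.I → V × P.Bot) → V × P.Bot → ℝ) (hΨ : ∀ a p x, |Ψ a p x| ≤ 1) :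
    (𝔼 w : P.W V, 𝔼 x, Ψ (w.1 j) (Prm.ppg bc πs w) (Prm.zer w.2.2.2.1 x)) ≤
      (𝔼 a, 𝔼 p, 𝔼 x, Ψ a p x) + √((Fintype.card P.Tup0 : ℝ) / (P.m + 1)) := by
  have h1 := Prm.expect_tot (P := P) (U := V) fun a p pos val => 𝔼 x, Ψ (a j)
    (Prm.plant pos (fun c b => val c (πs (bc (pos, c)) b)) p) (Prm.zer pos x)
  refine le_trans (le_of_eq h1) ?_
  rw [← expect_eval j fun a => 𝔼 p, 𝔼 x, Ψ a p x, ← expect_const (univ_nonempty (α := Fin P.T → P.K))
    √((Fintype.card P.Tup0 : ℝ) / (P.m + 1)), ← expect_add_distrib]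
  refine expect_le_expect fun a _ => le_trans (le_of_eq ?_)
    (plantB_le P (fun pos (val : P.Grp → P.B → ZMod 2) c b => val c (πs (bc (pos, c)) b))
      (Ψ (a j)) (hΨ (a j)))
  rw [expect_comm]
  exact expect_congr rfl fun pos _ => expect_comm _ _ _

theorem coreB (hS : S.Good n) (hj : (jn : ℕ) = n + 1) {j' : Fin P.T} (hj' : (j' : ℕ) ≤ n)
    {κ : F2 P.e} (D : Dec (Stage.HH (S := S) (k := k)) (S.tt k) (P.hid κ)) {L p : ℕ} {θ tv0 : ℝ}
    (hθ : 0 ≤ θ) (hw : werr P.l P.e P.ρ p L ≤ θ ^ (2 ^ (p + 1)))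
    (htv0 : √((Fintype.card P.Tup0 : ℝ) / (P.m + 1)) ≤ tv0)
    (g0 : (Fin (k + 1) × S.Co → g.E) → S.Rn' k → S.W' k → P.K)
    (hg0 : ∀ ε r w x, g0 ε r (Prm.setd w j' x) = g0 ε r w) :
    (𝔼 ε : Fin (k + 1) × S.Co → g.E, 𝔼 r : S.Rn' k, 𝔼 w : S.W' k,
      D.hb L r (Stage.sdq jn g ε r w) (Stage.mtq jn g ε r w) (g0 ε r w)) ≤ √(tv0 + θ) := by
  have h := cs_le (Ω := (Fin (k + 1) × S.Co → g.E) × S.Rn' k × S.W' k) (D := S.Par' k)
    (fun ω d => D.hb L ω.2.1 (Stage.sdq jn g ω.1 ω.2.1 (Prm.setd ω.2.2 j' d))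
      (Stage.mtq jn g ω.1 ω.2.1 (Prm.setd ω.2.2 j' d))) fun ω => g0 ω.1 ω.2.1 ω.2.2
  rw [cb_e3, cb_e3] at h
  refine le_trans (le_of_eq ?_) (h.trans (Real.sqrt_le_sqrt ?_))
  · refine expect_congr rfl fun ε _ => expect_congr rfl fun r _ => ?_
    refine (Prm.expect_setd j' _).trans ?_
    exact expect_congr rfl fun w _ => expect_congr rfl fun x _ => by rw [hg0]
  · refine expect_le_of_le fun ε => expect_le_of_le fun r => ?_
    have h1 := cb_unplant (Stage.bcs r) (fun x => g.π (ε x)) j'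
      (fun a (q : P.I → S.Par' k) x => ∑ y,
        D.hb L r (Stage.sideP jn (fun x => g.u (ε x)) r q) (Stage.mat jn r q) y *
        D.hb L r (Stage.sideP jn (fun x => g.u (ε x)) r (Prm.bump j' a x q))
          (Stage.mat jn r (Prm.bump j' a x q)) y) fun _ _ _ => cb_abs D L r _ _ _ _
    have h2 := badWalk hS hj hj' D hθ hw (fun x => g.u (ε x)) r
    refine le_trans (le_of_eq ?_) (h1.trans (by linarith))
    refine (Prm.expect_setd2 j' fun w w' : S.W' k => ∑ y,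
      D.hb L r (Stage.sdq jn g ε r w) (Stage.mtq jn g ε r w) y *
        D.hb L r (Stage.sdq jn g ε r w') (Stage.mtq jn g ε r w') y).trans ?_
    refine expect_congr rfl fun w _ => expect_congr rfl fun x _ => ?_
    simp only [Stage.sdq, Stage.mtq, Stage.pq, Prm.ppg_setd]

end Vale.Agent.P339
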