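import Vale.Agent.P339.GoodL
import Vale.Agent.P339.Fold

/-!
The good part (aux names: `cg_*`).
Plan.  Let `c0 = (pos, (jn, κ))`, `x0 = bcs r c0`.  Resample `ε x0 = e` (`expect_update`) and
`val (jn, κ) = nb` (`Prm.expect_W`, `expect_update`); fix everything else and use `goodL_le`.
Let `q0` be the parameters with `val (jn, κ) = 0`; they do not depend on `e` (`botc_inj`), and
`pq = bump jn (hid κ) (0, single c0 (nb ∘ π e)) q0`.  So (`side_congr`, `mat_bump`) the side information is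
`sideP U_e r q0`, where `U_e` depends on `e` via `g.u e`, the matrix is `mat q0 + hid κ ⊗ slc r (0, b)`,
`slc r (0, b) = atc r.1 (fun σ => nb (π e (σ (botc c0))))` (`ev_bot`), and
`slc r (0, b) ⬝ᵥ z = ∑ a, marg r z c0 a * nb (π e a)`.  Take `S e = marg r z c0`, `sg e = D.sg * ind (¬ Bad)`;
`∑ a, marg r z c0 a = 1` by `D.valid`, `valid_pt` with `f = 1`.  `g0` depends on `e` via `g.v e` (`vq`).
-/

namespace Vale.Agent.P339

open Vale.Agent.P325 Finset
open scoped BigOperators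

variable {P : Prm} {S : Stage P} {jn : Fin P.T} {k n : ℕ} {g : Eg P}


/-- Replace one planted function. -/
def cgv {U : Type} (w : P.W U) (c : P.Grp) (nb : P.B → ZMod 2) : P.W U :=
  (w.1, w.2.1, w.2.2.1, w.2.2.2.1, Function.update w.2.2.2.2 c nb)

theorem cg_setv {U : Type} [Fintype U] (c : P.Grp) (F : P.W U → ℝ) :
    (𝔼 w, F w) = 𝔼 w : P.W U, 𝔼 nb, F (cgv w c nb) := by
  rw [Prm.expect_W, Prm.expect_W]
  exact expect_congr rfl fun a _ => expect_congr rfl fun d _ => expect_congr rfl fun p _ =>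
    expect_congr rfl fun pos _ => expect_update c _

theorem cg_ppg {U Co : Type} [AddCommGroup U] [Module (ZMod 2) U] [DecidableEq Co] {bc : P.C → Co}
    (hbc : Function.Injective bc) (ε : Co → g.E) (w : P.W U) (j : Fin P.T) (κ : F2 P.e) (e : g.E)
    (nb : P.B → ZMod 2) :
    Prm.ppg bc (fun x => g.π (Function.update ε (bc (w.2.2.2.1, j, κ)) e x)) (cgv w (j, κ) nb) =
      Prm.bump j (P.hid κ) (0, Pi.single (w.2.2.2.1, j, κ) fun a => nb (g.π e a))
        (Prm.ppg bc (fun x => g.π (ε x)) (cgv w (j, κ) 0)) := by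
  funext t
  refine Prod.ext ?_ (funext fun c => ?_)
  · simp [Prm.ppg, Prm.plant, Prm.bump, cgv]
  · simp only [Prm.ppg, Prm.plant, Prm.bump, cgv, Prod.snd_add, Prod.smul_snd, Pi.add_apply,
      Pi.smul_apply]
    by_cases hc : c = (w.2.2.2.1, j, κ)
    · subst hc
      funext a
      simp
    · rw [Pi.single_eq_of_ne hc, smul_zero, add_zero]
      by_cases h1 : c.1 = w.2.2.2.1
      · have h2 : c.2 ≠ (j, κ) := fun h => hc (Prod.ext h1 h)
        have h3 : bc (w.2.2.2.1, c.2) ≠ bc (w.2.2.2.1, j, κ) := fun h =>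
          h2 (congrArg Prod.snd (hbc h))
        simp only [Function.update_of_ne h2, Function.update_of_ne h3]
      · exact (if_neg h1).trans (if_neg h1).symm

theorem cg_slc (hS : S.Good n) (r : S.Rn' k) (c : P.C) (f : P.A → ZMod 2) :
    Stage.slc r (0, Pi.single c f) = Stage.atc r.1 fun σ => f (σ (S.botc r.2.2 c)) := by
  funext y
  change (if y.1 = r.1 then S.ev r.2.2 (0, Pi.single c f) y.2 else 0) = _
  rw [hS.ev_bot, Finset.sum_eq_single c (fun b _ hb => by simp [hb]) (by simp), Pi.single_eq_same]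
  rfl

theorem cg_marg (r : S.Rn' k) (z : S.X k → ZMod 2) (c : P.C) (f : P.A → ZMod 2) :
    ((fun σ => z (r.1, σ)) ⬝ᵥ fun σ => f (σ (S.botc r.2.2 c))) =
      ∑ a, Stage.marg r z c a * f a := by
  simp only [Stage.marg, Finset.sum_mul, dotProduct]
  rw [Finset.sum_comm]
  refine Finset.sum_congr rfl fun σ _ => ?_
  simp

theorem coreG (hS : S.Good n) (hj : (jn : ℕ) = n + 1) {δ0 : ℝ} (hg : g.Sound δ0) {κ : F2 P.e}
    (D : Dec (Stage.HH (S := S) (k := k)) (S.tt k) (P.hid κ)) (L : ℕ)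
    (g0 : (Fin (k + 1) × S.Co → g.E) → S.Rn' k → S.W' k → P.K)
    (hg0 : ∀ ε ε' r w, Stage.vq g ε r w = Stage.vq g ε' r w → g0 ε r w = g0 ε' r w) :
    (𝔼 ε : Fin (k + 1) × S.Co → g.E, 𝔼 r : S.Rn' k, 𝔼 w : S.W' k,
      D.sg (Stage.sdq jn g ε r w) (Stage.mtq jn g ε r w) *
        ind (D.ys (Stage.sdq jn g ε r w) (Stage.mtq jn g ε r w) = g0 ε r w) *
        ind (¬ Stage.Bad L r (D.z (Stage.sdq jn g ε r w) (Stage.mtq jn g ε r w)))) ≤
      √(L * δ0) := by
  rw [expect_comm]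
  refine expect_le_of_le fun r => ?_
  rw [expect_comm, cg_setv (jn, κ)]
  refine expect_le_of_le fun w => ?_
  rw [expect_comm, expect_update (Stage.bcs r (w.2.2.2.1, jn, κ))]
  refine expect_le_of_le fun ε => ?_
  obtain ⟨x0, hx0⟩ : ∃ x0, x0 = Stage.bcs r (w.2.2.2.1, jn, κ) := ⟨_, rfl⟩
  obtain ⟨q0, hq0⟩ : ∃ q0, q0 = Stage.pq g ε r (cgv w (jn, κ) 0) := ⟨_, rfl⟩
  obtain ⟨sd, hsd⟩ : ∃ sd : g.E → S.Side k,
    sd = fun e => Stage.sideP jn (fun x => g.u (Function.update ε x0 e x)) r q0 := ⟨_, rfl⟩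
  obtain ⟨M, hM⟩ : ∃ M, M = Stage.mat jn r q0 := ⟨_, rfl⟩
  have hinj : Function.Injective (Stage.bcs r) := fun c c' h =>
    hS.botc_inj r.2.2 (congrArg Prod.snd h)
  have e0 := fun e nb => cg_ppg (g := g) hinj ε w jn κ e nb
  rw [← hx0] at e0 ⊢
  have e1 : ∀ e nb, Stage.sdq jn g (Function.update ε x0 e) r (cgv w (jn, κ) nb) = sd e := by
    intro e nb
    rw [hsd, Stage.sdq, Stage.pq, e0, hq0]
    exact Stage.side_congr hS hj _ r fun t ht => Prm.bump_of_ne _ _ _ ht
  have e2 : ∀ e nb, Stage.mtq jn g (Function.update ε x0 e) r (cgv w (jn, κ) nb) =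
      M + Matrix.vecMulVec (P.hid κ) (Stage.atc r.1 fun σ =>
        nb (g.π e (σ (S.botc r.2.2 (w.2.2.2.1, jn, κ))))) := by
    intro e nb
    rw [hM, Stage.mtq, Stage.pq, e0, hq0, Stage.mat_bump, cg_slc hS]
    rfl
  refine le_trans (le_of_eq ?_) (goodL_le g hg L
    (fun e => Stage.marg r (D.z (sd e) M) (w.2.2.2.1, jn, κ))
    (fun e => D.sg (sd e) M * ind (¬ Stage.Bad L r (D.z (sd e) M))) (fun e => D.ys (sd e) M)
    (fun e nb => g0 (Function.update ε x0 e) r (cgv w (jn, κ) nb)) ?_ ?_ ?_ ?_)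
  · refine expect_congr rfl fun e _ => expect_congr rfl fun nb _ => ?_
    rw [e1, e2, D.z_inv, D.ys_inv, D.sg_shift, Stage.atc_dot,
      cg_marg r _ _ fun a => nb (g.π e a)]
    ring
  · intro e e' h
    have : sd e = sd e' := by
      rw [hsd]
      refine congrArg (fun U => Stage.sideP jn U r q0) (funext fun x => ?_)
      by_cases hx : x = x0
      · rw [hx, Function.update_self, Function.update_self, h]
      · rw [Function.update_of_ne hx, Function.update_of_ne hx]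
    simp only [this]
  · intro e e' h
    funext nb
    refine hg0 _ _ _ _ (funext fun x => ?_)
    unfold Stage.vq Prm.vnf
    by_cases hx : x = x0
    · have h1 : ∃ c, Stage.bcs r ((cgv w (jn, κ) nb).2.2.2.1, c) = x := ⟨(jn, κ), (hx.trans hx0).symm⟩
      rw [if_pos h1, if_pos h1]
      simp only [hx, Function.update_self, h]
    · simp only [Function.update_of_ne hx]
  · intro e
    rw [abs_mul]
    exact mul_le_one₀ (D.abs_le _ _) (abs_nonneg _) (abs_ind_le _)
  · intro e h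
    obtain ⟨v1, lam, v2⟩ := D.valid _ _ (left_ne_zero_of_mul h)
    refine ⟨?_, not_lt.1 fun h1 => right_ne_zero_of_mul h (ind_neg fun h2 => h2 ⟨_, h1⟩)⟩
    have h1 := valid_pt v1 v2 r.1 (f := fun _ => 1) fun _ _ _ => rfl
    rw [cg_marg r _ (w.2.2.2.1, jn, κ) fun _ => 1] at h1
    simpa using h1

end Vale.Agent.P339
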