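import Vale.Agent.P339.Split

/-!
The odd part gives a decoder (aux names: `do_*`).
Plan.  For an odd `Γ` of a cell `c` let `kk c Γ ∈ c.K1` be a chosen `κ` with `pr Γ (hid κ ⊗ t) ≠ 0`.  Split the
left side as `∑ (K1, κ), Y K1 κ` over the finite type `Submodule × F2 e` (cardinality `ncl e * 2^e`) by
inserting `ind (c.K1 = K1) * ind (kk c Γ = κ)`; take the pair maximizing `Y` (`Finset.exists_max_image`).
For this pair apply `select_ex` with `key ω = (sd ω, (kf X hid K1).mkQ (M ω))`, `𝒯 = Cell × Mat`,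
`A z = (𝒞 z.1) ×ˢ univ`, weights (evaluated at a representative `M*` of the class, `Quotient.out`; `cnt K1` and
`big` for cells of type `K1` only depend on the class)
`w z (c, Γ) = ind (c.K1 = K1 ∧ cnt ≤ N ∧ c.big M* ∧ Γ ∈ ann c.B ∧ odd ∧ kk c Γ = κ) / card (ann c.B)`
(total at most `N`), and `Ψ ω (c, Γ) = chi (pr Γ (M ω - c.T)) * ind (yv c.lam = g0 ω)`.
Decoder: with `sel (s, class of M) = some (c, Γ)`: `sg = chi (pr Γ (M - c.T))`, `ys = yv c.lam`,
`z x = pr Γ (vecMulVec (hid κ) (Pi.single x 1))`, so `n ⬝ᵥ z = pr Γ (hid κ ⊗ n)`; `sg = 0` for `none`.  If the weight is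
nonzero then `κ ∈ K1`.  To have the class invariant under `hid κ ⊗ n` in all cases: if `κ ∉ K1` then
`Y K1 κ = 0` and the zero decoder (`sg = 0`) works.
-/

namespace Vale.Agent.P339

open Vale.Agent.P325 Finset
open scoped BigOperators

theorem do_dot {l : ℕ} {X : Type} [Fintype X] (Γ : Mat l X) (a : F2 l) (n : X → ZMod 2) :
    n ⬝ᵥ Matrix.vecMul a Γ = pr Γ (Matrix.vecMulVec a n) := by
  simp only [pr, dotProduct, Matrix.vecMul, Matrix.vecMulVec_apply, Finset.mul_sum]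
  rw [Finset.sum_comm]
  exact Finset.sum_congr rfl fun q _ => Finset.sum_congr rfl fun x _ => by ring

section

variable {l e : ℕ} {X Λ : Type} [Fintype X] [DecidableEq X] (hid : F2 e →ₗ[ZMod 2] F2 l)
  (t : X → ZMod 2)

/-- `Γ` changes sign along some free direction of the cell. -/
def do_odd (c : Cell l e X Λ) (Γ : Mat l X) : Prop :=
  ∃ κ ∈ c.K1, pr Γ (Matrix.vecMulVec (hid κ) t) ≠ 0

open Classical in
/-- A chosen free direction along which `Γ` changes sign. -/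
noncomputable def do_kk (c : Cell l e X Λ) (Γ : Mat l X) : F2 e :=
  if h : do_odd hid t c Γ then h.choose else 0

omit [DecidableEq X] in
theorem do_kk_spec {c : Cell l e X Λ} {Γ : Mat l X} (h : do_odd hid t c Γ) :
    do_kk hid t c Γ ∈ c.K1 ∧ pr Γ (Matrix.vecMulVec (hid (do_kk hid t c Γ)) t) ≠ 0 := by
  unfold do_kk
  rw [dif_pos h]
  exact h.choose_spec

/-- The condition under which a term has positive weight. -/
def do_ok (N : ℕ) (𝒞 : Finset (Cell l e X Λ)) (i : Submodule (ZMod 2) (F2 e) × F2 e) (M : Mat l X)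
    (p : Cell l e X Λ × Mat l X) : Prop :=
  (p.1.K1 = i.1 ∧ cnt hid 𝒞 i.1 M ≤ N ∧ p.1.big hid M) ∧
    p.2 ∈ ann p.1.B ∧ do_odd hid t p.1 p.2 ∧ do_kk hid t p.1 p.2 = i.2

/-- The weight of a term. -/
noncomputable def do_w (N : ℕ) (𝒞 : Finset (Cell l e X Λ)) (i : Submodule (ZMod 2) (F2 e) × F2 e)
    (M : Mat l X) (p : Cell l e X Λ × Mat l X) : ℝ :=
  ind (do_ok hid t N 𝒞 i M p) / (ann p.1.B).card

theorem do_w_nonneg (N : ℕ) (𝒞 : Finset (Cell l e X Λ)) (i : Submodule (ZMod 2) (F2 e) × F2 e)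
    (M : Mat l X) (p : Cell l e X Λ × Mat l X) : 0 ≤ do_w hid t N 𝒞 i M p :=
  div_nonneg (ind_nonneg' _) (Nat.cast_nonneg _)

theorem do_w_ok {N : ℕ} {𝒞 : Finset (Cell l e X Λ)} {i : Submodule (ZMod 2) (F2 e) × F2 e}
    {M : Mat l X} {p : Cell l e X Λ × Mat l X} (h : do_w hid t N 𝒞 i M p ≠ 0) :
    do_ok hid t N 𝒞 i M p := by
  by_contra hn
  exact h (by rw [do_w, ind_neg hn, zero_div])

omit [Fintype X] [DecidableEq X] in
theorem do_big {c : Cell l e X Λ} {M M' : Mat l X} (h : M - M' ∈ kf X hid c.K1) :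
    c.big hid M ↔ c.big hid M' := by
  unfold Cell.big
  rw [show M - c.T = (M' - c.T) + (M - M') by abel]
  exact Submodule.add_mem_iff_left _ (Submodule.mem_sup_right h)

theorem do_w_congr (N : ℕ) (𝒞 : Finset (Cell l e X Λ)) (i : Submodule (ZMod 2) (F2 e) × F2 e)
    {M M' : Mat l X} (h : M - M' ∈ kf X hid i.1) (p : Cell l e X Λ × Mat l X) :
    do_w hid t N 𝒞 i M p = do_w hid t N 𝒞 i M' p := by
  classical
  have hc : cnt hid 𝒞 i.1 M = cnt hid 𝒞 i.1 M' := by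
    unfold cnt
    refine congrArg Finset.card (Finset.ext fun c => ?_)
    simp only [Finset.mem_filter]
    exact and_congr_right fun _ => and_congr_right fun hK => do_big hid (hK ▸ h)
  unfold do_w do_ok
  rw [hc, ind_congr' (and_congr_left' (and_congr_right fun hK =>
    and_congr_right' (do_big hid (hK ▸ h))))]

theorem do_w_sum (N : ℕ) (𝒞 : Finset (Cell l e X Λ)) (i : Submodule (ZMod 2) (F2 e) × F2 e)
    (M : Mat l X) : ∑ p ∈ 𝒞 ×ˢ univ, do_w hid t N 𝒞 i M p ≤ N := by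
  classical
  rw [Finset.sum_product]
  have h1 : ∀ c ∈ 𝒞, ∑ Γ, do_w hid t N 𝒞 i M (c, Γ) ≤
      ind (cnt hid 𝒞 i.1 M ≤ N) * ind (c.K1 = i.1 ∧ c.big hid M) := fun c _ => by
    have hc : (0 : ℝ) < (ann c.B).card := by exact_mod_cast (sp_ann_nonempty c.B).card_pos
    simp only [do_w]
    rw [← Finset.sum_div, div_le_iff₀ hc]
    by_cases h : c.K1 = i.1 ∧ cnt hid 𝒞 i.1 M ≤ N ∧ c.big hid M
    · rw [ind_pos h.2.1, ind_pos ⟨h.1, h.2.2⟩, one_mul, one_mul]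
      refine (Finset.sum_le_sum (g := fun Γ => ind (Γ ∈ ann c.B))
        fun Γ _ => ind_mono' fun h' => h'.2.1).trans (le_of_eq ?_)
      rw [← Finset.sum_subset (Finset.subset_univ (ann c.B)) fun Γ _ hΓ => ind_neg hΓ,
        Finset.sum_congr rfl fun Γ hΓ => ind_pos hΓ, Finset.sum_const, nsmul_eq_mul, mul_one]
    · rw [Finset.sum_eq_zero fun Γ _ => ind_neg fun h' => h h'.1]
      exact mul_nonneg (mul_nonneg (ind_nonneg' _) (ind_nonneg' _)) hc.le
  refine (Finset.sum_le_sum h1).trans ?_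
  rw [← Finset.mul_sum]
  have h2 : ∑ c ∈ 𝒞, ind (c.K1 = i.1 ∧ c.big hid M) = cnt hid 𝒞 i.1 M := by
    unfold cnt
    rw [Finset.card_filter, Nat.cast_sum]
    refine Finset.sum_congr rfl fun c _ => ?_
    by_cases h : c.K1 = i.1 ∧ c.big hid M
    · rw [ind_pos h, if_pos h, Nat.cast_one]
    · rw [ind_neg h, if_neg h, Nat.cast_zero]
  rw [h2]
  by_cases h : cnt hid 𝒞 i.1 M ≤ N
  · rw [ind_pos h, one_mul]
    exact_mod_cast h
  · rw [ind_neg h, zero_mul]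
    exact Nat.cast_nonneg _

/-- The odd part of a cell as a sum over the types of terms. -/
theorem do_split (N : ℕ) (𝒞 : Finset (Cell l e X Λ)) (M : Mat l X) (c : Cell l e X Λ) (y : ℝ) :
    y * ind (cnt hid 𝒞 c.K1 M ≤ N) * (ind (c.big hid M) * c.odd hid t M) =
      ∑ i, ∑ Γ, do_w hid t N 𝒞 i M (c, Γ) * (chi (pr Γ (M - c.T)) * y) := by
  classical
  rw [Finset.sum_comm, Cell.odd, Finset.expect_eq_sum_div_card,
    ← Finset.sum_subset (Finset.subset_univ (ann c.B)) fun Γ _ hΓ => Finset.sum_eq_zero fun i _ => by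
      rw [do_w, ind_neg fun h => hΓ h.2.1, zero_div, zero_mul],
    Finset.sum_div, Finset.mul_sum, Finset.mul_sum]
  refine Finset.sum_congr rfl fun Γ hΓ => ?_
  rw [Finset.sum_eq_single (c.K1, do_kk hid t c Γ) (fun i _ hi => by
    rw [do_w, ind_neg fun h => hi (Prod.ext h.1.1.symm h.2.2.2.symm), zero_div, zero_mul])
    (by simp), do_w]
  by_cases h1 : cnt hid 𝒞 c.K1 M ≤ N
  · by_cases h2 : c.big hid M
    · by_cases h3 : do_odd hid t c Γ
      · rw [ind_pos h1, ind_pos h2, ind_pos (p := ∃ κ ∈ c.K1, _) h3,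
          ind_pos (p := do_ok hid t N 𝒞 _ M (c, Γ)) ⟨⟨rfl, h1, h2⟩, hΓ, h3, rfl⟩]
        ring
      · rw [ind_neg (p := ∃ κ ∈ c.K1, _) h3,
          ind_neg (p := do_ok hid t N 𝒞 _ M (c, Γ)) fun h => h3 h.2.2.1]
        ring
    · rw [ind_neg h2, ind_neg (p := do_ok hid t N 𝒞 _ M (c, Γ)) fun h => h2 h.1.2.2]
      ring
  · rw [ind_neg h1, ind_neg (p := do_ok hid t N 𝒞 _ M (c, Γ)) fun h => h1 h.1.2.1]
    ring

end

/-- The decoder for one type of terms. -/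
theorem do_one {l e : ℕ} {X Sd Λ Ω : Type} [Fintype X] [DecidableEq X] [Fintype Ω]
    (hid : F2 e →ₗ[ZMod 2] F2 l) (H : Sd → Λ → Submodule (ZMod 2) (X → ZMod 2)) (t : X → ZMod 2)
    (yv : Λ → F2 l) (𝒞 : Sd → Finset (Cell l e X Λ))
    (hinv : ∀ s, ∀ c ∈ 𝒞 s, ∀ κ, ∀ η ∈ H s c.lam, Matrix.vecMulVec κ η ∈ c.B) (N : ℕ)
    (sd : Ω → Sd) (M : Ω → Mat l X) (g0 : Ω → F2 l) (i : Submodule (ZMod 2) (F2 e) × F2 e) :
    ∃ D : Dec H t (hid i.2),
      (𝔼 ω, ∑ p ∈ 𝒞 (sd ω) ×ˢ univ, do_w hid t N (𝒞 (sd ω)) i (M ω) p *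
          (chi (pr p.2 (M ω - p.1.T)) * ind (yv p.1.lam = g0 ω))) ≤
        N * 𝔼 ω, D.sg (sd ω) (M ω) * ind (D.ys (sd ω) (M ω) = g0 ω) := by
  by_cases hi : i.2 ∈ i.1
  swap
  · refine ⟨⟨fun _ _ => 0, fun _ _ => 0, fun _ _ => 0, by simp, by simp, by simp, by simp,
      by simp⟩, le_of_eq ?_⟩
    simp only [zero_mul, Finset.expect_const_zero, mul_zero]
    refine Finset.expect_eq_zero fun ω _ => Finset.sum_eq_zero fun p _ => ?_
    rw [do_w, ind_neg, zero_div, zero_mul]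
    intro h
    exact hi (h.1.1 ▸ h.2.2.2 ▸ (do_kk_spec hid t h.2.2.1).1)
  obtain ⟨rep, hrep⟩ := (kf X hid i.1).mkQ_surjective.hasRightInverse
  obtain ⟨sel, hsel, hle⟩ := select_ex (fun ω => (sd ω, (kf X hid i.1).mkQ (M ω)))
    (fun z => 𝒞 z.1 ×ˢ univ) (fun z p => do_w hid t N (𝒞 z.1) i (rep z.2) p)
    (fun z p => do_w_nonneg hid t N _ i _ p) (fun z => do_w_sum hid t N _ i _)
    fun ω p => chi (pr p.2 (M ω - p.1.T)) * ind (yv p.1.lam = g0 ω)
  have hq : ∀ (M' : Mat l X) (n : X → ZMod 2),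
      (kf X hid i.1).mkQ (M' + Matrix.vecMulVec (hid i.2) n) = (kf X hid i.1).mkQ M' :=
    fun M' n => by
      have hm : Matrix.vecMulVec (hid i.2) n ∈ kf X hid i.1 :=
        Submodule.subset_span ⟨i.2, hi, n, rfl⟩
      rw [map_add, Submodule.mkQ_apply _ (Matrix.vecMulVec _ _),
        (Submodule.Quotient.mk_eq_zero _).2 hm, add_zero]
  refine ⟨⟨fun s M' => (sel (s, (kf X hid i.1).mkQ M')).elim 0 fun p => chi (pr p.2 (M' - p.1.T)),
    fun s M' => (sel (s, (kf X hid i.1).mkQ M')).elim 0 fun p => yv p.1.lam,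
    fun s M' => (sel (s, (kf X hid i.1).mkQ M')).elim 0 fun p => Matrix.vecMul (hid i.2) p.2,
    fun s M' => ?_, fun s M' n => by rw [hq], fun s M' n => by rw [hq], fun s M' n => ?_,
    fun s M' => ?_⟩, le_trans (le_of_eq ?_) (hle.trans (le_of_eq ?_))⟩
  · cases sel (s, (kf X hid i.1).mkQ M') <;> simp
  · rw [hq]
    cases sel (s, (kf X hid i.1).mkQ M') with
    | none => simp
    | some p =>
      simp only [Option.elim]
      rw [add_sub_right_comm, sp_add_right, chi_add, do_dot]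
  · cases h : sel (s, (kf X hid i.1).mkQ M') with
    | none => simp
    | some p =>
      intro _
      obtain ⟨hp, hw⟩ := hsel _ _ h
      have hok := do_w_ok hid t hw
      simp only [Option.elim, do_dot]
      refine ⟨z2_ne_zero.1 (hok.2.2.2 ▸ (do_kk_spec hid t hok.2.2.1).2), p.1.lam, fun η hη => ?_⟩
      exact sp_mem_ann.1 hok.2.1 _ (hinv s p.1 (Finset.mem_product.1 hp).1 _ η hη)
  · refine Finset.expect_congr rfl fun ω _ => Finset.sum_congr rfl fun p _ => ?_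
    rw [do_w_congr hid t N _ i ((Submodule.Quotient.eq _).1 (hrep ((kf X hid i.1).mkQ (M ω))))]
  · congr 1
    refine Finset.expect_congr rfl fun ω _ => ?_
    dsimp only
    cases sel (sd ω, (kf X hid i.1).mkQ (M ω)) <;> simp

theorem dec_odd {l e : ℕ} {X Sd Λ Ω : Type} [Fintype X] [DecidableEq X] [Fintype Ω] [Nonempty Ω]
    (hid : F2 e →ₗ[ZMod 2] F2 l) (H : Sd → Λ → Submodule (ZMod 2) (X → ZMod 2)) (t : X → ZMod 2)
    (yv : Λ → F2 l) (𝒞 : Sd → Finset (Cell l e X Λ))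
    (hinv : ∀ s, ∀ c ∈ 𝒞 s, ∀ κ, ∀ η ∈ H s c.lam, Matrix.vecMulVec κ η ∈ c.B) (N : ℕ)
    (sd : Ω → Sd) (M : Ω → Mat l X) (g0 : Ω → F2 l) :
    ∃ (κ : F2 e) (D : Dec H t (hid κ)),
      (𝔼 ω, ∑ c ∈ 𝒞 (sd ω), ind (yv c.lam = g0 ω) * ind (cnt hid (𝒞 (sd ω)) c.K1 (M ω) ≤ N) *
          (ind (c.big hid (M ω)) * c.odd hid t (M ω))) ≤
        ncl e * 2 ^ e * N * 𝔼 ω, D.sg (sd ω) (M ω) * ind (D.ys (sd ω) (M ω) = g0 ω) := by
  classical
  choose D hD using do_one hid H t yv 𝒞 hinv N sd M g0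
  obtain ⟨i, -, hmax⟩ := Finset.exists_max_image (univ : Finset (Submodule (ZMod 2) (F2 e) × F2 e))
    (fun i => (N : ℝ) * 𝔼 ω, (D i).sg (sd ω) (M ω) * ind ((D i).ys (sd ω) (M ω) = g0 ω))
    univ_nonempty
  refine ⟨i.2, D i, ?_⟩
  have h1 : ∀ ω, ∑ c ∈ 𝒞 (sd ω), ind (yv c.lam = g0 ω) * ind (cnt hid (𝒞 (sd ω)) c.K1 (M ω) ≤ N) *
      (ind (c.big hid (M ω)) * c.odd hid t (M ω)) =
      ∑ i, ∑ p ∈ 𝒞 (sd ω) ×ˢ univ, do_w hid t N (𝒞 (sd ω)) i (M ω) p *
        (chi (pr p.2 (M ω - p.1.T)) * ind (yv p.1.lam = g0 ω)) := fun ω => by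
    simp only [do_split, Finset.sum_product]
    rw [Finset.sum_comm]
  simp only [h1]
  rw [Finset.expect_sum_comm]
  refine (Finset.sum_le_sum fun j hj => (hD j).trans (hmax j hj)).trans (le_of_eq ?_)
  rw [Finset.sum_const, Finset.card_univ, Fintype.card_prod, ncl, Nat.card_eq_fintype_card,
    nsmul_eq_mul]
  simp only [Fintype.card_pi, ZMod.card, Finset.prod_const, Finset.card_univ, Fintype.card_fin]
  push_cast
  ring

end Vale.Agent.P339
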