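import Vale.Agent.P339.Cover
import Vale.Agent.P339.DecOdd

/-!
The decoding theorem (aux names: `de_*`).
Plan.  `𝒞 s` from `cover_ex`; `M_m = M + hid m ⊗ t`; `unc m s M = Unc (f s) (𝒞 s) M_m`,
`crowd m s M = ∃ K1, N < cnt hid (𝒞 s) K1 M_m`,
`cap s M = 𝔼 m, ∑ c ∈ 𝒞 s, ind (c.mem M_m) * ind (cnt c.K1 M_m ≤ N)`.
(1) `f M = f M'` gives `f M_m = f M'_m` (`had`), shift `M`.  (2) Markov: `ind crowd ≤ (∑ c, ind (c.big M_m)) / N`,
`big_le`, `sum_le`, `1 ≤ ncl e`.  (3) group the cells by `K1` (`Finset.sum_fiberwise`), `mem → big`.  (4) `sum_le`.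
(5) If the event holds for `m`, some `c` has `c.mem M_m`, `yv c.lam = g0 + hid m`, `cnt ≤ N`; so
`ind ≤ ∑ c, ind (yv c.lam = g0 + hid m) * ind (cnt c.K1 M_m ≤ N) * ind (c.mem M_m)`; use `cell_split`.
Even part: for `κ ∈ c.K1`, `cnt c.K1 M_m = cnt c.K1 M_(m+κ)`; at most one `m` has `yv c.lam = g0 + hid m`
(`hinj`), so `𝔼 m, ind (yv c.lam = g0 + hid m) * a m ≤ 2^(-e) * b` if `a m ≤ b` for all `m`, here
`b = 2^r * 𝔼 m', ind (c.mem M_m') * ind (cnt c.K1 M_m' ≤ N)` (shift `κ` by `m`).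
Odd part: choose the best `m` (`Finset.exists_max_image`, `expect_comm`), apply `dec_odd` to `M_m` and
`g0 + hid m`, and shift the decoder: `sg s M = D.sg s M_m`, `z s M = D.z s M_m`, `ys s M = D.ys s M_m + hid m`.
-/

namespace Vale.Agent.P339

open Vale.Agent.P325 Finset
open scoped BigOperators

section aux

variable {l e : ℕ} {X Λ : Type}

theorem de_ncl_pos (e : ℕ) : (1 : ℝ) ≤ ncl e := by
  have : 0 < ncl e := Nat.card_pos
  exact_mod_cast this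

theorem de_mem_big (hid : F2 e →ₗ[ZMod 2] F2 l) {c : Cell l e X Λ} {M : Mat l X} (h : c.mem M) :
    c.big hid M := Submodule.mem_sup_left h

theorem de_cnt_eq (hid : F2 e →ₗ[ZMod 2] F2 l) (𝒞 : Finset (Cell l e X Λ))
    (K1 : Submodule (ZMod 2) (F2 e)) (M : Mat l X) :
    (cnt hid 𝒞 K1 M : ℝ) = ∑ c ∈ 𝒞, ind (c.K1 = K1 ∧ c.big hid M) := by
  classical
  unfold cnt
  rw [Finset.card_filter]
  push_cast
  refine Finset.sum_congr rfl fun c _ => ?_
  by_cases h : c.K1 = K1 ∧ c.big hid M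
  · rw [ind_pos h, if_pos h]
  · rw [ind_neg h, if_neg h]

theorem de_cnt_shift (hid : F2 e →ₗ[ZMod 2] F2 l) (𝒞 : Finset (Cell l e X Λ))
    {K1 : Submodule (ZMod 2) (F2 e)} {κ : F2 e} (hκ : κ ∈ K1) (t : X → ZMod 2) (M : Mat l X) :
    cnt hid 𝒞 K1 (M + Matrix.vecMulVec (hid κ) t) = cnt hid 𝒞 K1 M := by
  have : (cnt hid 𝒞 K1 (M + Matrix.vecMulVec (hid κ) t) : ℝ) = cnt hid 𝒞 K1 M := by
    rw [de_cnt_eq, de_cnt_eq]
    refine Finset.sum_congr rfl fun c _ => ind_congr' (and_congr_right fun hc => ?_)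
    have hm : Matrix.vecMulVec (hid κ) t ∈ c.B ⊔ kf X hid c.K1 :=
      Submodule.mem_sup_right (Submodule.subset_span ⟨κ, hc ▸ hκ, t, rfl⟩)
    unfold Cell.big
    rw [add_sub_right_comm]
    exact Submodule.add_mem_iff_left _ hm
  exact_mod_cast this

theorem de_crowd_le (hid : F2 e →ₗ[ZMod 2] F2 l) (𝒞 : Finset (Cell l e X Λ)) {N : ℕ} (hN : 0 < N)
    (M : Mat l X) : ind (∃ K1, N < cnt hid 𝒞 K1 M) ≤ (∑ c ∈ 𝒞, ind (c.big hid M)) / N := by
  have hN' : (0 : ℝ) < N := by exact_mod_cast hN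
  by_cases h : ∃ K1, N < cnt hid 𝒞 K1 M
  · rw [ind_pos h, le_div_iff₀ hN', one_mul]
    obtain ⟨K1, h⟩ := h
    have h1 : (N : ℝ) ≤ cnt hid 𝒞 K1 M := by exact_mod_cast h.le
    rw [de_cnt_eq] at h1
    exact h1.trans (Finset.sum_le_sum fun c _ => ind_mono' And.right)
  · rw [ind_neg h]
    exact div_nonneg (Finset.sum_nonneg fun c _ => ind_nonneg' _) hN'.le

theorem de_cap_le (hid : F2 e →ₗ[ZMod 2] F2 l) (𝒞 : Finset (Cell l e X Λ)) (N : ℕ)
    (M : Mat l X) :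
    ∑ c ∈ 𝒞, ind (c.mem M) * ind (cnt hid 𝒞 c.K1 M ≤ N) ≤ ncl e * N := by
  classical
  letI : Fintype (Submodule (ZMod 2) (F2 e)) := Fintype.ofFinite _
  calc ∑ c ∈ 𝒞, ind (c.mem M) * ind (cnt hid 𝒞 c.K1 M ≤ N)
      ≤ ∑ c ∈ 𝒞, ∑ K1, ind (c.K1 = K1 ∧ c.big hid M) * ind (cnt hid 𝒞 K1 M ≤ N) := by
        refine Finset.sum_le_sum fun c _ => ?_
        refine le_trans ?_ (Finset.single_le_sum (f := fun K1 =>
          ind (c.K1 = K1 ∧ c.big hid M) * ind (cnt hid 𝒞 K1 M ≤ N))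
          (fun K1 _ => mul_nonneg (ind_nonneg' _) (ind_nonneg' _)) (mem_univ c.K1))
        exact mul_le_mul_of_nonneg_right (ind_mono' fun h => ⟨rfl, de_mem_big hid h⟩)
          (ind_nonneg' _)
    _ = ∑ K1, (cnt hid 𝒞 K1 M : ℝ) * ind (cnt hid 𝒞 K1 M ≤ N) := by
        rw [Finset.sum_comm]
        exact Finset.sum_congr rfl fun K1 _ => by rw [de_cnt_eq, Finset.sum_mul]
    _ ≤ ∑ _K1 : Submodule (ZMod 2) (F2 e), (N : ℝ) := by
        refine Finset.sum_le_sum fun K1 _ => ?_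
        by_cases h : cnt hid 𝒞 K1 M ≤ N
        · rw [ind_pos h, mul_one]; exact_mod_cast h
        · rw [ind_neg h, mul_zero]; exact Nat.cast_nonneg _
    _ = ncl e * N := by
        rw [Finset.sum_const, card_univ, nsmul_eq_mul, ncl, Nat.card_eq_fintype_card]

theorem de_one (hid : F2 e →ₗ[ZMod 2] F2 l) (hinj : Function.Injective hid) (y g : F2 l)
    (a : F2 e → ℝ) {b : ℝ} (hb : 0 ≤ b) (h : ∀ m, a m ≤ b) :
    (𝔼 m, ind (y = g + hid m) * a m) ≤ b / 2 ^ e := by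
  have h1 : (𝔼 m, ind (y = g + hid m) * a m) ≤ (𝔼 m, ind (y = g + hid m)) * b := by
    rw [Finset.expect_mul]
    exact expect_mono' fun m => mul_le_mul_of_nonneg_left (h m) (ind_nonneg' _)
  have h2 : (𝔼 m, ind (y = g + hid m)) ≤ ((2 : ℝ) ^ e)⁻¹ := by
    by_cases hy : ∃ m0, y = g + hid m0
    · obtain ⟨m0, rfl⟩ := hy
      have hc : (Fintype.card (F2 e) : ℝ) = 2 ^ e := by simp [F2]
      rw [← hc, ← expect_ind_eq m0]
      exact expect_mono' fun m => ind_mono' fun hm => (hinj (add_left_cancel hm)).symm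
    · refine expect_le_of_le fun m => ?_
      rw [ind_neg fun hm => hy ⟨m, hm⟩]
      positivity
  rw [div_eq_inv_mul]
  exact h1.trans (mul_le_mul_of_nonneg_right h2 hb)

theorem de_even (hid : F2 e →ₗ[ZMod 2] F2 l) (hinj : Function.Injective hid)
    (𝒞 : Finset (Cell l e X Λ)) (c : Cell l e X Λ) (N r : ℕ) (t : X → ZMod 2) (M : Mat l X)
    (y g : F2 l) :
    (𝔼 m, ind (y = g + hid m) * (ind (cnt hid 𝒞 c.K1 (M + Matrix.vecMulVec (hid m) t) ≤ N) *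
      (2 ^ r * 𝔼 κ : F2 e, ind (κ ∈ c.K1 ∧
        c.mem (M + Matrix.vecMulVec (hid m) t + Matrix.vecMulVec (hid κ) t))))) ≤
      2 ^ r / 2 ^ e * 𝔼 m, ind (c.mem (M + Matrix.vecMulVec (hid m) t)) *
        ind (cnt hid 𝒞 c.K1 (M + Matrix.vecMulVec (hid m) t) ≤ N) := by
  rw [div_mul_eq_mul_div]
  refine de_one hid hinj y g _ (mul_nonneg (by positivity) (Finset.expect_nonneg fun m _ =>
    mul_nonneg (ind_nonneg' _) (ind_nonneg' _))) fun m => ?_
  rw [mul_left_comm, Finset.mul_expect]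
  refine mul_le_mul_of_nonneg_left ?_ (by positivity)
  rw [← expect_add_left' (fun m => ind (c.mem (M + Matrix.vecMulVec (hid m) t)) *
    ind (cnt hid 𝒞 c.K1 (M + Matrix.vecMulVec (hid m) t) ≤ N)) m]
  refine expect_mono' fun κ => ?_
  rw [map_add, Matrix.add_vecMulVec, ← add_assoc]
  by_cases hκ : κ ∈ c.K1
  · rw [de_cnt_shift hid 𝒞 hκ t (M + Matrix.vecMulVec (hid m) t), mul_comm]
    exact mul_le_mul_of_nonneg_right (ind_mono' And.right) (ind_nonneg' _)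
  · rw [ind_neg (p := κ ∈ c.K1 ∧ _) fun h => hκ h.1, mul_zero]
    exact mul_nonneg (ind_nonneg' _) (ind_nonneg' _)

/-- Shift of a decoder. -/
def de_shift {Sd : Type} [Fintype X] {H : Sd → Λ → Submodule (ZMod 2) (X → ZMod 2)}
    {t : X → ZMod 2} {κ : F2 l} (D : Dec H t κ) (B : Mat l X) (v : F2 l) : Dec H t κ where
  sg s M := D.sg s (M + B)
  ys s M := D.ys s (M + B) - v
  z s M := D.z s (M + B)
  abs_le s M := D.abs_le s _
  z_inv s M n := by rw [add_right_comm, D.z_inv]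
  ys_inv s M n := by rw [add_right_comm, D.ys_inv]
  sg_shift s M n := by rw [add_right_comm, D.sg_shift]
  valid s M h := D.valid s _ h

end aux

theorem decode {l e r N : ℕ} {X Sd Λ : Type} [Fintype X] [DecidableEq X] [Fintype Λ]
    (hid : F2 e →ₗ[ZMod 2] F2 l) (hinj : Function.Injective hid) {ξ ε : ℝ} (hs : SSEat ξ r ε)
    (hε : 0 < ε) (hξ : 0 ≤ ξ) (hN : 0 < N) (f : Sd → Mat l X → Λ)
    (H : Sd → Λ → Submodule (ZMod 2) (X → ZMod 2)) (t : X → ZMod 2) (yv : Λ → F2 l)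
    (ad : F2 l → Λ → Λ) (hH : ∀ s M κ, ∀ η ∈ H s (f s M), f s (M + Matrix.vecMulVec κ η) = f s M)
    (had : ∀ s M κ, f s (M + Matrix.vecMulVec κ t) = ad κ (f s M))
    (hyv : ∀ κ lam, yv (ad κ lam) = yv lam + κ) :
    ∃ (unc crowd : F2 e → Sd → Mat l X → Prop) (cap : Sd → Mat l X → ℝ),
      (∀ m s, (𝔼 M : Mat l X, 𝔼 a : F2 l, 𝔼 n : X → ZMod 2, ind (unc m s M ∧
        unc m s (M + Matrix.vecMulVec a n) ∧ f s M = f s (M + Matrix.vecMulVec a n))) ≤ ξ) ∧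
      (∀ m s, (𝔼 M, ind (crowd m s M)) ≤ ncl e * 2 ^ (e * r) / (ε * N)) ∧
      (∀ s M, |cap s M| ≤ ncl e * N) ∧ (∀ s, (𝔼 M, cap s M) ≤ 1 / ε) ∧
      ∀ (Ω : Type) [Fintype Ω] [Nonempty Ω] (sd : Ω → Sd) (M : Ω → Mat l X) (g0 : Ω → F2 l),
        ∃ (κ : F2 e) (D : Dec H t (hid κ)),
          (𝔼 ω, 𝔼 m, ind (yv (f (sd ω) (M ω)) = g0 ω ∧ ¬ unc m (sd ω) (M ω) ∧
            ¬ crowd m (sd ω) (M ω))) ≤ 2 ^ r / 2 ^ e * (𝔼 ω, cap (sd ω) (M ω)) +
            ncl e * 2 ^ e * N * 𝔼 ω, D.sg (sd ω) (M ω) * ind (D.ys (sd ω) (M ω) = g0 ω) := by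
  classical
  choose 𝒞 hC using fun s => cover_ex hid hs hε hξ (f s) (H s) (hH s)
  have hN' : (0 : ℝ) < N := by exact_mod_cast hN
  refine ⟨fun m s M => Unc (f s) (𝒞 s) (M + Matrix.vecMulVec (hid m) t),
    fun m s M => ∃ K1, N < cnt hid (𝒞 s) K1 (M + Matrix.vecMulVec (hid m) t),
    fun s M => 𝔼 m, ∑ c ∈ 𝒞 s, ind (c.mem (M + Matrix.vecMulVec (hid m) t)) *
      ind (cnt hid (𝒞 s) c.K1 (M + Matrix.vecMulVec (hid m) t) ≤ N),
    fun m s => ?_, fun m s => ?_, fun s M => ?_, fun s => ?_, fun Ω _ _ sd M g0 => ?_⟩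
  · refine le_trans ?_ (hC s).pair
    rw [← expect_add_right' (fun M => 𝔼 a : F2 l, 𝔼 n : X → ZMod 2,
      ind (Unc (f s) (𝒞 s) M ∧ Unc (f s) (𝒞 s) (M + Matrix.vecMulVec a n) ∧
        f s M = f s (M + Matrix.vecMulVec a n))) (Matrix.vecMulVec (hid m) t)]
    refine expect_mono' fun M => expect_mono' fun a => expect_mono' fun n => ind_mono' ?_
    rintro ⟨h1, h2, h3⟩
    rw [add_right_comm M (Matrix.vecMulVec (hid m) t)]
    exact ⟨h1, h2, by rw [had, had, h3]⟩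
  · rw [expect_add_right' (fun M => ind (∃ K1, N < cnt hid (𝒞 s) K1 M))]
    refine (expect_mono' fun M => de_crowd_le hid (𝒞 s) hN M).trans ?_
    rw [← Finset.expect_div, Finset.expect_sum_comm]
    have h1 : ∑ c ∈ 𝒞 s, (𝔼 M, ind (c.big hid M)) ≤ 2 ^ (e * r) * (1 / ε) := by
      refine (Finset.sum_le_sum (hC s).big_le).trans ?_
      rw [← Finset.mul_sum]
      exact mul_le_mul_of_nonneg_left (hC s).sum_le (by positivity)
    calc (∑ c ∈ 𝒞 s, 𝔼 M, ind (c.big hid M)) / N ≤ 2 ^ (e * r) * (1 / ε) / N :=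
          div_le_div_of_nonneg_right h1 hN'.le
      _ = 1 * 2 ^ (e * r) / (ε * N) := by field_simp
      _ ≤ ncl e * 2 ^ (e * r) / (ε * N) := by
          have := de_ncl_pos e
          gcongr
  · rw [abs_of_nonneg (Finset.expect_nonneg fun m _ => Finset.sum_nonneg fun c _ =>
      mul_nonneg (ind_nonneg' _) (ind_nonneg' _))]
    exact expect_le_of_le fun m => de_cap_le hid (𝒞 s) N _
  · rw [Finset.expect_comm]
    refine expect_le_of_le fun m => le_trans ?_ (hC s).sum_le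
    rw [Finset.expect_sum_comm]
    refine Finset.sum_le_sum fun c _ => ?_
    rw [← expect_add_right' (fun M => ind (c.mem M)) (Matrix.vecMulVec (hid m) t)]
    exact expect_mono' fun M => mul_le_of_le_one_right (ind_nonneg' _) (ind_le_one' _)
  · set Y : F2 e → Ω → ℝ := fun m ω => ∑ c ∈ 𝒞 (sd ω), ind (yv c.lam = g0 ω + hid m) *
      ind (cnt hid (𝒞 (sd ω)) c.K1 (M ω + Matrix.vecMulVec (hid m) t) ≤ N) *
        (ind (c.big hid (M ω + Matrix.vecMulVec (hid m) t)) *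
          c.odd hid t (M ω + Matrix.vecMulVec (hid m) t)) with hY
    set Z : F2 e → Ω → ℝ := fun m ω => ∑ c ∈ 𝒞 (sd ω), ind (yv c.lam = g0 ω + hid m) *
      (ind (cnt hid (𝒞 (sd ω)) c.K1 (M ω + Matrix.vecMulVec (hid m) t) ≤ N) *
        (2 ^ r * 𝔼 κ : F2 e, ind (κ ∈ c.K1 ∧
          c.mem (M ω + Matrix.vecMulVec (hid m) t + Matrix.vecMulVec (hid κ) t)))) with hZ
    obtain ⟨m0, -, hm0⟩ := Finset.exists_max_image univ (fun m => 𝔼 ω, Y m ω) univ_nonempty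
    obtain ⟨κ, D, hD⟩ := dec_odd hid H t yv 𝒞 (fun s => (hC s).inv) N sd
      (fun ω => M ω + Matrix.vecMulVec (hid m0) t) (fun ω => g0 ω + hid m0)
    refine ⟨κ, de_shift D (Matrix.vecMulVec (hid m0) t) (hid m0), ?_⟩
    have key : ∀ ω m, ind (yv (f (sd ω) (M ω)) = g0 ω ∧
        ¬ Unc (f (sd ω)) (𝒞 (sd ω)) (M ω + Matrix.vecMulVec (hid m) t) ∧
        ¬ ∃ K1, N < cnt hid (𝒞 (sd ω)) K1 (M ω + Matrix.vecMulVec (hid m) t)) ≤
          Z m ω + Y m ω := by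
      intro ω m
      have h1 : ∑ c ∈ 𝒞 (sd ω), ind (yv c.lam = g0 ω + hid m) *
          ind (cnt hid (𝒞 (sd ω)) c.K1 (M ω + Matrix.vecMulVec (hid m) t) ≤ N) *
            ind (c.mem (M ω + Matrix.vecMulVec (hid m) t)) ≤ Z m ω + Y m ω := by
        rw [hZ, hY, ← Finset.sum_add_distrib]
        refine Finset.sum_le_sum fun c hc => ?_
        rw [← mul_assoc, ← mul_add]
        exact mul_le_mul_of_nonneg_left (cell_split hid t c ((hC _).free c hc) _)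
          (mul_nonneg (ind_nonneg' _) (ind_nonneg' _))
      refine le_trans ?_ h1
      have hnn : ∀ c ∈ 𝒞 (sd ω), 0 ≤ ind (yv c.lam = g0 ω + hid m) *
          ind (cnt hid (𝒞 (sd ω)) c.K1 (M ω + Matrix.vecMulVec (hid m) t) ≤ N) *
            ind (c.mem (M ω + Matrix.vecMulVec (hid m) t)) := fun c _ =>
        mul_nonneg (mul_nonneg (ind_nonneg' _) (ind_nonneg' _)) (ind_nonneg' _)
      by_cases h : yv (f (sd ω) (M ω)) = g0 ω ∧
        ¬ Unc (f (sd ω)) (𝒞 (sd ω)) (M ω + Matrix.vecMulVec (hid m) t) ∧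
        ¬ ∃ K1, N < cnt hid (𝒞 (sd ω)) K1 (M ω + Matrix.vecMulVec (hid m) t)
      · rw [ind_pos h]
        obtain ⟨h2, h3, h4⟩ := h
        have h5 : ∃ c ∈ 𝒞 (sd ω), c.mem (M ω + Matrix.vecMulVec (hid m) t) ∧
            f (sd ω) (M ω + Matrix.vecMulVec (hid m) t) = c.lam := by
          by_contra hne
          exact h3 fun c hc hx => hne ⟨c, hc, hx⟩
        obtain ⟨c, hc, h6, h7⟩ := h5
        refine le_trans ?_ (Finset.single_le_sum hnn hc)
        rw [ind_pos h6, ind_pos (not_lt.1 fun hx => h4 ⟨c.K1, hx⟩),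
          ind_pos (by rw [← h7, had, hyv, h2])]
        norm_num
      · rw [ind_neg h]
        exact Finset.sum_nonneg hnn
    refine (expect_mono' fun ω => expect_mono' fun m => key ω m).trans ?_
    simp only [Finset.expect_add_distrib]
    refine add_le_add ?_ ?_
    · rw [Finset.mul_expect]
      refine expect_mono' fun ω => ?_
      rw [hZ, Finset.expect_sum_comm, Finset.expect_sum_comm, Finset.mul_sum]
      exact Finset.sum_le_sum fun c _ => de_even hid hinj _ c N r t (M ω) _ _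
    · rw [Finset.expect_comm]
      refine (expect_le_of_le fun m => hm0 m (mem_univ m)).trans (hD.trans (le_of_eq ?_))
      congr 1
      refine Finset.expect_congr rfl fun ω _ => ?_
      change _ = D.sg (sd ω) (M ω + Matrix.vecMulVec (hid m0) t) *
        ind (D.ys (sd ω) (M ω + Matrix.vecMulVec (hid m0) t) - hid m0 = g0 ω)
      rw [ind_congr' sub_eq_iff_eq_add]

end Vale.Agent.P339
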