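import Vale.Agent.P339.CoreA
import Vale.Agent.P339.CoreB
import Vale.Agent.P339.CoreG
import Vale.Agent.P339.Decode

/-!
The top level of a node against a lower level.
-/

namespace Vale.Agent.P339

open Vale.Agent.P325 Finset
open scoped BigOperators

variable {P : Prm} {S : Stage P} {jn : Fin P.T} {k n : ℕ} {g : Eg P}


theorem co_three {A B C : Type} [Fintype A] [Fintype B] [Fintype C] (F : A → B → C → ℝ) :
    (𝔼 ω : A × B × C, F ω.1 ω.2.1 ω.2.2) = 𝔼 a, 𝔼 b, 𝔼 c, F a b c := by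
  simp only [expect_prod']

theorem co_pt {p p' u c y : Prop} (h : p' → y) :
    ind (p ∧ p') ≤ ind (p ∧ u) + ind c + ind (y ∧ ¬ u ∧ ¬ c) := by
  have h1 := ind_nonneg (p ∧ u)
  have h2 := ind_nonneg c
  have h3 := ind_nonneg (y ∧ ¬ u ∧ ¬ c)
  by_cases hp : p ∧ p'
  · rw [ind_pos hp]
    by_cases hu : u
    · rw [ind_pos (p := p ∧ u) ⟨hp.1, hu⟩]; linarith
    · by_cases hc : c
      · rw [ind_pos hc]; linarith
      · rw [ind_pos (p := y ∧ ¬ u ∧ ¬ c) ⟨h hp.2, hu, hc⟩]; linarith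
  · rw [ind_neg hp]; linarith

theorem co_U (Φ : S.Side k → Mat P.l (S.X k) → ℝ) {b c tv : ℝ} (hc : ∀ sd M, |Φ sd M| ≤ c)
    (hb : ∀ sd, (𝔼 M, Φ sd M) ≤ b) (hc0 : 0 ≤ c)
    (htv : √((Fintype.card S.Tup : ℝ) / (k + 1)) ≤ tv) :
    (𝔼 ε : Fin (k + 1) × S.Co → g.E, 𝔼 r : S.Rn' k, 𝔼 w : S.W' k,
      Φ (Stage.sdq jn g ε r w) (Stage.mtq jn g ε r w)) ≤ b + c * tv := by
  have h := coreU (jn := jn) (g := g) (fun sd M _ _ => Φ sd M) (b := b) (fun sd M _ _ => hc sd M)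
    fun sd => by simpa only [expect_const univ_nonempty] using hb sd
  simp only [expect_const univ_nonempty] at h
  exact h.trans (by gcongr)

theorem co_add {j' : Fin P.T} (hne : j' ≠ jn) (r : S.Rn' k) (κ : P.K) (w : S.Lab' k) :
    ((S.succ jn k).add r j' κ w).2 = w.2 := by
  simp only [Stage.succ, if_neg hne]

theorem core (hS : S.Good n) (hj : (jn : ℕ) = n + 1) {j' : Fin P.T} (hj' : (j' : ℕ) ≤ n)
    {ξ ε δ0 tv tv0 θ : ℝ} {r N L p : ℕ} (hs : SSEat ξ r ε) (hε : 0 < ε) (hξ : 0 ≤ ξ) (hN : 0 < N)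
    (hg : g.Sound δ0) (hθ : 0 ≤ θ) (hw : werr P.l P.e P.ρ p L ≤ θ ^ (2 ^ (p + 1)))
    (htv0 : √((Fintype.card P.Tup0 : ℝ) / (P.m + 1)) ≤ tv0)
    (htv : √((Fintype.card S.Tup : ℝ) / (k + 1)) ≤ tv) :
    Bnd (S.succ jn k) (n + 1) g jn j' (cb ξ ε r P.e N L δ0 tv tv0 θ) := by
  intro s
  obtain ⟨unc, crowd, cap, h1, h2, h3, h4, h5⟩ := decode (N := N) P.hid P.hinj hs hε hξ hN s.fM
    (Stage.HH (S := S) (k := k)) (S.tt k) Prod.snd Stage.addY (fM_HH hS s) (fM_tt hS s)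
    fun _ _ => rfl
  let g0 : (Fin (k + 1) × S.Co → g.E) → S.Rn' k → S.W' k → P.K := fun ε r w => (s.gam j' ε r w).2
  obtain ⟨κ, D, h6⟩ := h5 ((Fin (k + 1) × S.Co → g.E) × S.Rn' k × S.W' k)
    (fun ω => Stage.sdq jn g ω.1 ω.2.1 ω.2.2) (fun ω => Stage.mtq jn g ω.1 ω.2.1 ω.2.2)
    fun ω => g0 ω.1 ω.2.1 ω.2.2
  have hne : j' ≠ jn := fun e => by rw [e] at hj'; omega
  have hy : ∀ ε r w, s.pass j' ε r w →
      (s.fM (Stage.sdq jn g ε r w) (Stage.mtq jn g ε r w)).2 = g0 ε r w := fun ε r w h => by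
    refine (congrArg Prod.snd (out_eq hj s ε r w)).symm.trans ?_
    rcases h with h | h
    · exact congrArg Prod.snd h
    · exact (congrArg Prod.snd h).trans (co_add hne _ _ _)
  have hB := coreB (g := g) hS hj hj' D hθ hw htv0 g0 fun ε r w x =>
    congrArg Prod.snd (s.gam_d j' ε r w x)
  have hG := coreG hS hj hg D L g0 fun ε ε' r w h => congrArg Prod.snd (s.gam_v j' ε ε' r w h)
  have hcap := co_U (jn := jn) (g := g) cap h3 h4 (by positivity) htv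
  rw [← co_three] at hB hG hcap
  have hD : (𝔼 ω : (Fin (k + 1) × S.Co → g.E) × S.Rn' k × S.W' k,
      D.sg (Stage.sdq jn g ω.1 ω.2.1 ω.2.2) (Stage.mtq jn g ω.1 ω.2.1 ω.2.2) *
        ind (D.ys (Stage.sdq jn g ω.1 ω.2.1 ω.2.2) (Stage.mtq jn g ω.1 ω.2.1 ω.2.2) =
          g0 ω.1 ω.2.1 ω.2.2)) ≤ √(L * δ0) + √(tv0 + θ) := by
    refine le_trans (le_of_eq ?_) (add_le_add hG hB)
    rw [← expect_add_distrib]
    refine expect_congr rfl fun ω _ => ?_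
    rw [Dec.hb, ind_not]; ring
  have hm : ∀ m : F2 P.e, (𝔼 ω : (Fin (k + 1) × S.Co → g.E) × S.Rn' k × S.W' k,
      ind (s.pass jn ω.1 ω.2.1 ω.2.2 ∧ s.pass j' ω.1 ω.2.1 ω.2.2)) ≤
      √(2 * (ξ + tv)) + (ncl P.e * 2 ^ (P.e * r) / (ε * N) + tv) +
        𝔼 ω : (Fin (k + 1) × S.Co → g.E) × S.Rn' k × S.W' k,
          ind ((s.fM (Stage.sdq jn g ω.1 ω.2.1 ω.2.2) (Stage.mtq jn g ω.1 ω.2.1 ω.2.2)).2 =
            g0 ω.1 ω.2.1 ω.2.2 ∧
            ¬ unc m (Stage.sdq jn g ω.1 ω.2.1 ω.2.2) (Stage.mtq jn g ω.1 ω.2.1 ω.2.2) ∧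
            ¬ crowd m (Stage.sdq jn g ω.1 ω.2.1 ω.2.2) (Stage.mtq jn g ω.1 ω.2.1 ω.2.2)) := by
    intro m
    have hA := coreA hS hj s (unc m) (h1 m) htv
    have hC := co_U (jn := jn) (g := g) (fun sd M => ind (crowd m sd M)) (fun _ _ => abs_ind_le _)
      (h2 m) zero_le_one htv
    rw [← co_three] at hA hC
    rw [one_mul] at hC
    refine le_trans ?_ (add_le_add (add_le_add hA hC) le_rfl)
    rw [← expect_add_distrib, ← expect_add_distrib]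
    exact expect_mono' fun ω => co_pt (hy _ _ _)
  have h7 := expect_mono' hm
  rw [expect_const univ_nonempty, expect_add_distrib, expect_const univ_nonempty, expect_comm] at h7
  refine le_trans (le_of_eq (co_three fun ε r w => ind (s.pass jn ε r w ∧ s.pass j' ε r w)).symm) ?_
  refine h7.trans ?_
  unfold cb
  have h8 : (2 : ℝ) ^ r / 2 ^ P.e * _ ≤ _ := mul_le_mul_of_nonneg_left hcap (by positivity)
  have h9 : (ncl P.e : ℝ) * 2 ^ P.e * N * _ ≤ _ := mul_le_mul_of_nonneg_left hD (by positivity)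
  linarith

end Vale.Agent.P339
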