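import Vale.Agent.P339.CoreU
import Vale.Agent.P339.CS
import Vale.Agent.P339.Fold

/-!
The uncovered part (aux names: `ca_*`).
Plan.  `Prm.expect_setd jn`, then `unc_le` with `ω = (ε, r, w)`, `d` the fresh part of level `jn`,
`F ω d = s.out ε r (setd w jn d)`, `γ = s.gam jn ε r w`, `γ'` its shift (`gam_d`, `(setd w jn d).1 = w.1`).
`Prm.expect_setd2`, `Prm.ppg_setd`, `Stage.mat_bump`, `Stage.side_congr` (with `Prm.bump_of_ne`), `out_eq`
turn the collision probability into the left side of `coreU` with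
`Φ sd M a y = ind (U sd M ∧ U sd (M + a ⊗ y) ∧ fM sd M = fM sd (M + a ⊗ y))`.
-/

namespace Vale.Agent.P339

open Vale.Agent.P325 Finset
open scoped BigOperators

variable {P : Prm} {S : Stage P} {jn : Fin P.T} {k n : ℕ} {g : Eg P}

theorem ca_e3 {A B C : Type} [Fintype A] [Fintype B] [Fintype C] (f : A × B × C → ℝ) :
    (𝔼 p, f p) = 𝔼 a, 𝔼 b, 𝔼 c, f (a, b, c) := by
  rw [expect_prod']
  exact expect_congr rfl fun a _ => expect_prod' _

theorem ca_sd (hS : S.Good n) (hj : (jn : ℕ) = n + 1) (ε : Fin (k + 1) × S.Co → g.E) (r : S.Rn' k)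
    (w : S.W' k) (x : S.Par' k) :
    Stage.sdq jn g ε r (Prm.setd w jn (w.2.1 jn + x)) = Stage.sdq jn g ε r w := by
  unfold Stage.sdq Stage.pq
  rw [Prm.ppg_setd]
  exact Stage.side_congr hS hj _ r fun t ht => Prm.bump_of_ne _ _ _ ht

theorem ca_mt (ε : Fin (k + 1) × S.Co → g.E) (r : S.Rn' k) (w : S.W' k) (x : S.Par' k) :
    Stage.mtq jn g ε r (Prm.setd w jn (w.2.1 jn + x)) = Stage.mtq jn g ε r w +
      Matrix.vecMulVec (w.1 jn) (Stage.slc r (Prm.zer w.2.2.2.1 x)) := by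
  unfold Stage.mtq Stage.pq
  rw [Prm.ppg_setd, Stage.mat_bump]

theorem coreA (hS : S.Good n) (hj : (jn : ℕ) = n + 1) (s : Strat (S.succ jn k) (n + 1) g)
    (U : S.Side k → Mat P.l (S.X k) → Prop) {ξ tv : ℝ}
    (hU : ∀ sd, (𝔼 M : Mat P.l (S.X k), 𝔼 a : F2 P.l, 𝔼 y : S.X k → ZMod 2,
      ind (U sd M ∧ U sd (M + Matrix.vecMulVec a y) ∧
        s.fM sd M = s.fM sd (M + Matrix.vecMulVec a y))) ≤ ξ)
    (htv : √((Fintype.card S.Tup : ℝ) / (k + 1)) ≤ tv) :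
    (𝔼 ε : Fin (k + 1) × S.Co → g.E, 𝔼 r : S.Rn' k, 𝔼 w : S.W' k,
      ind (s.pass jn ε r w ∧ U (Stage.sdq jn g ε r w) (Stage.mtq jn g ε r w))) ≤
      √(2 * (ξ + tv)) := by
  have h := unc_le (Ω := (Fin (k + 1) × S.Co → g.E) × S.Rn' k × S.W' k) (D := S.Par' k)
    (fun ω d => s.fM (Stage.sdq jn g ω.1 ω.2.1 (Prm.setd ω.2.2 jn d))
      (Stage.mtq jn g ω.1 ω.2.1 (Prm.setd ω.2.2 jn d)))
    (fun ω d => U (Stage.sdq jn g ω.1 ω.2.1 (Prm.setd ω.2.2 jn d))
      (Stage.mtq jn g ω.1 ω.2.1 (Prm.setd ω.2.2 jn d)))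
    (fun ω => s.gam jn ω.1 ω.2.1 ω.2.2)
    (fun ω => (S.succ jn k).add ω.2.1 jn (P.abar (ω.2.2.1 jn)) (s.gam jn ω.1 ω.2.1 ω.2.2))
  rw [ca_e3, ca_e3] at h
  have h2 := coreU (jn := jn) (g := g) (fun sd M a y => ind (U sd M ∧
    U sd (M + Matrix.vecMulVec a y) ∧ s.fM sd M = s.fM sd (M + Matrix.vecMulVec a y)))
    (fun _ _ _ _ => abs_ind_le _) hU
  refine le_trans (le_of_eq ?_) (h.trans (Real.sqrt_le_sqrt ?_))
  · refine expect_congr rfl fun ε _ => expect_congr rfl fun r _ => ?_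
    refine (Prm.expect_setd jn _).trans ?_
    refine expect_congr rfl fun w _ => expect_congr rfl fun x _ => ind_congr (and_congr_left' ?_)
    have h3 := out_eq hj s ε r (Prm.setd w jn x)
    have h4 := s.gam_d jn ε r w x
    exact or_congr (Eq.congr h3 h4) (Eq.congr h3 (congrArg _ h4))
  · refine mul_le_mul_of_nonneg_left (le_trans (le_of_eq ?_) (h2.trans (by linarith))) zero_le_two
    refine expect_congr rfl fun ε _ => expect_congr rfl fun r _ => ?_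
    refine (Prm.expect_setd2 jn fun w w' : S.W' k =>
      ind (U (Stage.sdq jn g ε r w) (Stage.mtq jn g ε r w) ∧
        U (Stage.sdq jn g ε r w') (Stage.mtq jn g ε r w') ∧
        s.fM (Stage.sdq jn g ε r w) (Stage.mtq jn g ε r w) =
          s.fM (Stage.sdq jn g ε r w') (Stage.mtq jn g ε r w'))).trans ?_
    refine expect_congr rfl fun w _ => expect_congr rfl fun x _ => ?_
    rw [ca_sd hS hj, ca_mt]

end Vale.Agent.P339
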