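import Vale.Agent.P339.Plant

/-!
Transfer from the uniform law to the law of the test (aux names: `cu_*`).
Plan.  Fix `ε`.  By `Prm.expect_tot` the left side is an average over `r = (i, dats, r')`, `a`, `p`, `pos`,
`val`, `x` of `Φ` at `q = plant pos ν p`.  Split `p t = ((up t, (lo t).1), (lo t).2)`,
`x = ((ux, lx.1), lx.2)` and put `X i' = (dats i', fun t => up t i', ux i') : S.Tup`; `X` is uniform.
`F X = Φ (U, fun i' => (X i').1, fun t => if jn < t.1 then (fun σ => ∑ i', (X i').2.1 t (res σ i')) else 0)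
(fun q y => (X y.1).2.1 (jn, inl q) y.2) (a jn) (fun y => (X y.1).2.2 y.2)`.  With `ω = (r', lo, pos, val, lx)`,
`pl = plant pos (..) lo`, the planted tuple is `ν i ω = (S.spd r' pl, fun t => S.ev r' (pl t) + corr t,
S.ev r' (zer pos lx))` with `corr (jn, inl q) σ = hidT jn (fun t => S.ev r' (pl t)) σ q`, else `0`.  The integrand
is `F (update X i (ν i ω))`; `plant_le`.  Finally `𝔼 a, 𝔼 X, F X ≤ b`: for all `(M0, n0)` the map adding `M0`
to the components `(jn, inl q)` and `n0` to the last components is a bijection that fixes the side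
information (`expect_add_right'` on `(I → Fn) × Fn`), then `expect_add_left'`, `expect_eval`.
-/

namespace Vale.Agent.P339

open Vale.Agent.P325 Finset
open scoped BigOperators

variable {P : Prm} {S : Stage P} {jn : Fin P.T} {k n : ℕ} {g : Eg P}


/-- A family of functions placed on the rows of level `jn`. -/
def cu_emb (jn : Fin P.T) (f : Fin P.l → S.Fn) : P.I → S.Fn :=
  fun t => if t.1 = jn then Sum.elim f (fun _ => 0) t.2 else 0

theorem cu_emb_inl (f : Fin P.l → S.Fn) (q : Fin P.l) : cu_emb jn f (jn, Sum.inl q) = f q := by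
  simp [cu_emb]

theorem cu_emb_lt (f : Fin P.l → S.Fn) {t : P.I} (ht : (jn : ℕ) < (t.1 : ℕ)) :
    cu_emb jn f t = 0 := by
  unfold cu_emb
  rw [if_neg fun e => by rw [e] at ht; omega]

/-- Side information of a family of tuples. -/
def cu_sd (jn : Fin P.T) (U : Fin (k + 1) × S.Co → ℕ) (X : Fin (k + 1) → S.Tup) : S.Side k :=
  (U, fun i => (X i).1, fun t =>
    if (jn : ℕ) < (t.1 : ℕ) then (fun σ => ∑ i, (X i).2.1 t (Stage.res σ i)) else 0)

/-- Matrix of a family of tuples. -/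
def cu_mt (jn : Fin P.T) (X : Fin (k + 1) → S.Tup) : Mat P.l (S.X k) :=
  fun q y => (X y.1).2.1 (jn, Sum.inl q) y.2

/-- Column function of a family of tuples. -/
def cu_nv (X : Fin (k + 1) → S.Tup) : S.X k → ZMod 2 := fun y => (X y.1).2.2 y.2

/-- The randomness of the planted tuple. -/
abbrev cu_Om (S : Stage P) : Type :=
  S.Rn × (P.I → S.Par) × Fin (P.m + 1) × (P.Grp → P.B → ZMod 2) × S.Par

/-- The planted parameters. -/
def cu_pl (πs : Fin (k + 1) × S.Co → P.A → P.B) (i : Fin (k + 1)) (ω : cu_Om S) : P.I → S.Par :=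
  Prm.plant ω.2.2.1 (fun c a => ω.2.2.2.1 c (πs (i, S.botc ω.1 (ω.2.2.1, c)) a)) ω.2.1

/-- The planted tuple. -/
def cu_nu (jn : Fin P.T) (πs : Fin (k + 1) × S.Co → P.A → P.B) (i : Fin (k + 1)) (ω : cu_Om S) :
    S.Tup :=
  (S.spd ω.1 (cu_pl πs i ω), (fun t => S.ev ω.1 (cu_pl πs i ω t)) +
    cu_emb jn fun q σ => Stage.hidT jn (fun t => S.ev ω.1 (cu_pl πs i ω t)) σ q,
    S.ev ω.1 (Prm.zer ω.2.2.1 ω.2.2.2.2))

/-- Regrouping of the randomness. -/
def cu_equiv (S : Stage P) (k : ℕ) : ((Fin (k + 1) → S.Tup) × cu_Om S) ≃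
    (((Fin (k + 1) → S.Dat) × S.Rn) × (P.I → S.Par' k) × Fin (P.m + 1) ×
      (P.Grp → P.B → ZMod 2) × S.Par' k) where
  toFun z := ((fun i => (z.1 i).1, z.2.1),
    fun t => ((fun i => (z.1 i).2.1 t, (z.2.2.1 t).1), (z.2.2.1 t).2), z.2.2.2.1, z.2.2.2.2.1,
    ((fun i => (z.1 i).2.2, z.2.2.2.2.2.1), z.2.2.2.2.2.2))
  invFun z := (fun i => (z.1.1 i, fun t => (z.2.1 t).1.1 i, z.2.2.2.2.1.1 i), z.1.2,
    fun t => ((z.2.1 t).1.2, (z.2.1 t).2), z.2.2.1, z.2.2.2.1, (z.2.2.2.2.1.2, z.2.2.2.2.2))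
  left_inv _ := rfl
  right_inv _ := rfl

/-- The parameters of the test after the regrouping. -/
def cu_q (πs : Fin (k + 1) × S.Co → P.A → P.B) (i : Fin (k + 1)) (X : Fin (k + 1) → S.Tup)
    (ω : cu_Om S) : P.I → S.Par' k :=
  Prm.plant ω.2.2.1 (fun c a => ω.2.2.2.1 c (πs (i, S.botc ω.1 (ω.2.2.1, c)) a))
    fun t => ((fun i => (X i).2.1 t, (ω.2.1 t).1), (ω.2.1 t).2)

theorem cu_low (πs : Fin (k + 1) × S.Co → P.A → P.B) (i : Fin (k + 1)) (X : Fin (k + 1) → S.Tup)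
    (ω : cu_Om S) (t : P.I) : Stage.low (cu_q πs i X ω t) = cu_pl πs i ω t := rfl

theorem cu_slc (πs : Fin (k + 1) × S.Co → P.A → P.B) (i : Fin (k + 1)) (X : Fin (k + 1) → S.Tup)
    (ω : cu_Om S) (t : P.I) (y : S.X k) :
    Stage.slc (i, fun i => (X i).1, ω.1) (cu_q πs i X ω t) y =
      if y.1 = i then S.ev ω.1 (cu_pl πs i ω t) y.2 else (X y.1).2.1 t y.2 := rfl

theorem cu_side (U : Fin (k + 1) × S.Co → ℕ) (πs : Fin (k + 1) × S.Co → P.A → P.B)
    (i : Fin (k + 1)) (X : Fin (k + 1) → S.Tup) (ω : cu_Om S) :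
    Stage.sideP jn U (i, fun i => (X i).1, ω.1) (cu_q πs i X ω) =
      cu_sd jn U (Function.update X i (cu_nu jn πs i ω)) := by
  refine Prod.ext rfl (Prod.ext (funext fun i' => ?_) (funext fun t => ?_))
  · by_cases h : i' = i
    · subst h
      simp only [Stage.sideP, Stage.kids, cu_sd, Function.update_self]
      rfl
    · simp only [Stage.sideP, Stage.kids, cu_sd, Function.update_of_ne h]
  · simp only [Stage.sideP, cu_sd]
    split_ifs with ht
    · funext σ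
      change ∑ i', Stage.slc (i, fun i => (X i).1, ω.1) (cu_q πs i X ω t) (i', Stage.res σ i') = _
      refine Finset.sum_congr rfl fun i' _ => ?_
      rw [cu_slc]
      by_cases h : i' = i
      · subst h
        simp only [Function.update_self, cu_nu, Pi.add_apply, cu_emb_lt _ ht, Pi.zero_apply,
          add_zero, if_true]
      · simp only [Function.update_of_ne h, if_neg h]
    · rfl

theorem cu_mat (πs : Fin (k + 1) × S.Co → P.A → P.B)
    (i : Fin (k + 1)) (X : Fin (k + 1) → S.Tup) (ω : cu_Om S) :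
    Stage.mat jn (i, fun i => (X i).1, ω.1) (cu_q πs i X ω) =
      cu_mt jn (Function.update X i (cu_nu jn πs i ω)) := by
  funext q y
  obtain ⟨i', σ⟩ := y
  simp only [Stage.mat, cu_mt, cu_slc, cu_low]
  by_cases h : i' = i
  · subst h
    simp only [Function.update_self, cu_nu, Pi.add_apply, cu_emb_inl, if_true]
  · simp only [Function.update_of_ne h, if_neg h, add_zero]

theorem cu_vec (πs : Fin (k + 1) × S.Co → P.A → P.B)
    (i : Fin (k + 1)) (X : Fin (k + 1) → S.Tup) (ω : cu_Om S) :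
    Stage.slc (i, fun i => (X i).1, ω.1)
        (Prm.zer ω.2.2.1 ((fun i => (X i).2.2, ω.2.2.2.2.1), ω.2.2.2.2.2)) =
      cu_nv (Function.update X i (cu_nu jn πs i ω)) := by
  funext y
  obtain ⟨i', σ⟩ := y
  change (if i' = i then S.ev ω.1 (Prm.zer ω.2.2.1 ω.2.2.2.2) σ else (X i').2.2 σ) = _
  by_cases h : i' = i
  · subst h
    simp only [cu_nv, Function.update_self, cu_nu, if_true]
  · simp only [cu_nv, Function.update_of_ne h, if_neg h]

/-- The shift of the tuples by a matrix and a column function. -/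
def cu_sh (jn : Fin P.T) (M : Mat P.l (S.X k)) (y : S.X k → ZMod 2) :
    Fin (k + 1) → (P.I → S.Fn) × S.Fn :=
  fun i => (cu_emb jn fun q σ => M q (i, σ), fun σ => y (i, σ))

theorem cu_unif (U : Fin (k + 1) × S.Co → ℕ)
    (Ψ : S.Side k → Mat P.l (S.X k) → (S.X k → ZMod 2) → ℝ) :
    (𝔼 X : Fin (k + 1) → S.Tup, Ψ (cu_sd jn U X) (cu_mt jn X) (cu_nv X)) =
      𝔼 X : Fin (k + 1) → S.Tup, 𝔼 M, 𝔼 y, Ψ (cu_sd jn U X) M y := by
  rw [expect_pi_pair, expect_pi_pair]
  refine expect_congr rfl fun d _ => ?_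
  have h1 : ∀ (M : Mat P.l (S.X k)) (y : S.X k → ZMod 2),
      (𝔼 Y : Fin (k + 1) → (P.I → S.Fn) × S.Fn, Ψ (cu_sd jn U fun i => (d i, Y i))
        (cu_mt jn fun i => (d i, Y i)) (cu_nv fun i => (d i, Y i))) =
      𝔼 Y : Fin (k + 1) → (P.I → S.Fn) × S.Fn, Ψ (cu_sd jn U fun i => (d i, Y i))
        ((cu_mt jn fun i => (d i, Y i)) + M) ((cu_nv fun i => (d i, Y i)) + y) := by
    intro M y
    rw [← expect_add_right' _ (cu_sh jn M y)]
    refine expect_congr rfl fun Y _ => ?_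
    congr 1
    · refine Prod.ext rfl (Prod.ext rfl (funext fun t => ?_))
      simp only [cu_sd]
      split_ifs with ht
      · simp only [cu_sh, Pi.add_apply, Prod.fst_add, cu_emb_lt _ ht, Pi.zero_apply, add_zero]
      · rfl
    · funext q z
      simp only [cu_mt, cu_sh, Pi.add_apply, Prod.fst_add, cu_emb_inl, Matrix.add_apply]
  calc _ = 𝔼 M : Mat P.l (S.X k), 𝔼 y : S.X k → ZMod 2,
        𝔼 Y : Fin (k + 1) → (P.I → S.Fn) × S.Fn, Ψ (cu_sd jn U fun i => (d i, Y i))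
        ((cu_mt jn fun i => (d i, Y i)) + M) ((cu_nv fun i => (d i, Y i)) + y) := by
        simp only [← h1, expect_const univ_nonempty]
    _ = _ := by
        rw [expect_congr rfl fun M _ => expect_comm _ _ _, expect_comm]
        refine expect_congr rfl fun Y _ => ?_
        rw [← expect_add_left' (fun M => 𝔼 y, Ψ (cu_sd jn U fun i => (d i, Y i)) M y)
          (cu_mt jn fun i => (d i, Y i))]
        refine expect_congr rfl fun M _ => ?_
        exact expect_add_left' (fun y => Ψ (cu_sd jn U fun i => (d i, Y i))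
          ((cu_mt jn fun i => (d i, Y i)) + M) y) _

theorem cu_plant (U : Fin (k + 1) × S.Co → ℕ) (πs : Fin (k + 1) × S.Co → P.A → P.B)
    (Ψ : S.Side k → Mat P.l (S.X k) → (S.X k → ZMod 2) → ℝ) {c : ℝ}
    (hc : ∀ sd M y, |Ψ sd M y| ≤ c) :
    (𝔼 r : S.Rn' k, 𝔼 p : P.I → S.Par' k, 𝔼 pos : Fin (P.m + 1), 𝔼 val : P.Grp → P.B → ZMod 2,
      𝔼 x : S.Par' k,
      Ψ (Stage.sideP jn U r (Prm.plant pos (fun c a => val c (πs (Stage.bcs r (pos, c)) a)) p))
        (Stage.mat jn r (Prm.plant pos (fun c a => val c (πs (Stage.bcs r (pos, c)) a)) p))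
        (Stage.slc r (Prm.zer pos x))) ≤
      (𝔼 X : Fin (k + 1) → S.Tup, 𝔼 M, 𝔼 y, Ψ (cu_sd jn U X) M y) +
        c * √((Fintype.card S.Tup : ℝ) / (k + 1)) := by
  have h := plant_le (cu_nu jn πs) (fun X => Ψ (cu_sd jn U X) (cu_mt jn X) (cu_nv X))
    fun X => hc _ _ _
  rw [cu_unif, Fintype.card_fin, Nat.cast_succ] at h
  refine le_of_eq_of_le ?_ h
  refine (expect_prod' _).trans (expect_congr rfl fun i _ => ?_)
  have h2 := expect_equiv' (cu_equiv S k) fun z =>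
    Ψ (Stage.sideP jn U (i, z.1) (Prm.plant z.2.2.1
        (fun c a => z.2.2.2.1 c (πs (Stage.bcs (i, z.1) (z.2.2.1, c)) a)) z.2.1))
      (Stage.mat jn (i, z.1) (Prm.plant z.2.2.1
        (fun c a => z.2.2.2.1 c (πs (Stage.bcs (i, z.1) (z.2.2.1, c)) a)) z.2.1))
      (Stage.slc (i, z.1) (Prm.zer z.2.2.1 z.2.2.2.2))
  rw [expect_prod', expect_prod'] at h2
  refine Eq.trans ?_ (h2.symm.trans ?_)
  · refine expect_congr rfl fun r _ => ?_
    rw [expect_prod']
    refine expect_congr rfl fun p _ => ?_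
    rw [expect_prod']
    refine expect_congr rfl fun pos _ => ?_
    rw [expect_prod']
  · refine expect_congr rfl fun X _ => expect_congr rfl fun ω _ => ?_
    rw [← cu_side, ← cu_mat, ← cu_vec]
    rfl

theorem cu_tot (Φ : S.Side k → Mat P.l (S.X k) → P.K → (S.X k → ZMod 2) → ℝ)
    (ε : Fin (k + 1) × S.Co → g.E) (r : S.Rn' k) :
    (𝔼 w : S.W' k, 𝔼 x : S.Par' k, Φ (Stage.sdq jn g ε r w) (Stage.mtq jn g ε r w) (w.1 jn)
        (Stage.slc r (Prm.zer w.2.2.2.1 x))) =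
      𝔼 a : Fin P.T → P.K, 𝔼 p : P.I → S.Par' k, 𝔼 pos : Fin (P.m + 1),
        𝔼 val : P.Grp → P.B → ZMod 2, 𝔼 x : S.Par' k,
        Φ (Stage.sideP jn (fun x => g.u (ε x)) r
          (Prm.plant pos (fun c a => val c (g.π (ε (Stage.bcs r (pos, c))) a)) p))
        (Stage.mat jn r (Prm.plant pos (fun c a => val c (g.π (ε (Stage.bcs r (pos, c))) a)) p))
        (a jn) (Stage.slc r (Prm.zer pos x)) :=
  Prm.expect_tot (U := (Fin (k + 1) → S.Fn) × S.Up) fun a p pos val => 𝔼 x : S.Par' k,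
    Φ (Stage.sideP jn (fun x => g.u (ε x)) r
        (Prm.plant pos (fun c a => val c (g.π (ε (Stage.bcs r (pos, c))) a)) p))
      (Stage.mat jn r (Prm.plant pos (fun c a => val c (g.π (ε (Stage.bcs r (pos, c))) a)) p))
      (a jn) (Stage.slc r (Prm.zer pos x))

theorem cu_fin (Φ : S.Side k → Mat P.l (S.X k) → P.K → (S.X k → ZMod 2) → ℝ) {b : ℝ}
    (hb : ∀ sd, (𝔼 M, 𝔼 a, 𝔼 y, Φ sd M a y) ≤ b) (U : Fin (k + 1) × S.Co → ℕ) :
    (𝔼 a : Fin P.T → P.K, 𝔼 X : Fin (k + 1) → S.Tup, 𝔼 M, 𝔼 y,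
      Φ (cu_sd jn U X) M (a jn) y) ≤ b := by
  refine (expect_eval jn fun a0 : P.K => 𝔼 X : Fin (k + 1) → S.Tup, 𝔼 M, 𝔼 y,
    Φ (cu_sd jn U X) M a0 y).trans_le ?_
  refine (expect_comm _ _ _).trans_le (expect_le_of_le fun X => ?_)
  exact (expect_comm _ _ _).trans_le (hb _)

theorem coreU (Φ : S.Side k → Mat P.l (S.X k) → P.K → (S.X k → ZMod 2) → ℝ) {b c : ℝ}
    (hc : ∀ sd M a y, |Φ sd M a y| ≤ c) (hb : ∀ sd, (𝔼 M, 𝔼 a, 𝔼 y, Φ sd M a y) ≤ b) :
    (𝔼 ε : Fin (k + 1) × S.Co → g.E, 𝔼 r : S.Rn' k, 𝔼 w : S.W' k, 𝔼 x : S.Par' k,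
      Φ (Stage.sdq jn g ε r w) (Stage.mtq jn g ε r w) (w.1 jn)
        (Stage.slc r (Prm.zer w.2.2.2.1 x))) ≤
      b + c * √((Fintype.card S.Tup : ℝ) / (k + 1)) := by
  refine expect_le_of_le fun ε => ?_
  have h1 := expect_congr (s := univ) rfl fun r _ => cu_tot (jn := jn) Φ ε r
  rw [h1, expect_comm]
  have h2 := expect_mono' fun a : Fin P.T → P.K => cu_plant (jn := jn) (fun x => g.u (ε x))
    (fun x => g.π (ε x)) (fun sd M y => Φ sd M (a jn) y) fun sd M y => hc _ _ _ _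
  rw [expect_add_distrib, expect_const univ_nonempty] at h2
  have h3 := cu_fin (jn := jn) Φ hb fun x => g.u (ε x)
  exact h2.trans (add_le_add_left h3 _)

end Vale.Agent.P339
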