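import Vale.Agent.P339.Basic

/-!
The cell attached to a zoom (aux names: `cc_*`).
Plan.  `Z` = the zoom as a submodule (`mem_zoom`), `KH = span {vecMulVec κ η | η ∈ Hs}`, `B = Z ⊔ KH`,
`K1 = {κ | ∀ i, φ i ⬝ᵥ hid κ = 0}` (kernel of a linear map to `Fin r → ZMod 2`, `prob_ker`).
General facts for a submodule `B` of a finite module: `𝔼 M, ind (M - T ∈ B) * G M =
(𝔼 M, ind (M ∈ B)) * 𝔼 b ∈ B, G (T + b)`; averaging over `B` is invariant under shifts by elements of `B`.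
Third claim: `ψ N = fun i => N.mulVec (z i)` maps `kf X hid K1` into `(range hid)^r` (at most `2^(e r)`
values), and `N ∈ kf`, `ψ N = 0` give `N ∈ Z`.  Choose `N_v ∈ kf` with `ψ N_v = fun i => hid (v i)` when it
exists (`v : Fin r → F2 e`); then `M - T ∈ B ⊔ kf → ∃ v, M - T - N_v ∈ B`; union bound and shift `M`.
Fourth claim: `R` is invariant under `KH` (span induction; characteristic two).  For `b ∈ B` uniform,
`𝔼 b ∈ B, ind (R (T + b)) = 𝔼 b ∈ B, 𝔼 z ∈ Z, ind (R (T + b + z))`, and for `b = z' + h` the inner average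
is `𝔼 z ∈ Z, ind (R (T + z))`.
-/

namespace Vale.Agent.P339

open Vale.Agent.P325 Finset
open scoped BigOperators

/-- The zoom as a submodule. -/
def cc_Z {l r : ℕ} {X : Type} [Fintype X] (z : Fin r → X → ZMod 2) (φ : Fin r → Fin l → ZMod 2) :
    Submodule (ZMod 2) (Mat l X) where
  carrier := {B | (∀ i, B.mulVec (z i) = 0) ∧ ∀ i, Matrix.vecMul (φ i) B = 0}
  zero_mem' := ⟨fun i => Matrix.zero_mulVec _, fun i => Matrix.vecMul_zero _⟩
  add_mem' {a b} ha hb := ⟨fun i => by rw [Matrix.add_mulVec, ha.1, hb.1, add_zero],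
    fun i => by rw [Matrix.vecMul_add, ha.2, hb.2, add_zero]⟩
  smul_mem' c a ha := ⟨fun i => by rw [Matrix.smul_mulVec, ha.1, smul_zero],
    fun i => by rw [Matrix.vecMul_smul, ha.2, smul_zero]⟩

theorem cc_mem {l r : ℕ} {X : Type} [Fintype X] [DecidableEq X] {z : Fin r → X → ZMod 2}
    {φ : Fin r → Fin l → ZMod 2} {B : Mat l X} : B ∈ zoom z φ ↔ B ∈ cc_Z z φ := mem_zoom

/-- The constraints on the hidden directions. -/
def cc_L {l e r : ℕ} (hid : F2 e →ₗ[ZMod 2] F2 l) (φ : Fin r → Fin l → ZMod 2) :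
    F2 e →ₗ[ZMod 2] (Fin r → ZMod 2) where
  toFun κ i := φ i ⬝ᵥ hid κ
  map_add' a b := by funext i; simp [dotProduct_add]
  map_smul' c a := by funext i; simp [dotProduct_smul]

theorem cc_kf {l e r : ℕ} {X : Type} [Fintype X] (hid : F2 e →ₗ[ZMod 2] F2 l)
    (z : Fin r → X → ZMod 2) (φ : Fin r → Fin l → ZMod 2) {N : Mat l X}
    (hN : N ∈ kf X hid (LinearMap.ker (cc_L hid φ))) :
    (∃ v : Fin r → F2 e, ∀ i, N.mulVec (z i) = hid (v i)) ∧ ∀ i, Matrix.vecMul (φ i) N = 0 := by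
  induction hN using Submodule.span_induction with
  | mem x hx =>
    obtain ⟨κ, hκ, n, rfl⟩ := hx
    refine ⟨⟨fun i => (n ⬝ᵥ z i) • κ, fun i => ?_⟩, fun i => ?_⟩
    · rw [map_smul]
      funext q
      simp only [Matrix.mulVec, dotProduct, Matrix.vecMulVec_apply, Pi.smul_apply, smul_eq_mul,
        Finset.sum_mul]
      exact Finset.sum_congr rfl fun x _ => by ring
    · have h : φ i ⬝ᵥ hid κ = 0 := congrFun (LinearMap.mem_ker.1 hκ) i
      rw [Matrix.vecMul_vecMulVec, h, zero_smul]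
  | zero => exact ⟨⟨0, fun i => by simp⟩, fun i => by simp⟩
  | add x y _ _ hx hy =>
    obtain ⟨⟨v, hv⟩, h1⟩ := hx
    obtain ⟨⟨w, hw⟩, h2⟩ := hy
    exact ⟨⟨v + w, fun i => by rw [Matrix.add_mulVec, hv, hw, Pi.add_apply, map_add]⟩,
      fun i => by rw [Matrix.vecMul_add, h1, h2, add_zero]⟩
  | smul c x _ hx =>
    obtain ⟨⟨v, hv⟩, h1⟩ := hx
    exact ⟨⟨c • v, fun i => by rw [Matrix.smul_mulVec, hv, Pi.smul_apply, map_smul]⟩,
      fun i => by rw [Matrix.vecMul_smul, h1, smul_zero]⟩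

theorem cc_ind_ex {ι : Type} [Fintype ι] (p : ι → Prop) : ind (∃ i, p i) ≤ ∑ i, ind (p i) := by
  by_cases h : ∃ i, p i
  · obtain ⟨i, hi⟩ := h
    rw [ind_pos ⟨i, hi⟩, ← ind_pos hi]
    exact Finset.single_le_sum (f := fun i => ind (p i)) (fun i _ => ind_nonneg' _) (mem_univ i)
  · rw [ind_neg h]
    exact Finset.sum_nonneg fun i _ => ind_nonneg' _

theorem cc_inv {l : ℕ} {X : Type} {Hs : Submodule (ZMod 2) (X → ZMod 2)} {R : Mat l X → Prop}
    (hR : ∀ M κ, ∀ η ∈ Hs, R M → R (M + Matrix.vecMulVec κ η)) {h : Mat l X}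
    (hh : h ∈ Submodule.span (ZMod 2) {B : Mat l X | ∃ κ, ∃ η ∈ Hs, B = Matrix.vecMulVec κ η})
    (M : Mat l X) : R (M + h) ↔ R M := by
  have key : ∀ M, R M → R (M + h) := by
    induction hh using Submodule.span_induction with
    | mem x hx =>
      obtain ⟨κ, η, hη, rfl⟩ := hx
      exact fun M => hR M κ η hη
    | zero => exact fun M hM => by rwa [add_zero]
    | add x y _ _ hx hy => exact fun M hM => by rw [← add_assoc]; exact hy _ (hx _ hM)
    | smul c x _ hx =>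
      rcases z2_cases c with rfl | rfl
      · exact fun M hM => by rwa [zero_smul, add_zero]
      · exact fun M hM => by rw [one_smul]; exact hx M hM
  refine ⟨fun H => ?_, key M⟩
  have := key _ H
  rwa [add_assoc, mod2_add_self, add_zero] at this

theorem cov_cell {l e r : ℕ} {X : Type} [Fintype X] [DecidableEq X] (hid : F2 e →ₗ[ZMod 2] F2 l)
    (z : Fin r → X → ZMod 2) (φ : Fin r → Fin l → ZMod 2) (Hs : Submodule (ZMod 2) (X → ZMod 2)) :
    ∃ (B : Submodule (ZMod 2) (Mat l X)) (K1 : Submodule (ZMod 2) (F2 e)),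
      (∀ κ, ∀ η ∈ Hs, Matrix.vecMulVec κ η ∈ B) ∧
      ((1 : ℝ) ≤ 2 ^ r * 𝔼 κ : F2 e, ind (κ ∈ K1)) ∧
      (∀ T : Mat l X, (𝔼 M : Mat l X, ind (M - T ∈ B ⊔ kf X hid K1)) ≤
        2 ^ (e * r) * 𝔼 M : Mat l X, ind (M - T ∈ B)) ∧
      ∀ R : Mat l X → Prop, (∀ M κ, ∀ η ∈ Hs, R M → R (M + Matrix.vecMulVec κ η)) →
        ∀ T : Mat l X, (𝔼 M : Mat l X, ind (M - T ∈ B ∧ R M)) =
          (𝔼 b ∈ zoom z φ, ind (R (T + b))) * 𝔼 M : Mat l X, ind (M - T ∈ B) := by
  classical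
  set KH : Submodule (ZMod 2) (Mat l X) :=
    Submodule.span (ZMod 2) {B : Mat l X | ∃ κ, ∃ η ∈ Hs, B = Matrix.vecMulVec κ η} with hKH
  set B : Submodule (ZMod 2) (Mat l X) := cc_Z z φ ⊔ KH with hB
  have hZB : ∀ b ∈ cc_Z z φ, b ∈ B := fun b hb => Submodule.mem_sup_left hb
  refine ⟨B, LinearMap.ker (cc_L hid φ), fun κ η hη =>
    Submodule.mem_sup_right (Submodule.subset_span ⟨κ, η, hη, rfl⟩), ?_, fun T => ?_,
    fun R hR T => ?_⟩
  · have h := prob_ker (cc_L hid φ).toAddMonoidHom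
    rw [Fintype.card_fun, ZMod.card, Fintype.card_fin, Nat.cast_pow, Nat.cast_ofNat,
      inv_le_iff_one_le_mul₀' (by positivity)] at h
    exact h
  · have hex : ∀ v : Fin r → F2 e, ∃ N : Mat l X,
        ∀ N' ∈ kf X hid (LinearMap.ker (cc_L hid φ)), (∀ i, N'.mulVec (z i) = hid (v i)) →
          N' - N ∈ cc_Z z φ := fun v => by
      by_cases h : ∃ N ∈ kf X hid (LinearMap.ker (cc_L hid φ)), ∀ i, N.mulVec (z i) = hid (v i)
      · obtain ⟨N, hN, h1⟩ := h
        refine ⟨N, fun N' hN' h2 => ⟨fun i => ?_, (cc_kf hid z φ (sub_mem hN' hN)).2⟩⟩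
        rw [Matrix.sub_mulVec, h1, h2, sub_self]
      · exact ⟨0, fun N' hN' h2 => absurd ⟨N', hN', h2⟩ h⟩
    choose N hN using hex
    have h1 : ∀ M : Mat l X, ind (M - T ∈ B ⊔ kf X hid (LinearMap.ker (cc_L hid φ))) ≤
        ∑ v : Fin r → F2 e, ind (M + -N v - T ∈ B) := fun M => by
      refine le_trans (ind_mono' fun h => ?_) (cc_ind_ex _)
      obtain ⟨b, hb, N', hN', h2⟩ := Submodule.mem_sup.1 h
      obtain ⟨v, hv⟩ := (cc_kf hid z φ hN').1
      refine ⟨v, ?_⟩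
      have : M + -N v - T = b + (N' - N v) := by rw [← add_sub_assoc, h2]; abel
      rw [this]
      exact add_mem hb (hZB _ (hN v N' hN' hv))
    refine (expect_mono' h1).trans (le_of_eq ?_)
    rw [Finset.expect_sum_comm]
    simp only [expect_add_right' (fun M : Mat l X => ind (M - T ∈ B))]
    rw [Finset.sum_const, card_univ, Fintype.card_fun, Fintype.card_fun, ZMod.card,
      Fintype.card_fin, Fintype.card_fin, nsmul_eq_mul, pow_mul]
    push_cast
    rfl
  · have hne : (zoom z φ).Nonempty := ⟨0, cc_mem.2 (zero_mem _)⟩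
    have h1 : ∀ b ∈ zoom z φ, (𝔼 M : Mat l X, ind (M - T ∈ B ∧ R M)) =
        𝔼 M : Mat l X, ind (M - T ∈ B) * ind (R (M + b)) := fun b hb => by
      rw [← expect_add_right' (fun M : Mat l X => ind (M - T ∈ B ∧ R M)) b]
      refine expect_congr rfl fun M _ => ?_
      rw [← ind_and, add_sub_right_comm, B.add_mem_iff_left (hZB b (cc_mem.1 hb))]
    rw [← expect_const hne (𝔼 M : Mat l X, ind (M - T ∈ B ∧ R M)), expect_congr rfl h1,
      expect_comm, Finset.mul_expect]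
    refine expect_congr rfl fun M _ => ?_
    rw [← Finset.mul_expect, mul_comm]
    by_cases hM : M - T ∈ B
    · congr 1
      obtain ⟨b, hb, h, hh, h2⟩ := Submodule.mem_sup.1 hM
      refine Finset.expect_equiv (Equiv.addLeft b) (fun x => ?_) (fun x _ => ?_)
      · rw [cc_mem, cc_mem, Equiv.coe_addLeft, (cc_Z z φ).add_mem_iff_right hb]
      · have : M + x = T + (b + x) + h := by
          rw [← sub_add_cancel M T, ← h2]; abel
        rw [this, cc_inv hR hh]
        rfl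
    · rw [ind_neg hM, mul_zero, mul_zero]

end Vale.Agent.P339
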