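import Vale.Agent.P339.CovCell

/-!
The greedy cover (aux names: `cv_*`).
Plan.  Call `R : Finset (Mat l X)` invariant if `M ∈ R`, `η ∈ H (f M)` give `M + κ ⊗ η ∈ R`.  Strong induction
on `R.card`: for invariant `R` there is `𝒞` with the properties `inv`, `free`, `big_le`, with
`ε * ∑ c ∈ 𝒞, μ c ≤ 𝔼 M, ind (M ∈ R)` and such that for all `lam z φ T` the density of
`{M ∈ R | Unc f 𝒞 M ∧ f M = lam}` in `T + zoom z φ` is at most `ε`.  If all densities of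
`{M ∈ R | f M = lam}` are at most `ε` take `𝒞 = ∅`.  Otherwise take the cell `c = ⟨T, B, lam, K1⟩` of
`cov_cell` (`Hs = H lam`), `R' = R \ {M | c.mem M ∧ f M = lam}` is invariant and smaller (`T ∈ c`, so
`μ c > 0` and the removed mass exceeds `ε μ c`), use `insert c 𝒞'` (classical; `Unc` for the larger family
on `R` means membership in `R'` and `Unc` for `𝒞'`; if `c ∈ 𝒞'` the sum does not grow).
End: `R = univ`, `SSEat` for `S lam = {M | Unc f 𝒞 M ∧ f M = lam}`, sum over `lam` (`sum_ind_eq`):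
`ind (Unc M ∧ Unc M' ∧ f M = f M') = ∑ lam, ind (M ∈ S lam ∧ M' ∈ S lam)`.
-/

namespace Vale.Agent.P339

open Vale.Agent.P325 Finset
open scoped BigOperators

theorem cv_main {l e r : ℕ} {X Λ : Type} [Fintype X] [DecidableEq X]
    (hid : F2 e →ₗ[ZMod 2] F2 l) {ε : ℝ} (hε : 0 < ε)
    (f : Mat l X → Λ) (H : Λ → Submodule (ZMod 2) (X → ZMod 2))
    (hinv : ∀ M κ, ∀ η ∈ H (f M), f (M + Matrix.vecMulVec κ η) = f M) (n : ℕ) :
    ∀ R : Finset (Mat l X), R.card = n →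
      (∀ M ∈ R, ∀ κ, ∀ η ∈ H (f M), M + Matrix.vecMulVec κ η ∈ R) →
      ∃ 𝒞 : Finset (Cell l e X Λ),
        (∀ c ∈ 𝒞, (∀ κ, ∀ η ∈ H c.lam, Matrix.vecMulVec κ η ∈ c.B) ∧
          ((1 : ℝ) ≤ 2 ^ r * 𝔼 κ : F2 e, ind (κ ∈ c.K1)) ∧
          (𝔼 M, ind (c.big hid M)) ≤ 2 ^ (e * r) * 𝔼 M, ind (c.mem M)) ∧
        ε * ∑ c ∈ 𝒞, (𝔼 M, ind (c.mem M)) ≤ (𝔼 M, ind (M ∈ R)) ∧
        ∀ lam (z : Fin r → X → ZMod 2) (φ : Fin r → Fin l → ZMod 2) (T : Mat l X),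
          (𝔼 b ∈ zoom z φ, ind (T + b ∈ R ∧ Unc f 𝒞 (T + b) ∧ f (T + b) = lam)) ≤ ε := by
  classical
  induction n using Nat.strong_induction_on with
  | _ n ih =>
  intro R hn hR
  by_cases hd : ∀ lam (z : Fin r → X → ZMod 2) (φ : Fin r → Fin l → ZMod 2) (T : Mat l X),
      (𝔼 b ∈ zoom z φ, ind (T + b ∈ R ∧ f (T + b) = lam)) ≤ ε
  · refine ⟨∅, by simp, ?_, fun lam z φ T => le_trans ?_ (hd lam z φ T)⟩
    · rw [Finset.sum_empty, mul_zero]
      exact Finset.expect_nonneg fun M _ => ind_nonneg' _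
    · exact Finset.expect_le_expect fun b _ => ind_mono' fun h => ⟨h.1, h.2.2⟩
  push Not at hd
  obtain ⟨lam, z, φ, T, hd⟩ := hd
  obtain ⟨B, K1, h1, h2, h3, h4⟩ := cov_cell hid z φ (H lam)
  have h5 := h4 (fun M => M ∈ R ∧ f M = lam) (fun M κ η hη hM => by
    rw [← hM.2] at hη
    exact ⟨hR M hM.1 κ η hη, (hinv M κ η hη).trans hM.2⟩) T
  have hμ : 0 < 𝔼 M : Mat l X, ind (M - T ∈ B) :=
    Finset.expect_pos' (fun M _ => ind_nonneg' _)
      ⟨T, mem_univ _, by rw [ind_pos (by rw [sub_self]; exact zero_mem _)]; exact one_pos⟩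
  have h6 : ε * (𝔼 M : Mat l X, ind (M - T ∈ B)) <
      𝔼 M : Mat l X, ind (M - T ∈ B ∧ M ∈ R ∧ f M = lam) := by
    rw [h5]
    exact mul_lt_mul_of_pos_right hd hμ
  set R' := R.filter fun M => ¬ (M - T ∈ B ∧ f M = lam) with hR'
  have hlt : R'.card < n := by
    rw [← hn]
    refine Finset.card_lt_card (Finset.filter_ssubset.2 ?_)
    by_contra hc
    push Not at hc
    have : (𝔼 M : Mat l X, ind (M - T ∈ B ∧ M ∈ R ∧ f M = lam)) = 0 :=
      Finset.expect_eq_zero fun M _ => ind_neg fun h => hc M h.2.1 h.1 h.2.2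
    have := mul_pos hε hμ
    linarith
  obtain ⟨𝒞, k1, k2, k3⟩ := ih _ hlt R' rfl fun M hM κ η hη => by
    obtain ⟨m1, m2⟩ := mem_filter.1 hM
    refine mem_filter.2 ⟨hR M m1 κ η hη, fun h => m2 ?_⟩
    have m3 : f M = lam := (hinv M κ η hη).symm.trans h.2
    rw [m3] at hη
    refine ⟨?_, m3⟩
    have m4 := h.1
    rwa [add_sub_right_comm, B.add_mem_iff_left (h1 κ η hη)] at m4
  refine ⟨insert ⟨T, B, lam, K1⟩ 𝒞, fun c hc => ?_, ?_, fun lam' z' φ' T' => ?_⟩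
  · rcases mem_insert.1 hc with rfl | hc
    · exact ⟨h1, h2, h3 T⟩
    · exact k1 c hc
  · have e1 : ∑ c ∈ insert (⟨T, B, lam, K1⟩ : Cell l e X Λ) 𝒞, (𝔼 M, ind (c.mem M)) ≤
        (𝔼 M : Mat l X, ind (M - T ∈ B)) + ∑ c ∈ 𝒞, (𝔼 M, ind (c.mem M)) := by
      by_cases hc : (⟨T, B, lam, K1⟩ : Cell l e X Λ) ∈ 𝒞
      · rw [Finset.insert_eq_of_mem hc]
        linarith
      · rw [Finset.sum_insert hc]
        rfl
    have e2 : (𝔼 M, ind (M ∈ R)) = (𝔼 M : Mat l X, ind (M - T ∈ B ∧ M ∈ R ∧ f M = lam)) +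
        𝔼 M, ind (M ∈ R') := by
      rw [← Finset.expect_add_distrib]
      refine expect_congr rfl fun M _ => ?_
      by_cases a1 : M ∈ R <;> by_cases a2 : M - T ∈ B <;> by_cases a3 : f M = lam <;>
        simp [ind, hR', a1, a2, a3]
    have e3 := mul_le_mul_of_nonneg_left e1 hε.le
    rw [mul_add] at e3
    linarith
  · refine le_trans (Finset.expect_le_expect fun b _ => ind_mono' fun h => ?_) (k3 lam' z' φ' T')
    exact ⟨mem_filter.2 ⟨h.1, h.2.1 _ (mem_insert_self _ _)⟩,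
      fun c hc => h.2.1 c (mem_insert_of_mem hc), h.2.2⟩

theorem cover_ex {l e r : ℕ} {X Λ : Type} [Fintype X] [DecidableEq X] [Fintype Λ]
    (hid : F2 e →ₗ[ZMod 2] F2 l) {ξ ε : ℝ} (hs : SSEat ξ r ε) (hε : 0 < ε) (hξ : 0 ≤ ξ)
    (f : Mat l X → Λ) (H : Λ → Submodule (ZMod 2) (X → ZMod 2))
    (hinv : ∀ M κ, ∀ η ∈ H (f M), f (M + Matrix.vecMulVec κ η) = f M) :
    ∃ 𝒞 : Finset (Cell l e X Λ), Cov hid ξ ε r f H 𝒞 := by
  classical
  obtain ⟨𝒞, k1, k2, k3⟩ := cv_main (e := e) (r := r) hid hε f H hinv _ univ rfl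
    fun M _ κ η _ => mem_univ _
  refine ⟨𝒞, fun c hc => (k1 c hc).1, fun c hc => (k1 c hc).2.1, fun c hc => (k1 c hc).2.2,
    ?_, ?_⟩
  · rw [le_div_iff₀' hε]
    exact k2.trans (expect_le_of_le fun M => ind_le_one' _)
  set S : Λ → Finset (Mat l X) := fun lam => univ.filter fun M => Unc f 𝒞 M ∧ f M = lam with hS
  have hm : ∀ lam M, M ∈ S lam ↔ Unc f 𝒞 M ∧ f M = lam := fun lam M => by simp [hS]
  have h1 : ∀ lam, (𝔼 M : Mat l X, 𝔼 a : F2 l, 𝔼 n : X → ZMod 2,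
      ind (M ∈ S lam ∧ M + Matrix.vecMulVec a n ∈ S lam)) ≤ ξ * 𝔼 M : Mat l X, ind (M ∈ S lam) :=
    fun lam => hs (Fin l) X (S lam) fun z φ T =>
      le_trans (Finset.expect_le_expect fun b _ => ind_mono' fun h =>
        ⟨mem_univ _, (hm _ _).1 h⟩) (k3 lam z φ T)
  have h2 := Finset.sum_le_sum fun lam (_ : lam ∈ (univ : Finset Λ)) => h1 lam
  simp only [← Finset.expect_sum_comm, ← Finset.mul_sum] at h2
  refine le_trans (expect_mono' fun M => expect_mono' fun a => expect_mono' fun n => ?_)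
    (h2.trans (mul_le_of_le_one_right hξ (expect_le_of_le fun M => ?_)))
  · refine le_trans (ind_mono' fun h => ?_) (Finset.single_le_sum
      (f := fun lam => ind (M ∈ S lam ∧ M + Matrix.vecMulVec a n ∈ S lam))
      (fun lam _ => ind_nonneg' _) (mem_univ (f M)))
    exact ⟨(hm _ _).2 ⟨h.1, rfl⟩, (hm _ _).2 ⟨h.2.1, h.2.2.symm⟩⟩
  · rw [← sum_ind_eq (f M)]
    exact Finset.sum_le_sum fun lam _ => ind_mono' fun h => ((hm _ _).1 h).2

end Vale.Agent.P339
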