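import Vale.Agent.P325.InnerAux

/-!
Definitions for the proof of the 2-to-1 games theorem with perfect completeness
(see notes/P339.md).
-/

namespace Vale.Agent.P339

open Vale.Agent.P325 Vale.Agent.Lib.H23 Finset
open scoped BigOperators

/-- The intermediate statement. -/
def TwoStmt : Prop :=
  ∀ δ : ℝ, 0 < δ → ∃ (q : ℕ) (r : CNF → List (CP (Fin (2 * q)) (Fin q))), 2 ≤ q ∧ PT r ∧
    ∀ φ, r φ ≠ [] ∧ (∀ c ∈ r φ, ∀ b, (univ.filter fun a => c.2.val a = b).card = 2) ∧
      (Sat φ → ∃ f g, ∀ c ∈ r φ, satP f g c) ∧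
      (¬ Sat φ → ∀ f g, avg (r φ) (fun c => ind (satP f g c)) ≤ δ)

/-- Matrices with `l` rows (functions on `X` with values in `F2 l`). -/
abbrev Mat (l : ℕ) (X : Type) : Type := Matrix (Fin l) X (ZMod 2)

/-- Number of subspaces of `F2 e`. -/
noncomputable def ncl (e : ℕ) : ℕ := Nat.card (Submodule (ZMod 2) (F2 e))

/-- The span of the rank one matrices `κ ⊗ n` with `κ` in the image of `K1`. -/
def kf {l e : ℕ} (X : Type) (hid : F2 e →ₗ[ZMod 2] F2 l) (K1 : Submodule (ZMod 2) (F2 e)) :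
    Submodule (ZMod 2) (Mat l X) :=
  Submodule.span (ZMod 2) {B | ∃ κ ∈ K1, ∃ n : X → ZMod 2, B = Matrix.vecMulVec (hid κ) n}

/-- A cell of the cover: the coset `T + B`, its label and its free hidden directions. -/
structure Cell (l e : ℕ) (X Λ : Type) where
  T : Mat l X
  B : Submodule (ZMod 2) (Mat l X)
  lam : Λ
  K1 : Submodule (ZMod 2) (F2 e)

/-- The standard pairing of matrices. -/
def pr {l : ℕ} {X : Type} [Fintype X] (Γ M : Mat l X) : ZMod 2 := ∑ q, Γ q ⬝ᵥ M q

open Classical in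
/-- The annihilator of a subspace of matrices. -/
noncomputable def ann {l : ℕ} {X : Type} [Fintype X] [DecidableEq X]
    (B : Submodule (ZMod 2) (Mat l X)) : Finset (Mat l X) :=
  univ.filter fun Γ => ∀ b ∈ B, pr Γ b = 0

namespace Cell

variable {l e : ℕ} {X Λ : Type} (hid : F2 e →ₗ[ZMod 2] F2 l)

/-- `M` lies in the coset of the cell. -/
def mem (c : Cell l e X Λ) (M : Mat l X) : Prop := M - c.T ∈ c.B

/-- `M` lies in the enlarged coset of the cell. -/
def big (c : Cell l e X Λ) (M : Mat l X) : Prop := M - c.T ∈ c.B ⊔ kf X hid c.K1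

/-- The part of the indicator of the cell that changes sign along `κ ⊗ t` for some free `κ`. -/
noncomputable def odd [Fintype X] [DecidableEq X] (t : X → ZMod 2) (c : Cell l e X Λ)
    (M : Mat l X) : ℝ :=
  𝔼 Γ ∈ ann c.B, ind (∃ κ ∈ c.K1, pr Γ (Matrix.vecMulVec (hid κ) t) ≠ 0) * chi (pr Γ (M - c.T))

end Cell

open Classical in
/-- The number of enlarged cosets of type `K1` through `M`. -/
noncomputable def cnt {l e : ℕ} {X Λ : Type} (hid : F2 e →ₗ[ZMod 2] F2 l)
    (𝒞 : Finset (Cell l e X Λ)) (K1 : Submodule (ZMod 2) (F2 e)) (M : Mat l X) : ℕ :=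
  (𝒞.filter fun c => c.K1 = K1 ∧ c.big hid M).card

/-- `M` is not covered. -/
def Unc {l e : ℕ} {X Λ : Type} (f : Mat l X → Λ) (𝒞 : Finset (Cell l e X Λ)) (M : Mat l X) : Prop :=
  ∀ c ∈ 𝒞, ¬ (c.mem M ∧ f M = c.lam)

/-- A cover of the level sets of `f` by cells. -/
structure Cov {l e : ℕ} {X Λ : Type} [Fintype X] [DecidableEq X] (hid : F2 e →ₗ[ZMod 2] F2 l)
    (ξ ε : ℝ) (r : ℕ) (f : Mat l X → Λ) (H : Λ → Submodule (ZMod 2) (X → ZMod 2))
    (𝒞 : Finset (Cell l e X Λ)) : Prop where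
  inv : ∀ c ∈ 𝒞, ∀ κ, ∀ η ∈ H c.lam, Matrix.vecMulVec κ η ∈ c.B
  free : ∀ c ∈ 𝒞, (1 : ℝ) ≤ 2 ^ r * 𝔼 κ : F2 e, ind (κ ∈ c.K1)
  big_le : ∀ c ∈ 𝒞, (𝔼 M, ind (c.big hid M)) ≤ 2 ^ (e * r) * 𝔼 M, ind (c.mem M)
  sum_le : ∑ c ∈ 𝒞, (𝔼 M, ind (c.mem M)) ≤ 1 / ε
  pair : (𝔼 M : Mat l X, 𝔼 a : F2 l, 𝔼 n : X → ZMod 2,
    ind (Unc f 𝒞 M ∧ Unc f 𝒞 (M + Matrix.vecMulVec a n) ∧ f M = f (M + Matrix.vecMulVec a n))) ≤ ξ

/-- A decoder along the direction `κ`. -/
structure Dec {l : ℕ} {X Sd Λ : Type} [Fintype X] (H : Sd → Λ → Submodule (ZMod 2) (X → ZMod 2))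
    (t : X → ZMod 2) (κ : F2 l) where
  sg : Sd → Mat l X → ℝ
  ys : Sd → Mat l X → F2 l
  z : Sd → Mat l X → X → ZMod 2
  abs_le : ∀ s M, |sg s M| ≤ 1
  z_inv : ∀ s M n, z s (M + Matrix.vecMulVec κ n) = z s M
  ys_inv : ∀ s M n, ys s (M + Matrix.vecMulVec κ n) = ys s M
  sg_shift : ∀ s M n, sg s (M + Matrix.vecMulVec κ n) = sg s M * chi (n ⬝ᵥ z s M)
  valid : ∀ s M, sg s M ≠ 0 → t ⬝ᵥ z s M = 1 ∧ ∃ lam, ∀ η ∈ H s lam, η ⬝ᵥ z s M = 0

/-- Fixed parameters: label cover alphabets, dimension `l` of the rows, dimension `e` of the hidden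
directions, number `ρ` of hidden products, `m + 1` bottom positions, `T` levels. -/
structure Prm where
  A : Type
  B : Type
  [fA : Fintype A]
  [dA : DecidableEq A]
  [nA : Nonempty A]
  [fB : Fintype B]
  [dB : DecidableEq B]
  [nB : Nonempty B]
  l : ℕ
  e : ℕ
  ρ : ℕ
  m : ℕ
  T : ℕ
  hid : F2 e →ₗ[ZMod 2] F2 l
  hinj : Function.Injective hid
  e0 : F2 l
  he0 : e0 ≠ 0

attribute [instance] Prm.fA Prm.dA Prm.nA Prm.fB Prm.dB Prm.nB

namespace Prm

variable (P : Prm)

abbrev K : Type := F2 P.l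
abbrev Grp : Type := Fin P.T × F2 P.e
/-- Bottom coordinates. -/
abbrev C : Type := Fin (P.m + 1) × P.Grp
abbrev Loc : Type := Fin P.l ⊕ (F2 P.e × Fin P.ρ × Bool)
/-- Names of the random linear functions: level and local name. -/
abbrev I : Type := Fin P.T × P.Loc
abbrev Bot : Type := P.C → P.A → ZMod 2

instance : Fintype P.Grp := inferInstance
instance : DecidableEq P.Grp := inferInstance
instance : Fintype P.C := inferInstance
instance : DecidableEq P.C := inferInstance
instance : Fintype P.I := inferInstance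
instance : DecidableEq P.I := inferInstance
instance : Fintype P.Bot := inferInstance

/-- A nonzero replacement of a direction. -/
noncomputable def abar (a : P.K) : P.K := if a = 0 then P.e0 else a

/-- Coefficient of the direction `a` on a local name. -/
def dirc (a : P.K) : P.Loc → ZMod 2 := Sum.elim a fun _ => 0

/-- Coefficient of the direction `a` of level `j` on a name. -/
def co (j : Fin P.T) (a : P.K) (t : P.I) : ZMod 2 := if t.1 = j then P.dirc a t.2 else 0

variable {P}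

/-- Add `a ⊗ x` to the rows of level `j`. -/
def bump {V : Type} [AddCommGroup V] [Module (ZMod 2) V] (j : Fin P.T) (a : P.K) (x : V)
    (p : P.I → V) : P.I → V := fun t => p t + P.co j a t • x

/-- Add `a j ⊗ d j` to the rows of level `j` for all levels. -/
def tot {V : Type} [AddCommGroup V] [Module (ZMod 2) V] (a : Fin P.T → P.K) (d : Fin P.T → V)
    (p : P.I → V) : P.I → V := fun t => p t + P.dirc (a t.1) t.2 • d t.1

/-- Overwrite the bottom parts at the position `pos`. -/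
def plant {U : Type} (pos : Fin (P.m + 1)) (val : P.Grp → P.A → ZMod 2) (p : P.I → U × P.Bot) :
    P.I → U × P.Bot := fun t =>
  ((p t).1, fun c => if c.1 = pos then P.co c.2.1 (P.hid c.2.2) t • val c.2 else (p t).2 c)

/-- Erase the bottom part at the position `pos`. -/
def zer {U : Type} (pos : Fin (P.m + 1)) (x : U × P.Bot) : U × P.Bot :=
  (x.1, fun c => if c.1 = pos then 0 else x.2 c)

variable (P) in
/-- Directions, fresh parts, parameters, planted position and planted functions. -/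
abbrev W (U : Type) : Type :=
  (Fin P.T → P.K) × (Fin P.T → U × P.Bot) × (P.I → U × P.Bot) × Fin (P.m + 1) ×
    (P.Grp → P.B → ZMod 2)

instance {U : Type} [Fintype U] : Fintype (P.W U) := inferInstance
instance {U : Type} [AddCommGroup U] : Nonempty (P.W U) := ⟨0⟩

/-- Replace the fresh part of level `i`. -/
def setd {U : Type} (w : P.W U) (i : Fin P.T) (x : U × P.Bot) : P.W U :=
  (w.1, Function.update w.2.1 i x, w.2.2)

/-- The parameters of the test (`bc` are the bottom coordinates, `πs` the projections). -/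
def ppg {U Co : Type} [AddCommGroup U] [Module (ZMod 2) U] (bc : P.C → Co)
    (πs : Co → P.A → P.B) (w : P.W U) : P.I → U × P.Bot :=
  plant w.2.2.2.1 (fun c a => w.2.2.2.2 c (πs (bc (w.2.2.2.1, c)) a)) (tot w.1 w.2.1 w.2.2.1)

open Classical in
/-- The names seen by the right vertex. -/
noncomputable def vnf {Co : Type} (bc : P.C → Co) (U V : Co → ℕ) (pos : Fin (P.m + 1)) : Co → ℕ :=
  fun x => if ∃ c, bc (pos, c) = x then V x else U x

end Prm

/-- A label cover instance. -/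
structure Eg (P : Prm) where
  E : Type
  [fE : Fintype E]
  [nE : Nonempty E]
  u : E → ℕ
  v : E → ℕ
  π : E → P.A → P.B

attribute [instance] Eg.fE Eg.nE

/-- The value of the instance is at most `δ`. -/
def Eg.Sound {P : Prm} (g : Eg P) (δ : ℝ) : Prop :=
  ∀ (f : ℕ → P.A) (h : ℕ → P.B), (𝔼 e, ind (g.π e (f (g.u e)) = h (g.v e))) ≤ δ

/-- A node of the tree: coordinates, questions `Dat`, answers `Lab`, folding (`can`, `rel`), and the
planted law of the special node. -/
structure Stage (P : Prm) where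
  Co : Type
  Dat : Type
  Lab : Type
  Up : Type
  Rn : Type
  [fCo : Fintype Co]
  [dCo : DecidableEq Co]
  [fDat : Fintype Dat]
  [nDat : Nonempty Dat]
  [fLab : Fintype Lab]
  [aUp : AddCommGroup Up]
  [mUp : Module (ZMod 2) Up]
  [fUp : Fintype Up]
  [fRn : Fintype Rn]
  [nRn : Nonempty Rn]
  lab : Dat → (Co → P.A) → Lab
  can : Dat → Dat
  rel : Dat → Lab ≃ Lab
  botc : Rn → P.C → Co
  ev : Rn → (Up × P.Bot) →ₗ[ZMod 2] ((Co → P.A) → ZMod 2)
  row : Rn → Fin P.T → (Up × P.Bot) →ₗ[ZMod 2] ((Co → P.A) → ZMod 2)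
  spd : Rn → (P.I → Up × P.Bot) → Dat
  add : Rn → Fin P.T → P.K → Lab → Lab

attribute [instance] Stage.fCo Stage.dCo Stage.fDat Stage.nDat Stage.fLab Stage.aUp Stage.mUp
  Stage.fUp Stage.fRn Stage.nRn

namespace Stage

variable {P : Prm} (S : Stage P)

abbrev Par : Type := S.Up × P.Bot
abbrev Om : Type := S.Co → P.A
abbrev Fn : Type := S.Om → ZMod 2

instance : Fintype S.Par := inferInstance
instance : Fintype S.Om := inferInstance
instance : DecidableEq S.Om := inferInstance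
instance : Fintype S.Fn := inferInstance

/-- Properties of a node of level `n`. -/
structure Good (n : ℕ) : Prop where
  lab_can : ∀ d σ, S.lab d σ = S.rel d (S.lab (S.can d) σ)
  botc_inj : ∀ r, Function.Injective (S.botc r)
  ev_bot : ∀ r b σ, S.ev r (0, b) σ = ∑ c, b c (σ (S.botc r c))
  row_bot : ∀ r j b σ, S.row r j (0, b) σ = ∑ c, b c (σ (S.botc r c))
  row_ev : ∀ r j x, ∃ x', S.row r j x = S.ev r x'
  spd_congr : ∀ r (p p' : P.I → S.Par), (∀ t, (t.1 : ℕ) ≤ n → p t = p' t) → S.spd r p = S.spd r p'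
  meas : ∀ r (p : P.I → S.Par) (j : Fin P.T), (j : ℕ) ≤ n → ∀ ψ : P.K →ₗ[ZMod 2] ZMod 2,
    (∀ κ, ψ (P.hid κ) = 0) → ∀ σ σ', S.lab (S.spd r p) σ = S.lab (S.spd r p) σ' →
      S.row r j (∑ q, ψ (Pi.single q 1) • p (j, Sum.inl q)) σ =
        S.row r j (∑ q, ψ (Pi.single q 1) • p (j, Sum.inl q)) σ'
  move : ∀ r (p : P.I → S.Par) (j : Fin P.T), (j : ℕ) ≤ n → ∀ a x σ,
    S.lab (S.spd r (Prm.bump j a x p)) σ = S.add r j (S.row r j x σ • a) (S.lab (S.spd r p) σ)
  vals_ev : ∀ r (σ σ' : S.Om), (∀ c, c ∉ Set.range (S.botc r) → σ c = σ' c) →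
    ∀ x x' : S.Par, x.1 = x'.1 → (∀ c, x.2 c (σ (S.botc r c)) = x'.2 c (σ' (S.botc r c))) →
      S.ev r x σ = S.ev r x' σ'
  vals_lab : ∀ r (σ σ' : S.Om), (∀ c, c ∉ Set.range (S.botc r) → σ c = σ' c) →
    ∀ p p' : P.I → S.Par, (∀ t, (p t).1 = (p' t).1) →
      (∀ t c, (p t).2 c (σ (S.botc r c)) = (p' t).2 c (σ' (S.botc r c))) →
      S.lab (S.spd r p) σ = S.lab (S.spd r p') σ'
  add_add : ∀ r j κ κ' w, S.add r j κ (S.add r j κ' w) = S.add r j (κ + κ') w
  add_zero : ∀ r j w, S.add r j 0 w = w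
  add_ne : ∀ r (j : Fin P.T), (j : ℕ) ≤ n → ∀ κ w, κ ≠ 0 → S.add r j κ w ≠ w
  card_le : 2 ^ P.l ≤ Fintype.card S.Lab

open Classical in
/-- A point with the given answer, if there is one. -/
noncomputable def pick (d : S.Dat) (w : S.Lab) : S.Om :=
  if h : ∃ σ, S.lab d σ = w then h.choose else Classical.arbitrary _

/-- The point attached to an answer. -/
noncomputable def pt (d : S.Dat) (w : S.Lab) : S.Om := S.pick (S.can d) ((S.rel d).symm w)

/-- `g` is a function of the answer to the question `d`. -/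
def Meas (d : S.Dat) (g : S.Fn) : Prop := ∀ σ σ', S.lab d σ = S.lab d σ' → g σ = g σ'

abbrev W : Type := P.W S.Up

variable {S}

/-- The parameters of the test. -/
def pp (g : Eg P) (ε : S.Co → g.E) (r : S.Rn) (w : S.W) : P.I → S.Par :=
  Prm.ppg (S.botc r) (fun x => g.π (ε x)) w

/-- The names seen by the right vertex. -/
noncomputable def vnm (g : Eg P) (ε : S.Co → g.E) (r : S.Rn) (pos : Fin (P.m + 1)) : S.Co → ℕ :=
  Prm.vnf (S.botc r) (fun x => g.u (ε x)) (fun x => g.v (ε x)) pos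

end Stage

/-- A strategy seen from a node of level `n`. -/
structure Strat {P : Prm} (S : Stage P) (n : ℕ) (g : Eg P) where
  tab : (S.Co → ℕ) → S.Dat → (P.I → S.Fn) → S.Lab
  tab_congr : ∀ U d (G G' : P.I → S.Fn), (∀ t, n < (t.1 : ℕ) → G t = G' t) → tab U d G = tab U d G'
  gam : Fin P.T → (S.Co → g.E) → S.Rn → S.W → S.Lab
  gam_d : ∀ i ε r w x, gam i ε r (Prm.setd w i x) = gam i ε r w
  gam_v : ∀ i ε ε' r (w : S.W), Stage.vnm g ε r w.2.2.2.1 = Stage.vnm g ε' r w.2.2.2.1 →
    gam i ε r w = gam i ε' r w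

namespace Strat

variable {P : Prm} {S : Stage P} {n : ℕ} {g : Eg P} (s : Strat S n g)

/-- The answer of the left player. -/
def out (ε : S.Co → g.E) (r : S.Rn) (w : S.W) : S.Lab :=
  S.rel (S.spd r (Stage.pp g ε r w))
    (s.tab (fun x => g.u (ε x)) (S.can (S.spd r (Stage.pp g ε r w)))
      fun t => S.ev r (Stage.pp g ε r w t))

/-- The test of level `i` accepts. -/
def pass (i : Fin P.T) (ε : S.Co → g.E) (r : S.Rn) (w : S.W) : Prop :=
  s.out ε r w = s.gam i ε r w ∨ s.out ε r w = S.add r i (P.abar (w.1 i)) (s.gam i ε r w)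

end Strat

/-- No strategy passes the levels `j` and `j'` together with probability above `η`. -/
def Bnd {P : Prm} (S : Stage P) (n : ℕ) (g : Eg P) (j j' : Fin P.T) (η : ℝ) : Prop :=
  ∀ s : Strat S n g, (𝔼 ε : S.Co → g.E, 𝔼 r : S.Rn, 𝔼 w : S.W,
    ind (s.pass j ε r w ∧ s.pass j' ε r w)) ≤ η

/-- The bottom node. -/
noncomputable def base {P : Prm} (j0 : Fin P.T) : Stage P where
  Co := P.C
  Dat := P.C → P.A → P.K
  Lab := P.K
  Up := PUnit
  Rn := PUnit
  lab d σ := ∑ c, d c (σ c)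
  can := id
  rel _ := Equiv.refl _
  botc _ := id
  ev _ :=
    { toFun := fun x σ => ∑ c, x.2 c (σ c)
      map_add' := fun x y => by funext σ; simp [Finset.sum_add_distrib]
      map_smul' := fun a x => by funext σ; simp [Finset.mul_sum] }
  row _ _ :=
    { toFun := fun x σ => ∑ c, x.2 c (σ c)
      map_add' := fun x y => by funext σ; simp [Finset.sum_add_distrib]
      map_smul' := fun a x => by funext σ; simp [Finset.mul_sum] }
  spd _ p := fun c x q => (p (j0, Sum.inl q)).2 c x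
  add _ j κ y := if j = j0 then y + κ else y

namespace Stage

variable {P : Prm} (S : Stage P) (jn : Fin P.T) (k : ℕ)

/-- Columns of the matrix of a node with `k + 1` children. -/
abbrev X : Type := Fin (k + 1) × S.Om
abbrev Rn' : Type := Fin (k + 1) × (Fin (k + 1) → S.Dat) × S.Rn
abbrev Par' : Type := ((Fin (k + 1) → S.Fn) × S.Up) × P.Bot
abbrev Om' : Type := Fin (k + 1) × S.Co → P.A
abbrev Lab' : Type := (Fin (k + 1) → S.Lab) × P.K
abbrev W' : Type := P.W ((Fin (k + 1) → S.Fn) × S.Up)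

instance : Fintype (S.X k) := inferInstance
instance : DecidableEq (S.X k) := inferInstance
instance : Fintype (S.Rn' k) := inferInstance
instance : Nonempty (S.Rn' k) := inferInstance
instance : Fintype (S.Par' k) := inferInstance

variable {S k}

/-- Restriction of a point to a child. -/
def res (σ : S.Om' k) (i : Fin (k + 1)) : S.Om := fun c => σ (i, c)

/-- The part of a parameter that is used inside the special child. -/
def low : S.Par' k →ₗ[ZMod 2] S.Par where
  toFun x := (x.1.2, x.2)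
  map_add' _ _ := rfl
  map_smul' _ _ := rfl

/-- The parts of a linear function on the children. -/
def slc (r : S.Rn' k) : S.Par' k →ₗ[ZMod 2] (S.X k → ZMod 2) where
  toFun x y := if y.1 = r.1 then S.ev r.2.2 (low x) y.2 else x.1.1 y.1 y.2
  map_add' x x' := by funext y; by_cases h : y.1 = r.1 <;> simp [h]
  map_smul' a x := by funext y; by_cases h : y.1 = r.1 <;> simp [h]

/-- Sum over the children. -/
def sumc : (S.X k → ZMod 2) →ₗ[ZMod 2] (S.Om' k → ZMod 2) where
  toFun n σ := ∑ i, n (i, res σ i)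
  map_add' _ _ := by funext σ; simp [Finset.sum_add_distrib]
  map_smul' _ _ := by funext σ; simp [Finset.mul_sum]

/-- A function of the child `i`. -/
def pull (i : Fin (k + 1)) : S.Fn →ₗ[ZMod 2] (S.Om' k → ZMod 2) where
  toFun g σ := g (res σ i)
  map_add' _ _ := rfl
  map_smul' _ _ := rfl

/-- The hidden products. -/
def hidT (G : P.I → S.Fn) (σ : S.Om) : P.K :=
  ∑ κ, ∑ s, (G (jn, Sum.inr (κ, s, false)) σ * G (jn, Sum.inr (κ, s, true)) σ) • P.hid κ

/-- The matrix of the special node. -/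
def mat (r : S.Rn' k) (p : P.I → S.Par' k) : Mat P.l (S.X k) := fun q y =>
  slc r (p (jn, Sum.inl q)) y +
    if y.1 = r.1 then hidT jn (fun t => S.ev r.2.2 (low (p t))) y.2 q else 0

/-- The questions of the children of the special node. -/
def kids (r : S.Rn' k) (p : P.I → S.Par' k) : Fin (k + 1) → S.Dat :=
  Function.update r.2.1 r.1 (S.spd r.2.2 fun t => low (p t))

/-- The shift used by the folding. -/
noncomputable def sh (d : (Fin (k + 1) → S.Dat) × Mat P.l (S.X k)) (w : Fin (k + 1) → S.Lab) :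
    P.K := fun q => ∑ i, d.2 q (i, S.pick (S.can (d.1 i)) (w i))

variable (S k)

/-- A node with `k + 1` children of the kind `S`; `jn` is its level. -/
noncomputable def succ : Stage P where
  Co := Fin (k + 1) × S.Co
  Dat := (Fin (k + 1) → S.Dat) × Mat P.l (S.X k)
  Lab := (Fin (k + 1) → S.Lab) × P.K
  Up := (Fin (k + 1) → S.Fn) × S.Up
  Rn := S.Rn' k
  lab d σ := (fun i => S.lab (d.1 i) (res σ i), fun q => ∑ i, d.2 q (i, res σ i))
  can d := (fun i => S.can (d.1 i), fun q y =>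
    d.2 q y - d.2 q (y.1, S.pick (S.can (d.1 y.1)) (S.lab (S.can (d.1 y.1)) y.2)))
  rel d :=
    { toFun := fun w => (fun i => S.rel (d.1 i) (w.1 i), w.2 + sh d w.1)
      invFun := fun w => (fun i => (S.rel (d.1 i)).symm (w.1 i),
        w.2 - sh d fun i => (S.rel (d.1 i)).symm (w.1 i))
      left_inv := fun w => by simp
      right_inv := fun w => by simp }
  botc r c := (r.1, S.botc r.2.2 c)
  ev r := sumc ∘ₗ slc r
  row r j := if j = jn then sumc ∘ₗ slc r else pull r.1 ∘ₗ S.row r.2.2 j ∘ₗ low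
  spd r p := (kids r p, mat jn r p)
  add r j κ w :=
    if j = jn then (w.1, w.2 + κ) else (Function.update w.1 r.1 (S.add r.2.2 j κ (w.1 r.1)), w.2)

/-- Everything except the matrix of the node: names, questions of the children, functions of the
higher levels. -/
abbrev Side : Type :=
  (Fin (k + 1) × S.Co → ℕ) × (Fin (k + 1) → S.Dat) × (P.I → S.Om' k → ZMod 2)

/-- What is planted at the special child. -/
abbrev Tup : Type := S.Dat × (P.I → S.Fn) × S.Fn

/-- The constant one on the child `0`. -/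
def tt : S.X k → ZMod 2 := fun y => if y.1 = 0 then 1 else 0

variable {S k}

/-- A function on the child `i` as a column function. -/
def atc (i : Fin (k + 1)) (f : S.Fn) : S.X k → ZMod 2 := fun y => if y.1 = i then f y.2 else 0

/-- Side information for given names and parameters. -/
def sideP (U : Fin (k + 1) × S.Co → ℕ) (r : S.Rn' k) (p : P.I → S.Par' k) : S.Side k :=
  (U, kids r p, fun t => if (jn : ℕ) < (t.1 : ℕ) then sumc (slc r (p t)) else 0)

/-- Shifts that do not change the answer `lam`. -/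
def HH (sd : S.Side k) (lam : S.Lab' k) : Submodule (ZMod 2) (S.X k → ZMod 2) :=
  Submodule.span (ZMod 2) {η | ∃ i f, S.Meas (sd.2.1 i) f ∧
    η = atc i f + f (S.pt (sd.2.1 i) (lam.1 i)) • S.tt k}

/-- Add to the top row. -/
def addY (κ : P.K) (lam : S.Lab' k) : S.Lab' k := (lam.1, lam.2 + κ)

/-- The bottom coordinates of the special node. -/
def bcs (r : S.Rn' k) : P.C → Fin (k + 1) × S.Co := fun c => (r.1, S.botc r.2.2 c)

/-- The parameters of the test. -/
def pq (g : Eg P) (ε : Fin (k + 1) × S.Co → g.E) (r : S.Rn' k) (w : S.W' k) : P.I → S.Par' k :=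
  Prm.ppg (bcs r) (fun x => g.π (ε x)) w

/-- The names seen by the right vertex. -/
noncomputable def vq (g : Eg P) (ε : Fin (k + 1) × S.Co → g.E) (r : S.Rn' k) (w : S.W' k) :
    Fin (k + 1) × S.Co → ℕ :=
  Prm.vnf (bcs r) (fun x => g.u (ε x)) (fun x => g.v (ε x)) w.2.2.2.1

/-- Side information in the test. -/
def sdq (g : Eg P) (ε : Fin (k + 1) × S.Co → g.E) (r : S.Rn' k) (w : S.W' k) : S.Side k :=
  sideP jn (fun x => g.u (ε x)) r (pq g ε r w)

/-- The matrix in the test. -/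
def mtq (g : Eg P) (ε : Fin (k + 1) × S.Co → g.E) (r : S.Rn' k) (w : S.W' k) : Mat P.l (S.X k) :=
  mat jn r (pq g ε r w)

/-- Marginal of the special part of `z` at a bottom coordinate. -/
def marg (r : S.Rn' k) (z : S.X k → ZMod 2) (c : P.C) (a : P.A) : ZMod 2 :=
  ∑ σ : S.Om, if σ (S.botc r.2.2 c) = a then z (r.1, σ) else 0

/-- Some marginal has more than `L` points. -/
def Bad (L : ℕ) (r : S.Rn' k) (z : S.X k → ZMod 2) : Prop :=
  ∃ c, L < (univ.filter fun a => marg r z c a ≠ 0).card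

end Stage

/-- The answer as a function of the side information and of the matrix. -/
noncomputable def Strat.fM {P : Prm} {S : Stage P} {jn : Fin P.T} {k n : ℕ} {g : Eg P}
    (s : Strat (S.succ jn k) n g) (sd : S.Side k) (M : Mat P.l (S.X k)) : S.Lab' k :=
  (S.succ jn k).rel (sd.2.1, M) (s.tab sd.1 ((S.succ jn k).can (sd.2.1, M)) sd.2.2)

/-- The summand of the walk. -/
noncomputable def Dec.hb {P : Prm} {S : Stage P} {k : ℕ} {κ : P.K}
    (D : Dec (Stage.HH (S := S) (k := k)) (S.tt k) κ) (L : ℕ) (r : S.Rn' k) (sd : S.Side k)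
    (M : Mat P.l (S.X k)) (y : P.K) : ℝ :=
  D.sg sd M * ind (D.ys sd M = y) * ind (Stage.Bad L r (D.z sd M))

/-- The special part of the decoded vector for the parameters `q`. -/
def Dec.zs {P : Prm} {S : Stage P} {k : ℕ} {κ : P.K}
    (D : Dec (Stage.HH (S := S) (k := k)) (S.tt k) κ) (jn : Fin P.T)
    (U : Fin (k + 1) × S.Co → ℕ) (r : S.Rn' k) (q : P.I → S.Par' k) : S.Fn :=
  fun σ => D.z (Stage.sideP jn U r q) (Stage.mat jn r q) (r.1, σ)

/-- The decoded vectors at `q` and `q'` agree on products, and the one at `q` is bad. -/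
def Dec.Agr {P : Prm} {S : Stage P} {k : ℕ} {κ : P.K}
    (D : Dec (Stage.HH (S := S) (k := k)) (S.tt k) κ) (jn : Fin P.T) (L : ℕ)
    (U : Fin (k + 1) × S.Co → ℕ) (r : S.Rn' k) (q q' : P.I → S.Par' k) : Prop :=
  D.sg (Stage.sideP jn U r q') (Stage.mat jn r q') ≠ 0 ∧
    Stage.Bad L r (D.z (Stage.sideP jn U r q) (Stage.mat jn r q)) ∧
    ∀ α β : S.Par, D.zs jn U r q ⬝ᵥ (S.ev r.2.2 α * S.ev r.2.2 β) =
      D.zs jn U r q' ⬝ᵥ (S.ev r.2.2 α * S.ev r.2.2 β)

/-- What is planted at the special bottom position. -/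
abbrev Prm.Tup0 (P : Prm) : Type := (P.I → P.Grp → P.A → ZMod 2) × (P.Grp → P.A → ZMod 2)

/-- The bound for a pair of levels. -/
noncomputable def cb (ξ ε : ℝ) (r e N L : ℕ) (δ0 tv tv0 θ : ℝ) : ℝ :=
  √(2 * (ξ + tv)) + (ncl e * 2 ^ (e * r) / (ε * N) + tv) +
    2 ^ r / 2 ^ e * (1 / ε + ncl e * N * tv) + ncl e * 2 ^ e * N * (√(L * δ0) + √(tv0 + θ))

/-- The error of the walk. -/
noncomputable def werr (l e ρ p L : ℕ) : ℝ :=
  (1 / 2) ^ ρ + 2 ^ (2 ^ p + 2 ^ p) * 2 ^ e / 2 ^ l + ((1 / 2) ^ (2 ^ p * 2 ^ p) + (1 / 2) ^ L)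

/-- The instance given by a list of constraints. -/
def egOf (P : Prm) (l : List (CP P.A P.B)) (hl : l ≠ []) : Eg P where
  E := Fin l.length
  nE := ⟨⟨0, List.length_pos_iff.2 hl⟩⟩
  u e := (l.get e).1 0
  v e := (l.get e).1 1
  π e := (l.get e).2.val

end Vale.Agent.P339
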