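import Vale.Agent.P339.Stmt
import Vale.Agent.P339.Defs
import Vale.Agent.P325.BaseFinal

/-! From the intermediate statement to the Turing machine statement. -/

namespace Vale.Agent.P339

open Vale.Agent.P325 Vale.Agent.Lib.H23 Enc Turing

theorem final2 (h : TwoStmt) (δ : ℝ) (hδ : 0 < δ) :
    ∃ q : ℕ, 2 ≤ q ∧ ∃ (f : CNF → Game q) (M : TM2ComputableInPolyTime codeCNF (codeGame q) f),
      (∀ j, Finite (M.tm.Γ j)) ∧ ∀ φ, f φ ≠ [] ∧ TwoToOne (f φ) ∧ (Sat φ → value (f φ) = 1) ∧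
        (¬ Sat φ → value (f φ) ≤ δ) := by
  obtain ⟨q, r, hq, pt, hr⟩ := h δ hδ
  let f : CNF → Game q := fun φ => (r φ).map fun c => (c.1 0, c.1 1, c.2.val)
  have hg : PT fun φ => (r φ).map fun c =>
      (c.1 0, c.1 1, List.ofFn fun i => (c.2.val i : ℕ)) :=
    PT.map (f := fun _ (c : CP (Fin (2 * q)) (Fin q)) =>
      (c.1 0, c.1 1, List.ofFn fun i => (c.2.val i : ℕ)))
      (PT.pair (pt_apply PT.snd'.fst 0) (PT.pair (pt_apply PT.snd'.fst 1)
        (pt_ofFin (fun v : Fin (2 * q) → Fin q => List.ofFn fun i => (v i : ℕ)) PT.snd'.snd))) pt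
  obtain ⟨M, hM⟩ := tm_of_pt hg (codeGame q) f fun φ => by
    rw [ser_list (ser_pair ser_nat (ser_pair ser_nat (ser_list ser_nat)))]
    simp only [f, codeGame]
    induction r φ with
    | nil => rfl
    | cons c t ih => simp only [List.map_cons, bList, ih]; rfl
  refine ⟨q, hq, f, M, hM, fun φ => ?_⟩
  obtain ⟨b1, b2, b3, b4⟩ := hr φ
  have hv : ∀ s : (ℕ → Fin (2 * q)) × (ℕ → Fin q),
      (((f φ).countP fun c => decide (c.2.2 (s.1 c.1) = s.2 c.2.1) : ℕ) : ℝ) / (f φ).length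
        = avg (r φ) fun c => ind (satP s.1 s.2 c) := fun s => by
    rw [← avg_ind_eq (f φ) fun c => c.2.2 (s.1 c.1) = s.2 c.2.1, avg_map]
    rfl
  have : Nonempty ((ℕ → Fin (2 * q)) × (ℕ → Fin q)) :=
    ⟨(fun _ => ⟨0, by omega⟩, fun _ => ⟨0, by omega⟩)⟩
  unfold value
  simp only [hv]
  refine ⟨by simpa [f] using b1, fun c hc b => ?_, fun h => ?_,
    fun h => ciSup_le fun s => b4 h _ _⟩
  · obtain ⟨c', hc', rfl⟩ := List.mem_map.1 hc
    exact b2 c' hc' b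
  · obtain ⟨u, v, huv⟩ := b3 h
    refine le_antisymm (ciSup_le fun s => avg_ind_le_one _ _) (le_trans ?_
      (le_ciSup (f := fun s : (ℕ → Fin (2 * q)) × (ℕ → Fin q) =>
        avg (r φ) fun c => ind (satP s.1 s.2 c))
        ⟨1, by rintro _ ⟨a, rfl⟩; exact avg_ind_le_one _ _⟩ (u, v)))
    exact ((avg_congr (g := fun _ => (1 : ℝ)) fun c hc => if_pos (huv c hc)).trans
      (avg_const b1 1)).ge

end Vale.Agent.P339
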