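import Vale.Agent.P339.Basic

/-!
Decoding to label cover (aux names: `gl_*`).
Plan.  (a) Randomized strategies: if `p : E → A → ℝ`, `q : E → B → ℝ` are nonnegative with sums at most
one, `p` depends on `e` via `u e` and `q` via `v e`, then `𝔼 e, ∑ a, p e a * q e (π e a) ≤ δ0`: for every
name `x` choose the label maximizing `∑ e with u e = x, q e (π e a)`, then the same on the right
(`Finset.sum_fiberwise_of_maps_to`; compare `has_greedy`, `has_derand` in `P325.Has`).
(b) `Sb e b = ∑ a with π e a = b, S e a` (`dot_pi2` in `P325.HasCore`), `c e y T = hat (fun n => ind (y = g0 e n)) T`,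
`∑ y, ∑ T, c² = 1` (`perf_dot.parseval`, `sum_ind_eq`).  The inner average is `sg e * c e (ys e) (Sb e)`.
`p e a = if card (supp (S e)) ≤ L ∧ S e a ≠ 0 then 1 / L else 0`, `q e b = ∑ y, ∑ T with pk T = b, c²` where
`pk T` is a point of the support of `T` if `T ≠ 0`.  If `sg e ≠ 0` then `Sb e ≠ 0` (its sum is one), there
is `a` with `S e a ≠ 0`, `π e a = pk (Sb e)`, so `c e (ys e) (Sb e) ² ≤ L * ∑ a, p e a * q e (π e a)`.
Cauchy-Schwarz over `e`.
-/

namespace Vale.Agent.P339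

open Vale.Agent.P325 Finset
open scoped BigOperators

theorem gl_greedy {E A : Type} [Fintype E] [Fintype A] [Nonempty A] (key : E → ℕ)
    (w : E → A → ℝ) (hw : ∀ e a, 0 ≤ w e a) (ν : E → A → ℝ)
    (hk : ∀ e e', key e = key e' → ν e = ν e') (h0 : ∀ e a, 0 ≤ ν e a)
    (h1 : ∀ e, ∑ a, ν e a ≤ 1) : ∃ f : ℕ → A,
      (𝔼 e, ∑ a, ν e a * w e a) ≤ 𝔼 e, w e (f (key e)) := by
  set W : ℕ → A → ℝ := fun n a => ∑ e with key e = n, w e a with hW
  choose f hf using fun n => Finite.exists_max (W n)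
  refine ⟨f, ?_⟩
  rw [Fintype.expect_eq_sum_div_card, Fintype.expect_eq_sum_div_card]
  refine div_le_div_of_nonneg_right ?_ (Nat.cast_nonneg _)
  have hm : ∀ e ∈ (univ : Finset E), key e ∈ univ.image key := fun e he => mem_image_of_mem _ he
  rw [← Finset.sum_fiberwise_of_maps_to hm, ← Finset.sum_fiberwise_of_maps_to hm]
  refine Finset.sum_le_sum fun n hn => ?_
  obtain ⟨e0, -, he0⟩ := mem_image.1 hn
  have e1 : ∑ e with key e = n, ∑ a, ν e a * w e a = ∑ a, ν e0 a * W n a := by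
    rw [Finset.sum_comm]
    refine Finset.sum_congr rfl fun a _ => ?_
    rw [hW, Finset.mul_sum]
    exact Finset.sum_congr rfl fun e he => by rw [hk e e0 ((mem_filter.1 he).2.trans he0.symm)]
  have e2 : ∑ e with key e = n, w e (f (key e)) = W n (f n) :=
    Finset.sum_congr rfl fun e he => by rw [(mem_filter.1 he).2]
  have hp : 0 ≤ W n (f n) := Finset.sum_nonneg fun i _ => hw _ _
  rw [e1, e2]
  calc ∑ a, ν e0 a * W n a ≤ ∑ a, ν e0 a * W n (f n) :=
        Finset.sum_le_sum fun a _ => mul_le_mul_of_nonneg_left (hf n a) (h0 e0 a)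
    _ = (∑ a, ν e0 a) * W n (f n) := by rw [Finset.sum_mul]
    _ ≤ _ := mul_le_of_le_one_left hp (h1 e0)

theorem gl_derand {P : Prm} (g : Eg P) {δ0 : ℝ} (hg : g.Sound δ0) (p : g.E → P.A → ℝ)
    (q : g.E → P.B → ℝ) (hp : ∀ e e', g.u e = g.u e' → p e = p e')
    (hq : ∀ e e', g.v e = g.v e' → q e = q e') (p0 : ∀ e a, 0 ≤ p e a) (p1 : ∀ e, ∑ a, p e a ≤ 1)
    (q0 : ∀ e b, 0 ≤ q e b) (q1 : ∀ e, ∑ b, q e b ≤ 1) :
    (𝔼 e, ∑ a, p e a * q e (g.π e a)) ≤ δ0 := by
  obtain ⟨f, hf⟩ := gl_greedy g.u (fun e a => q e (g.π e a)) (fun _ _ => q0 _ _) p hp p0 p1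
  obtain ⟨h, hh⟩ := gl_greedy g.v (fun e b => ind (g.π e (f (g.u e)) = b))
    (fun _ _ => ind_nonneg' _) q hq q0 q1
  refine hf.trans (le_trans (le_of_eq (expect_congr rfl fun e _ => ?_)) (hh.trans (hg f h)))
  rw [← sum_ind_mul (g.π e (f (g.u e))) (q e)]
  exact Finset.sum_congr rfl fun b _ => mul_comm _ _

open Classical in
/-- A point of the support. -/
noncomputable def gl_pk {B : Type} [Nonempty B] (T : B → ZMod 2) : B :=
  if h : ∃ b, T b ≠ 0 then h.choose else Classical.arbitrary B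

theorem gl_pk_ne {B : Type} [Nonempty B] {T : B → ZMod 2} (h : ∃ b, T b ≠ 0) :
    T (gl_pk T) ≠ 0 := by
  rw [gl_pk, dif_pos h]
  exact h.choose_spec

theorem gl_mass {B Y : Type} [Fintype B] [DecidableEq B] [Fintype Y] (g0 : (B → ZMod 2) → Y) :
    ∑ y, ∑ T, hat (fun n => ind (y = g0 n)) T ^ 2 = 1 := by
  simp only [perf_dot.parseval]
  rw [← Finset.expect_sum_comm]
  refine (expect_congr rfl fun n _ => ?_).trans (expect_const univ_nonempty 1)
  rw [← sum_ind_eq (g0 n)]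
  refine Finset.sum_congr rfl fun y _ => ?_
  by_cases h : y = g0 n
  · rw [ind_pos h, ind_pos h.symm, one_pow]
  · rw [ind_neg h, ind_neg (Ne.symm h), zero_pow two_ne_zero]

theorem goodL_le {P : Prm} (g : Eg P) {δ0 : ℝ} (hg : g.Sound δ0) (L : ℕ) {Y : Type} [Fintype Y]
    (S : g.E → P.A → ZMod 2) (sg : g.E → ℝ) (ys : g.E → Y) (g0 : g.E → (P.B → ZMod 2) → Y)
    (hU : ∀ e e', g.u e = g.u e' → S e = S e') (hV : ∀ e e', g.v e = g.v e' → g0 e = g0 e')
    (hsg : ∀ e, |sg e| ≤ 1)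
    (hS : ∀ e, sg e ≠ 0 → ∑ a, S e a = 1 ∧ (univ.filter fun a => S e a ≠ 0).card ≤ L) :
    (𝔼 e, 𝔼 n : P.B → ZMod 2, sg e * chi (∑ a, S e a * n (g.π e a)) * ind (ys e = g0 e n)) ≤
      √(L * δ0) := by
  classical
  set p : g.E → P.A → ℝ := fun e a =>
    if (univ.filter fun a => S e a ≠ 0).card ≤ L ∧ S e a ≠ 0 then 1 / L else 0 with hp
  set q : g.E → P.B → ℝ := fun e b =>
    ∑ y, ∑ T with gl_pk T = b, hat (fun n => ind (y = g0 e n)) T ^ 2 with hq
  have p0 : ∀ e a, 0 ≤ p e a := fun e a => by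
    simp only [hp]
    split_ifs <;> positivity
  have q0 : ∀ e b, 0 ≤ q e b := fun e b =>
    Finset.sum_nonneg fun y _ => Finset.sum_nonneg fun T _ => sq_nonneg _
  have p1 : ∀ e, ∑ a, p e a ≤ 1 := fun e => by
    by_cases h : (univ.filter fun a => S e a ≠ 0).card ≤ L
    · simp only [hp, h, true_and]
      rw [← Finset.sum_filter, Finset.sum_const, nsmul_eq_mul, mul_one_div]
      exact div_le_one_of_le₀ (by exact_mod_cast h) (Nat.cast_nonneg _)
    · simp [hp, h]
  have q1 : ∀ e, ∑ b, q e b ≤ 1 := fun e => by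
    simp only [hq]
    rw [Finset.sum_comm, ← gl_mass (g0 e)]
    exact le_of_eq (Finset.sum_congr rfl fun y _ => Finset.sum_fiberwise _ _ _)
  have hd := gl_derand g hg p q (fun e e' h => by simp only [hp, hU e e' h])
    (fun e e' h => by simp only [hq, hV e e' h]) p0 p1 q0 q1
  set I : g.E → ℝ := fun e => 𝔼 n : P.B → ZMod 2,
    sg e * chi (∑ a, S e a * n (g.π e a)) * ind (ys e = g0 e n) with hI
  have key : ∀ e, I e ^ 2 ≤ L * ∑ a, p e a * q e (g.π e a) := fun e => by
    have hn : 0 ≤ ∑ a, p e a * q e (g.π e a) :=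
      Finset.sum_nonneg fun a _ => mul_nonneg (p0 e a) (q0 e _)
    by_cases h0 : sg e = 0
    · simp only [hI, h0, zero_mul, Finset.expect_const_zero]
      rw [zero_pow two_ne_zero]
      positivity
    obtain ⟨h1, h2⟩ := hS e h0
    set Sb : P.B → ZMod 2 := fun b => ∑ a with g.π e a = b, S e a with hSb
    have e1 : ∀ n : P.B → ZMod 2, ∑ a, S e a * n (g.π e a) = Sb ⬝ᵥ n := fun n => by
      simp only [dotProduct, hSb, Finset.sum_mul]
      rw [← Finset.sum_fiberwise univ (g.π e) fun a => S e a * n (g.π e a)]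
      refine Finset.sum_congr rfl fun b _ => Finset.sum_congr rfl fun a ha => ?_
      rw [(Finset.mem_filter.1 ha).2]
    have e2 : I e = sg e * hat (fun n => ind (ys e = g0 e n)) Sb := by
      simp only [hI, e1, hat, hatB]
      rw [Finset.mul_expect]
      exact expect_congr rfl fun n _ => by ring
    have e3 : ∃ b, Sb b ≠ 0 := by
      by_contra hc
      push Not at hc
      have : ∑ b, Sb b = ∑ a, S e a := Finset.sum_fiberwise _ _ _
      rw [h1, Finset.sum_eq_zero fun b _ => hc b] at this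
      exact zero_ne_one this
    obtain ⟨a, ha, ha'⟩ := Finset.exists_ne_zero_of_sum_ne_zero (gl_pk_ne e3)
    have ha1 : g.π e a = gl_pk Sb := (mem_filter.1 ha).2
    have hL : (0 : ℝ) < L := by
      have : 0 < (univ.filter fun a => S e a ≠ 0).card :=
        Finset.card_pos.2 ⟨a, mem_filter.2 ⟨mem_univ _, ha'⟩⟩
      exact_mod_cast this.trans_le h2
    have e4 : hat (fun n => ind (ys e = g0 e n)) Sb ^ 2 ≤ q e (g.π e a) := by
      refine le_trans ?_ (Finset.single_le_sum (f := fun y => ∑ T with gl_pk T = g.π e a,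
        hat (fun n => ind (y = g0 e n)) T ^ 2)
        (fun y _ => Finset.sum_nonneg fun T _ => sq_nonneg _) (mem_univ (ys e)))
      exact Finset.single_le_sum (f := fun T => hat (fun n => ind (ys e = g0 e n)) T ^ 2)
        (fun T _ => sq_nonneg _) (mem_filter.2 ⟨mem_univ _, ha1.symm⟩)
    have e5 : p e a * q e (g.π e a) ≤ ∑ a, p e a * q e (g.π e a) :=
      Finset.single_le_sum (f := fun a => p e a * q e (g.π e a))
        (fun a _ => mul_nonneg (p0 e a) (q0 e _)) (mem_univ a)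
    have e6 : p e a = 1 / L := if_pos ⟨h2, ha'⟩
    have e7 : sg e ^ 2 ≤ 1 := by
      rw [← sq_abs]
      exact pow_le_one₀ (abs_nonneg _) (hsg e)
    calc I e ^ 2 = sg e ^ 2 * hat (fun n => ind (ys e = g0 e n)) Sb ^ 2 := by rw [e2, mul_pow]
      _ ≤ q e (g.π e a) := (mul_le_of_le_one_left (sq_nonneg _) e7).trans e4
      _ = L * (p e a * q e (g.π e a)) := by rw [e6]; field_simp
      _ ≤ _ := mul_le_mul_of_nonneg_left e5 hL.le
  refine Real.le_sqrt_of_sq_le ?_
  have cs := Finset.expect_mul_sq_le_sq_mul_sq univ I fun _ => (1 : ℝ)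
  simp only [mul_one, one_pow, expect_const univ_nonempty] at cs
  refine cs.trans ((expect_mono' key).trans ?_)
  rw [← Finset.mul_expect]
  exact mul_le_mul_of_nonneg_left hd (Nat.cast_nonneg _)

end Vale.Agent.P339
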