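import Vale.Agent.P339.Defs

/-!
Choice of the parameters (aux names: `pa_*`).
Order: `ξ` with `√(4 ξ) ≤ η/6`; given `r, ε`: `e` with `2^r / 2^e / ε ≤ η/6`; `N` with `ncl e * 2^(e r) / (ε N) ≤ η/6`;
`tv ≤ ξ` small; `τ = η / (12 * (ncl e * 2^e * N + 1))`, `θ = tv0 = τ²/2`; `s` with `(1/2)^s ≤ θ`; `p` with
`2 s + 2 ≤ 2^p`, so `s * 2^(p+1) + 2 ≤ 2^p * 2^p`; `ρ = L = 2^p * 2^p`, `l = 2^p + 2^p + e + 2^p * 2^p + 2`;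
`werr ≤ 4 * (1/2)^(2^p * 2^p) ≤ ((1/2)^s)^(2^(p+1))`; `δ0 = τ² / (L + 1)`.
-/

namespace Vale.Agent.P339

open Vale.Agent.P325 Finset
open scoped BigOperators

theorem pa_werr {θ : ℝ} (hθ : 0 < θ) (e : ℕ) : ∃ p ρ L l : ℕ, e ≤ l ∧ 2 ≤ l ∧
    werr l e ρ p L ≤ θ ^ (2 ^ (p + 1)) := by
  obtain ⟨s, hs⟩ := exists_pow_lt_of_lt_one hθ (by norm_num : (1 / 2 : ℝ) < 1)
  obtain ⟨p, hp⟩ : ∃ p : ℕ, 2 * s + 2 ≤ 2 ^ p := ⟨2 * s + 2, Nat.lt_two_pow_self.le⟩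
  refine ⟨p, 2 ^ p * 2 ^ p, 2 ^ p * 2 ^ p, 2 ^ p + 2 ^ p + e + 2 ^ p * 2 ^ p + 2, by omega,
    by omega, ?_⟩
  have h1 : s * 2 ^ (p + 1) + 2 ≤ 2 ^ p * 2 ^ p := by
    have h2 : 1 ≤ 2 ^ p := Nat.one_le_two_pow
    have h3 := Nat.mul_le_mul_right (2 ^ p) hp
    rw [pow_succ]
    nlinarith
  unfold werr
  generalize 2 ^ p * 2 ^ p = Q at h1 ⊢
  have h2 : (2 : ℝ) ^ (2 ^ p + 2 ^ p) * 2 ^ e / 2 ^ (2 ^ p + 2 ^ p + e + Q + 2) ≤ (1 / 2) ^ Q := by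
    generalize 2 ^ p + 2 ^ p = R
    rw [one_div_pow, div_le_div_iff₀ (by positivity) (by positivity)]
    have : (0 : ℝ) < 2 ^ R * 2 ^ e * 2 ^ Q := by positivity
    simp only [pow_add]
    linarith
  have h3 : (1 / 2 : ℝ) ^ Q ≤ (1 / 2) ^ (s * 2 ^ (p + 1) + 2) :=
    pow_le_pow_of_le_one (by norm_num) (by norm_num) h1
  have h4 : ((1 / 2 : ℝ) ^ s) ^ (2 ^ (p + 1)) ≤ θ ^ (2 ^ (p + 1)) :=
    pow_le_pow_left₀ (by positivity) hs.le _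
  rw [pow_add, pow_mul] at h3
  linarith

theorem par_ex {η : ℝ} (hη : 0 < η) : ∃ ξ : ℝ, 0 < ξ ∧ ∀ (r : ℕ) (ε : ℝ), 0 < ε →
    ∃ (e N p ρ L l : ℕ) (δ0 tv tv0 θ : ℝ), 0 < N ∧ e ≤ l ∧ 2 ≤ l ∧ 0 < δ0 ∧ 0 < tv ∧ 0 < tv0 ∧
      0 ≤ θ ∧ werr l e ρ p L ≤ θ ^ (2 ^ (p + 1)) ∧ cb ξ ε r e N L δ0 tv tv0 θ ≤ η := by
  refine ⟨η ^ 2 / 144, by positivity, fun r ε hε => ?_⟩
  obtain ⟨e, he⟩ := exists_pow_lt_of_lt_one (by positivity : 0 < η / 6 * ε / 2 ^ r)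
    (by norm_num : (1 / 2 : ℝ) < 1)
  obtain ⟨N, hN⟩ := exists_nat_gt ((ncl e : ℝ) * 2 ^ (e * r) / (ε * (η / 6)))
  have hN0 : (0 : ℝ) < N := lt_of_le_of_lt (by positivity) hN
  obtain ⟨τ, hτ0, hτ⟩ : ∃ τ : ℝ, 0 < τ ∧ (ncl e : ℝ) * 2 ^ e * N * (τ + τ) ≤ η / 6 := by
    have h0 : (0 : ℝ) ≤ (ncl e : ℝ) * 2 ^ e * N := by positivity
    generalize (ncl e : ℝ) * 2 ^ e * N = M at h0
    refine ⟨η / (12 * (M + 1)), by positivity, ?_⟩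
    rw [← two_mul, ← mul_assoc, ← mul_div_assoc, div_le_div_iff₀ (by positivity) (by positivity)]
    nlinarith
  obtain ⟨tv, ht0, ht1, ht2, ht3⟩ : ∃ tv : ℝ, 0 < tv ∧ tv ≤ η ^ 2 / 144 ∧ tv ≤ η / 6 ∧
      (2 : ℝ) ^ r / 2 ^ e * (ncl e * N * tv) ≤ η / 6 := by
    have h0 : (0 : ℝ) ≤ (2 : ℝ) ^ r / 2 ^ e * (ncl e * N) := by positivity
    refine ⟨min (η ^ 2 / 144) (η / 6 / ((2 : ℝ) ^ r / 2 ^ e * (ncl e * N) + 1)), by positivity,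
      min_le_left _ _, (min_le_right _ _).trans (div_le_self (by positivity) (by linarith)), ?_⟩
    rw [← mul_assoc]
    generalize (2 : ℝ) ^ r / 2 ^ e * (ncl e * N) = M at h0
    refine (mul_le_mul_of_nonneg_left (min_le_right _ _) h0).trans ?_
    rw [← mul_div_assoc, div_le_iff₀ (by positivity)]
    nlinarith
  obtain ⟨p, ρ, L, l, h1, h2, h3⟩ := pa_werr (by positivity : 0 < τ ^ 2 / 2) e
  refine ⟨e, N, p, ρ, L, l, τ ^ 2 / (L + 1), tv, τ ^ 2 / 2, τ ^ 2 / 2, by exact_mod_cast hN0, h1,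
    h2, by positivity, ht0, by positivity, by positivity, h3, ?_⟩
  have a1 : √(2 * (η ^ 2 / 144 + tv)) ≤ η / 6 := Real.sqrt_le_iff.2 ⟨by positivity, by nlinarith⟩
  have a2 : (ncl e : ℝ) * 2 ^ (e * r) / (ε * N) ≤ η / 6 := by
    rw [div_lt_iff₀ (by positivity)] at hN
    rw [div_le_iff₀ (by positivity)]
    linarith
  have a3 : (2 : ℝ) ^ r / 2 ^ e * (1 / ε) ≤ η / 6 := by
    rw [one_div_pow, div_lt_div_iff₀ (by positivity) (by positivity)] at he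
    rw [div_mul_div_comm, div_le_iff₀ (by positivity)]
    linarith
  have a4 : √(L * (τ ^ 2 / (L + 1))) ≤ τ := by
    refine Real.sqrt_le_iff.2 ⟨hτ0.le, ?_⟩
    rw [← mul_div_assoc, div_le_iff₀ (by positivity)]
    nlinarith [sq_nonneg τ]
  have a5 : √(τ ^ 2 / 2 + τ ^ 2 / 2) ≤ τ := Real.sqrt_le_iff.2 ⟨hτ0.le, by linarith⟩
  have a6 : (ncl e : ℝ) * 2 ^ e * N * (√(L * (τ ^ 2 / (L + 1))) + √(τ ^ 2 / 2 + τ ^ 2 / 2)) ≤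
      η / 6 := (mul_le_mul_of_nonneg_left (add_le_add a4 a5) (by positivity)).trans hτ
  unfold cb
  rw [mul_add ((2 : ℝ) ^ r / 2 ^ e)]
  linarith

end Vale.Agent.P339
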