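import Vale.Agent.P339.Basic

/-!
Passing to the special child (aux names: `pe_*`).
Plan.  Let `s` be a strategy for `succ`.  Write `r = (i, dats, r')`, split `w : W'` into the upper parts
`uw = (fun j => (w.2.1 j).1.1, fun t => (w.2.2.1 t).1.1)` and `w' : S.W` (`jw uw w'` assembles; one `Equiv`),
and resample `ε` on the child `i`: `ε = je i ε0 ε'`, `je i ε0 ε' (i', c) = if i' = i then ε' c else ε0 (i', c)`
(`Equiv.curry`, `expect_update`).  For fixed `i dats uw ε0` and fixed directions the upper part of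
`pq t` is `up t = uw.2 t + dirc (a t.1) t.2 • uw.1 t.1`, and `low (pq t) = S.pp g ε' r' w' t`.  Since `a = w'.1` is not seen by
`tab`, first shift: by `expect_add_right'` reparametrize so that `up` is the fixed data (for given `w'.1`,
`uw.1`, the map `uw.2 ↦ up` is a translation), i.e. `jw (ud, up) w'` has `p t .1.1 = up t + dirc (a t.1) t.2 • ud t.1`.
Strategy for `S`: `tab' U' d' G' = (s.tab U'' (ds, M - M∘pick) G'').1 i` with `U'' = je`-assembled names,
`ds = update (can ∘ dats) i d'`, `M q y = if y.1 = i then G' (jn, inl q) y.2 + hidT jn G' y.2 q else up (jn, inl q) y.1 y.2`,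
`G'' t σ = ∑ i', if i' = i then G' t (res σ i') else up t i' (res σ i')`; `gam' j ε' r' w' = (s.gam j ε r w).1 i`.
Then `s'.out = (s.out ..).1 i`, and `pass j` implies `pass' j` for `j ≠ jn`.
-/

namespace Vale.Agent.P339

open Vale.Agent.P325 Finset
open scoped BigOperators

variable {P : Prm} {S : Stage P} {jn : Fin P.T} {k n : ℕ} {g : Eg P}

/-- Replace the part of `ε0` on the child `i`. -/
def pe_je {C α : Type} (i : Fin (k + 1)) (ε0 : Fin (k + 1) × C → α) (ε' : C → α) :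
    Fin (k + 1) × C → α := fun x => if x.1 = i then ε' x.2 else ε0 x

theorem pe_je_self {C α : Type} (i : Fin (k + 1)) (ε0 : Fin (k + 1) × C → α) (ε' : C → α) (c : C) :
    pe_je i ε0 ε' (i, c) = ε' c := if_pos rfl

theorem pe_je_map {C α β : Type} (f : α → β) (i : Fin (k + 1)) (ε0 : Fin (k + 1) × C → α)
    (ε' : C → α) : (fun x => f (pe_je i ε0 ε' x)) = pe_je i (fun x => f (ε0 x)) fun c => f (ε' c) := by
  funext x
  unfold pe_je
  split_ifs <;> rfl

theorem pe_expect_je {C α : Type} [Fintype C] [DecidableEq C] [Fintype α] [Nonempty α]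
    (i : Fin (k + 1)) (F : (Fin (k + 1) × C → α) → ℝ) :
    (𝔼 ε, F ε) = 𝔼 ε0 : Fin (k + 1) × C → α, 𝔼 ε' : C → α, F (pe_je i ε0 ε') := by
  have h := expect_equiv' (Function.Involutive.toPerm
    (fun p : (Fin (k + 1) × C → α) × (C → α) => (pe_je i p.1 p.2, fun c => p.1 (i, c)))
    fun p => by
      refine Prod.ext (funext fun x => ?_) (funext fun c => pe_je_self _ _ _ _)
      by_cases hx : x.1 = i
      · simp only [pe_je, if_pos hx]
        rw [← hx]
      · simp only [pe_je, if_neg hx]) fun p => F p.1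
  rw [expect_prod', expect_prod'] at h
  simp only [Finset.expect_const univ_nonempty] at h
  exact h.symm

/-- The upper parts of the fresh parts and of the parameters. -/
abbrev pe_UW (S : Stage P) (k : ℕ) : Type :=
  (Fin P.T → Fin (k + 1) → S.Fn) × (P.I → Fin (k + 1) → S.Fn)

instance : Fintype (pe_UW S k) := inferInstance

/-- Assemble the randomness of the node. -/
def pe_jw (u : pe_UW S k) (w : S.W) : S.W' k :=
  (w.1, fun j => ((u.1 j, (w.2.1 j).1), (w.2.1 j).2),
    fun t => ((u.2 t - P.dirc (w.1 t.1) t.2 • u.1 t.1, (w.2.2.1 t).1), (w.2.2.1 t).2), w.2.2.2)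

/-- The assembling map is a bijection. -/
def pe_equiv (S : Stage P) (k : ℕ) : pe_UW S k × S.W ≃ S.W' k where
  toFun x := pe_jw x.1 x.2
  invFun w := ((fun j => (w.2.1 j).1.1,
      fun t => (w.2.2.1 t).1.1 + P.dirc (w.1 t.1) t.2 • (w.2.1 t.1).1.1),
    (w.1, fun j => ((w.2.1 j).1.2, (w.2.1 j).2), fun t => ((w.2.2.1 t).1.2, (w.2.2.1 t).2),
      w.2.2.2))
  left_inv x := by simp [pe_jw]
  right_inv w := by simp [pe_jw]

theorem pe_expect_W (F : S.W' k → ℝ) : (𝔼 w, F w) = 𝔼 u : pe_UW S k, 𝔼 w : S.W, F (pe_jw u w) := by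
  rw [← expect_equiv' (pe_equiv S k) F, expect_prod']
  rfl

theorem pe_setd (u : pe_UW S k) (w : S.W) (i : Fin P.T) (x : S.Par) :
    pe_jw u (Prm.setd w i x) = Prm.setd (pe_jw u w) i ((u.1 i, x.1), x.2) := by
  refine Prod.ext rfl (Prod.ext (funext fun j => ?_) rfl)
  by_cases hj : j = i
  · subst hj
    simp [pe_jw, Prm.setd]
  · simp [pe_jw, Prm.setd, hj]

theorem pe_pq (ε0 : Fin (k + 1) × S.Co → g.E) (ε' : S.Co → g.E) (r : S.Rn' k) (u : pe_UW S k)
    (w : S.W) (t : P.I) : Stage.pq g (pe_je r.1 ε0 ε') r (pe_jw u w) t =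
      ((u.2 t, (Stage.pp g ε' r.2.2 w t).1), (Stage.pp g ε' r.2.2 w t).2) := by
  refine Prod.ext (Prod.ext ?_ rfl) (funext fun c => ?_)
  · simp [Stage.pq, Prm.ppg, Prm.plant, Prm.tot, pe_jw]
  · simp only [Stage.pq, Stage.pp, Prm.ppg, Prm.plant, Stage.bcs, pe_je_self]
    rfl

theorem pe_vnm (ε0 : Fin (k + 1) × S.Co → g.E) (ε' : S.Co → g.E) (r : S.Rn' k)
    (pos : Fin (P.m + 1)) :
    Prm.vnf (Stage.bcs r) (fun x => g.u (pe_je r.1 ε0 ε' x)) (fun x => g.v (pe_je r.1 ε0 ε' x)) pos =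
      pe_je r.1 (fun x => g.u (ε0 x)) (Stage.vnm g ε' r.2.2 pos) := by
  funext x
  obtain ⟨i, c⟩ := x
  by_cases hi : i = r.1
  · subst hi
    simp [Prm.vnf, Stage.vnm, Stage.bcs, pe_je_self]
  · have h2 : ¬ ∃ c', Stage.bcs r (pos, c') = (i, c) := fun ⟨_, hc⟩ => hi (congrArg Prod.fst hc).symm
    simp only [Prm.vnf, if_neg h2, pe_je, if_neg hi]

/-- A column function with prescribed part on the child `i`. -/
def pe_col (i : Fin (k + 1)) (u : Fin (k + 1) → S.Fn) (G : S.Fn) : S.X k → ZMod 2 :=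
  fun y => if y.1 = i then G y.2 else u y.1 y.2

/-- The matrix of the node. -/
def pe_M (jn : Fin P.T) (i : Fin (k + 1)) (up : P.I → Fin (k + 1) → S.Fn) (G : P.I → S.Fn) :
    Mat P.l (S.X k) := fun q y =>
  pe_col i (up (jn, Sum.inl q)) (G (jn, Sum.inl q)) y +
    if y.1 = i then Stage.hidT jn G y.2 q else 0

/-- The folded question. -/
noncomputable def pe_can (ds : Fin (k + 1) → S.Dat) (M : Mat P.l (S.X k)) :
    (Fin (k + 1) → S.Dat) × Mat P.l (S.X k) :=
  (ds, fun q y => M q y - M q (y.1, S.pick (ds y.1) (S.lab (ds y.1) y.2)))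

/-- The table of a strategy with unfolded types. -/
def pe_tab (s : Strat (S.succ jn k) n g) (U : Fin (k + 1) × S.Co → ℕ)
    (d : (Fin (k + 1) → S.Dat) × Mat P.l (S.X k)) (G : P.I → S.Om' k → ZMod 2) : S.Lab' k :=
  s.tab U d G

/-- The strategy seen from the special child. -/
noncomputable def pe_strat (hj : (jn : ℕ) = n + 1) (s : Strat (S.succ jn k) (n + 1) g)
    (i : Fin (k + 1)) (dats : Fin (k + 1) → S.Dat) (ε0 : Fin (k + 1) × S.Co → g.E)
    (u : pe_UW S k) : Strat S n g where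
  tab U d G := (pe_tab s (pe_je i (fun x => g.u (ε0 x)) U)
    (pe_can (Function.update (fun i' => S.can (dats i')) i d) (pe_M jn i u.2 G))
    fun t => Stage.sumc (pe_col i (u.2 t) (G t))).1 i
  tab_congr U d G G' h := by
    have h1 : ∀ q, G (jn, q) = G' (jn, q) := fun q => h _ (by simp [hj])
    have h2 : pe_M jn i u.2 G = pe_M jn i u.2 G' := by
      funext q y
      simp only [pe_M, Stage.hidT, h1]
    rw [h2]
    refine congrArg (fun z : S.Lab' k => z.1 i) (s.tab_congr _ _ _ _ fun t ht => ?_)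
    rw [h t (by omega)]
  gam j ε r w := (s.gam j (pe_je i ε0 ε) (i, dats, r) (pe_jw u w)).1 i
  gam_d j ε r w x := by
    rw [pe_setd]
    exact congrArg (fun z : S.Lab' k => z.1 i) (s.gam_d j _ _ _ _)
  gam_v j ε ε' r w h := by
    refine congrArg (fun z : S.Lab' k => z.1 i) (s.gam_v j _ _ _ _ ?_)
    exact (pe_vnm ε0 ε (i, dats, r) w.2.2.2.1).trans
      ((congrArg _ h).trans (pe_vnm ε0 ε' (i, dats, r) w.2.2.2.1).symm)

theorem pe_out (hj : (jn : ℕ) = n + 1) (s : Strat (S.succ jn k) (n + 1) g)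
    (i : Fin (k + 1)) (dats : Fin (k + 1) → S.Dat) (ε0 : Fin (k + 1) × S.Co → g.E)
    (u : pe_UW S k) (ε : S.Co → g.E) (r : S.Rn) (w : S.W) :
    (pe_strat hj s i dats ε0 u).out ε r w =
      (s.out (pe_je i ε0 ε) (i, dats, r) (pe_jw u w)).1 i := by
  obtain ⟨p, hp⟩ : ∃ p : P.I → S.Par' k, p = Stage.pq g (pe_je i ε0 ε) (i, dats, r) (pe_jw u w) :=
    ⟨_, rfl⟩
  have h0 : ∀ t, p t = ((u.2 t, (Stage.pp g ε r w t).1), (Stage.pp g ε r w t).2) := fun t => by
    rw [hp]
    exact pe_pq ε0 ε (i, dats, r) u w t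
  have h1 : (fun t => Stage.low (p t)) = Stage.pp g ε r w := by
    funext t
    rw [h0]
    rfl
  have h2 : ∀ t, Stage.slc (i, dats, r) (p t) = pe_col i (u.2 t) (S.ev r (Stage.pp g ε r w t)) := by
    intro t
    rw [h0]
    rfl
  have h3 : Stage.kids (i, dats, r) p = Function.update dats i (S.spd r (Stage.pp g ε r w)) := by
    unfold Stage.kids
    rw [h1]
  have h4 : Stage.mat jn (i, dats, r) p = pe_M jn i u.2 fun t => S.ev r (Stage.pp g ε r w t) := by
    funext q y
    unfold Stage.mat pe_M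
    rw [h2, ← h1]
  have h5 : (fun i' => S.can (Stage.kids (i, dats, r) p i')) =
      Function.update (fun i' => S.can (dats i')) i (S.can (S.spd r (Stage.pp g ε r w))) := by
    rw [h3]
    funext i'
    by_cases hi : i' = i
    · subst hi
      simp
    · simp [hi]
  have h6 : (s.out (pe_je i ε0 ε) (i, dats, r) (pe_jw u w)).1 i =
      S.rel (Stage.kids (i, dats, r) p i) ((pe_tab s (fun x => g.u (pe_je i ε0 ε x))
        (pe_can (fun i' => S.can (Stage.kids (i, dats, r) p i')) (Stage.mat jn (i, dats, r) p))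
        fun t => Stage.sumc (Stage.slc (i, dats, r) (p t))).1 i) := by
    rw [hp]
    rfl
  rw [h6, h5, h4, h3, Function.update_self, pe_je_map g.u]
  simp only [h2]
  rfl

theorem pe_pass (hj : (jn : ℕ) = n + 1) (s : Strat (S.succ jn k) (n + 1) g)
    (i : Fin (k + 1)) (dats : Fin (k + 1) → S.Dat) (ε0 : Fin (k + 1) × S.Co → g.E)
    (u : pe_UW S k) (ε : S.Co → g.E) (r : S.Rn) (w : S.W) {j : Fin P.T} (h1 : (j : ℕ) ≤ n)
    (h : s.pass j (pe_je i ε0 ε) (i, dats, r) (pe_jw u w)) :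
    (pe_strat hj s i dats ε0 u).pass j ε r w := by
  have hne : j ≠ jn := fun e => by rw [e] at h1; omega
  unfold Strat.pass
  rw [pe_out]
  rcases h with h | h
  · exact Or.inl (congrArg (fun z : S.Lab' k => z.1 i) h)
  · refine Or.inr ((congrArg (fun z : S.Lab' k => z.1 i) h).trans ?_)
    have e : ∀ (κ : P.K) (z : S.Lab' k),
        ((S.succ jn k).add (i, dats, r) j κ z).1 i = S.add r j κ (z.1 i) := by
      intro κ z
      simp only [Stage.succ, if_neg hne, Function.update_self]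
    exact e _ _

theorem peel (hj : (jn : ℕ) = n + 1) {j j' : Fin P.T} (h1 : (j : ℕ) ≤ n) (h2 : (j' : ℕ) ≤ n) {η : ℝ}
    (h : Bnd S n g j j' η) : Bnd (S.succ jn k) (n + 1) g j j' η := by
  intro s
  obtain ⟨F, hF⟩ : ∃ F : (Fin (k + 1) × S.Co → g.E) → S.Rn' k → S.W' k → ℝ,
      F = fun ε r w => ind (s.pass j ε r w ∧ s.pass j' ε r w) := ⟨_, rfl⟩
  have key : ∀ (i : Fin (k + 1)) (dats : Fin (k + 1) → S.Dat),
      (𝔼 ε, 𝔼 r : S.Rn, 𝔼 w, F ε (i, dats, r) w) ≤ η := by
    intro i dats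
    rw [pe_expect_je i]
    refine expect_le_of_le fun ε0 => ?_
    simp only [pe_expect_W]
    have e : (𝔼 ε : S.Co → g.E, 𝔼 r : S.Rn, 𝔼 u : pe_UW S k, 𝔼 w : S.W,
        F (pe_je i ε0 ε) (i, dats, r) (pe_jw u w)) = 𝔼 u : pe_UW S k, 𝔼 ε : S.Co → g.E,
          𝔼 r : S.Rn, 𝔼 w : S.W, F (pe_je i ε0 ε) (i, dats, r) (pe_jw u w) := by
      rw [expect_comm (s := univ (α := pe_UW S k))]
      exact expect_congr rfl fun ε _ => expect_comm _ _ _
    rw [e]
    refine expect_le_of_le fun u => le_trans ?_ (h (pe_strat hj s i dats ε0 u))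
    refine expect_mono' fun ε => expect_mono' fun r => expect_mono' fun w => ?_
    rw [hF]
    exact ind_mono' fun hh => ⟨pe_pass hj s i dats ε0 u ε r w h1 hh.1,
      pe_pass hj s i dats ε0 u ε r w h2 hh.2⟩
  have main : (𝔼 ε, 𝔼 r : S.Rn' k, 𝔼 w, F ε r w) ≤ η := by
    rw [expect_comm, expect_prod']
    refine expect_le_of_le fun i => ?_
    rw [expect_prod']
    refine expect_le_of_le fun dats => ?_
    rw [expect_comm]
    exact key i dats
  rw [hF] at main
  exact main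

end Vale.Agent.P339
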