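import Vale.Agent.P339.Basic

/-!
The nodes have the properties `Good` (aux names: `sg_*`).
All fields are direct computations; in `succ` distinguish `j = jn` and `j ≠ jn` (then `j ≤ n`).
Useful: `sumc (slc r x) σ = ∑ i, if i = r.1 then S.ev r.2.2 (low x) (res σ i) else x.1.1 i (res σ i)`;
`psi_sum`; `mat_bump`, `mat_congr`, `low_bump`, `Prm.bump_of_ne`, `Prm.bump_inl`.
`row_ev` for `j ≠ jn`: if `S.row j (low x) = S.ev x''` take `x' = ((0, x''.1), x''.2)`.
`meas` for `j = jn`: apply `∑ q, ψ (single q 1) * ·` to the equality of the second components; the hidden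
products are killed by `ψ` (`map_sum`, `map_smul`).
`vals_ev`, `vals_lab`: for `i ≠ r.1` the restrictions `res σ i`, `res σ' i` agree.
-/

namespace Vale.Agent.P339

open Vale.Agent.P325 Finset
open scoped BigOperators

variable {P : Prm}


theorem sg_card_K : Fintype.card P.K = 2 ^ P.l := by simp [Prm.K, F2]

theorem sg_lin_sum {V Y : Type} [AddCommGroup V] [Module (ZMod 2) V]
    (R : V →ₗ[ZMod 2] (Y → ZMod 2)) (c : Fin P.l → ZMod 2) (x : Fin P.l → V) (σ : Y) :
    R (∑ q, c q • x q) σ = ∑ q, c q * R (x q) σ := by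
  rw [map_sum, Finset.sum_apply]
  exact Finset.sum_congr rfl fun q _ => by rw [map_smul]; rfl

theorem sg_base_lab (j0 j : Fin P.T) (r : (base j0).Rn) (p : P.I → (base j0).Par)
    (σ : (base j0).Om) (q : Fin P.l) :
    (base j0).lab ((base j0).spd r p) σ q = (base j0).row r j (p (j0, Sum.inl q)) σ :=
  Finset.sum_apply q univ fun c : P.C => fun q => (p (j0, Sum.inl q)).2 c (σ c)

/-- The shift of the answers of the bottom node. -/
def sg_badd (j0 j : Fin P.T) (κ y : P.K) : P.K := if j = j0 then y + κ else y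

theorem sg_badd_self (j : Fin P.T) (κ y : P.K) : sg_badd j j κ y = y + κ := if_pos rfl

theorem sg_badd_add (j0 j : Fin P.T) (κ κ' y : P.K) :
    sg_badd j0 j κ (sg_badd j0 j κ' y) = sg_badd j0 j (κ + κ') y := by
  unfold sg_badd
  split_ifs
  · abel
  · rfl

theorem sg_badd_zero (j0 j : Fin P.T) (y : P.K) : sg_badd j0 j 0 y = y := by
  simp [sg_badd]

theorem base_good {j0 : Fin P.T} (h : (j0 : ℕ) = 0) : (base j0).Good 0 := by
  have hj : ∀ j : Fin P.T, (j : ℕ) ≤ 0 → j = j0 := fun j hj => Fin.ext (by omega)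
  refine
    { lab_can := fun _ _ => rfl
      botc_inj := fun _ => Function.injective_id
      ev_bot := fun _ _ _ => rfl
      row_bot := fun _ _ _ _ => rfl
      row_ev := fun _ _ x => ⟨x, rfl⟩
      spd_congr := fun r p p' hp => ?_
      meas := fun r p j hj0 ψ _ σ σ' he => ?_
      move := fun r p j hj0 a x σ => ?_
      vals_ev := fun r σ σ' _ x x' _ hx => Finset.sum_congr rfl fun c _ => hx c
      vals_lab := fun r σ σ' _ p p' _ hp => ?_
      add_add := fun r j κ κ' w => sg_badd_add j0 j κ κ' w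
      add_zero := fun r j w => sg_badd_zero j0 j w
      add_ne := fun r j hj0 κ w hκ => ?_
      card_le := sg_card_K.ge }
  · funext c x q
    exact congrArg (fun y : (base j0).Par => y.2 c x) (hp (j0, Sum.inl q) h.le)
  · obtain rfl := hj j hj0
    rw [sg_lin_sum, sg_lin_sum]
    refine Finset.sum_congr rfl fun q _ => ?_
    rw [← sg_base_lab, ← sg_base_lab, he]
  · obtain rfl := hj j hj0
    refine Eq.trans ?_ (sg_badd_self j _ _).symm
    funext q
    refine (sg_base_lab j j r _ σ q).trans ?_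
    refine Eq.trans ?_ (congrArg (· + (base j).row r j x σ * a q) (sg_base_lab j j r p σ q).symm)
    rw [Prm.bump_inl, map_add, map_smul]
    simp [mul_comm]
  · funext q
    refine (sg_base_lab j0 j0 r _ σ q).trans (Eq.trans ?_ (sg_base_lab j0 j0 r _ σ' q).symm)
    exact Finset.sum_congr rfl fun c _ => hp _ c
  · obtain rfl := hj j hj0
    exact fun h => hκ (add_eq_left.1 ((sg_badd_self j κ w).symm.trans h))

namespace Stage

variable {S : Stage P} {jn : Fin P.T} {k n : ℕ}

theorem sg_sumc (r : S.Rn' k) (x : S.Par' k) (σ : S.Om' k) :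
    sumc (slc r x) σ = S.ev r.2.2 (low x) (res σ r.1) +
      ∑ i ∈ univ.erase r.1, x.1.1 i (res σ i) := by
  change ∑ i, slc r x (i, res σ i) = _
  rw [← Finset.add_sum_erase _ _ (mem_univ r.1)]
  congr 1
  · exact if_pos rfl
  · exact Finset.sum_congr rfl fun i hi => if_neg (mem_erase.1 hi).1

theorem sg_mat (r : S.Rn' k) (p : P.I → S.Par' k) (σ : S.Om' k) (q : Fin P.l) :
    ∑ i, mat jn r p q (i, res σ i) = sumc (slc r (p (jn, Sum.inl q))) σ +
      hidT jn (fun t => S.ev r.2.2 (low (p t))) (res σ r.1) q := by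
  simp only [mat, Finset.sum_add_distrib]
  congr 1
  rw [Finset.sum_eq_single r.1 (fun b _ hb => if_neg hb) (by simp), if_pos rfl]

variable (jn) in
/-- The rows of the next node. -/
def sg_row (r : S.Rn' k) (j : Fin P.T) : S.Par' k →ₗ[ZMod 2] (S.Om' k → ZMod 2) :=
  if j = jn then sumc ∘ₗ slc r else pull r.1 ∘ₗ S.row r.2.2 j ∘ₗ low

variable (jn) in
/-- The shifts of the next node. -/
def sg_add (r : S.Rn' k) (j : Fin P.T) (κ : P.K) (w : S.Lab' k) : S.Lab' k :=
  if j = jn then (w.1, w.2 + κ) else (Function.update w.1 r.1 (S.add r.2.2 j κ (w.1 r.1)), w.2)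

variable (jn) in
/-- The answers of the next node. -/
def sg_lab (r : S.Rn' k) (p : P.I → S.Par' k) (σ : S.Om' k) : S.Lab' k :=
  (fun i => S.lab (kids r p i) (res σ i), fun q => ∑ i, mat jn r p q (i, res σ i))

theorem sg_row_eq (r : S.Rn' k) (x : S.Par' k) : sg_row jn r jn x = sumc (slc r x) := by
  rw [sg_row, if_pos rfl]
  rfl

theorem sg_row_ne (r : S.Rn' k) {j : Fin P.T} (h : j ≠ jn) (x : S.Par' k) (σ : S.Om' k) :
    sg_row jn r j x σ = S.row r.2.2 j (low x) (res σ r.1) := by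
  rw [sg_row, if_neg h]
  rfl

theorem sg_add_eq (r : S.Rn' k) (κ : P.K) (w : S.Lab' k) :
    sg_add jn r jn κ w = (w.1, w.2 + κ) := if_pos rfl

theorem sg_add_ne (r : S.Rn' k) {j : Fin P.T} (h : j ≠ jn) (κ : P.K) (w : S.Lab' k) :
    sg_add jn r j κ w = (Function.update w.1 r.1 (S.add r.2.2 j κ (w.1 r.1)), w.2) := if_neg h

theorem sg_kids_self (r : S.Rn' k) (p : P.I → S.Par' k) :
    kids r p r.1 = S.spd r.2.2 fun t => low (p t) := Function.update_self _ _ _

theorem sg_kids_ne (r : S.Rn' k) (p : P.I → S.Par' k) {i : Fin (k + 1)} (h : i ≠ r.1) :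
    kids r p i = r.2.1 i := Function.update_of_ne h _ _

theorem sg_kids_congr (hS : S.Good n) (r : S.Rn' k) {p p' : P.I → S.Par' k}
    (h : ∀ t, (t.1 : ℕ) ≤ n → p t = p' t) : kids r p = kids r p' := by
  unfold kids
  rw [hS.spd_congr r.2.2 (fun t => low (p t)) (fun t => low (p' t)) fun t ht => by rw [h t ht]]

theorem sg_res_ne {r : S.Rn' k} {σ σ' : S.Om' k}
    (h : ∀ c, c ∉ Set.range (bcs r) → σ c = σ' c) {i : Fin (k + 1)}
    (hi : i ≠ r.1) : res σ i = res σ' i := by
  funext c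
  refine h (i, c) ?_
  rintro ⟨c', hc⟩
  exact hi (congrArg Prod.fst hc).symm

theorem sg_res_self {r : S.Rn' k} {σ σ' : S.Om' k}
    (h : ∀ c, c ∉ Set.range (bcs r) → σ c = σ' c) :
    ∀ c, c ∉ Set.range (S.botc r.2.2) → res σ r.1 c = res σ' r.1 c := by
  intro c hc
  refine h (r.1, c) ?_
  rintro ⟨c', hc'⟩
  exact hc ⟨c', congrArg Prod.snd hc'⟩

theorem sg_vals (hS : S.Good n) {r : S.Rn' k} {σ σ' : S.Om' k}
    (h : ∀ c, c ∉ Set.range (bcs r) → σ c = σ' c) {x x' : S.Par' k}
    (h1 : x.1 = x'.1) (h2 : ∀ c, x.2 c (σ (bcs r c)) = x'.2 c (σ' (bcs r c))) :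
    S.ev r.2.2 (low x) (res σ r.1) = S.ev r.2.2 (low x') (res σ' r.1) ∧
      sumc (slc r x) σ = sumc (slc r x') σ' := by
  have e : S.ev r.2.2 (low x) (res σ r.1) = S.ev r.2.2 (low x') (res σ' r.1) :=
    hS.vals_ev r.2.2 _ _ (sg_res_self h) _ _ (congrArg Prod.snd h1) h2
  refine ⟨e, ?_⟩
  rw [sg_sumc, sg_sumc, e, h1]
  congr 1
  exact Finset.sum_congr rfl fun i hi => by rw [sg_res_ne h (mem_erase.1 hi).1]

theorem sg_ev_zero (r : S.Rn' k) (x : S.Par) (σ : S.Om' k) :
    sumc (slc r ((0, x.1), x.2)) σ = S.ev r.2.2 x (res σ r.1) := by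
  rw [sg_sumc, low_surj]
  simp

theorem sg_ev_bot (hS : S.Good n) (r : S.Rn' k) (b : P.Bot) (σ : S.Om' k) :
    sumc (slc r (0, b)) σ = ∑ c, b c (σ (bcs r c)) :=
  (sg_ev_zero r (0, b) σ).trans (hS.ev_bot _ _ _)

theorem sg_row_bot (hS : S.Good n) (r : S.Rn' k) (j : Fin P.T) (b : P.Bot) (σ : S.Om' k) :
    sg_row jn r j (0, b) σ = ∑ c, b c (σ (bcs r c)) := by
  by_cases h : j = jn
  · rw [h, sg_row_eq, sg_ev_bot hS]
  · rw [sg_row_ne r h]
    exact hS.row_bot _ _ _ _

theorem sg_row_ev (hS : S.Good n) (r : S.Rn' k) (j : Fin P.T) (x : S.Par' k) :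
    ∃ x', sg_row jn r j x = sumc (slc r x') := by
  by_cases h : j = jn
  · exact ⟨x, by rw [h, sg_row_eq]⟩
  · obtain ⟨y, hy⟩ := hS.row_ev r.2.2 j (low x)
    refine ⟨((0, y.1), y.2), funext fun σ => ?_⟩
    rw [sg_row_ne r h, hy, sg_ev_zero]

theorem sg_meas (hS : S.Good n) (r : S.Rn' k) (p : P.I → S.Par' k) (j : Fin P.T)
    (hj : j ≠ jn → (j : ℕ) ≤ n) (ψ : P.K →ₗ[ZMod 2] ZMod 2) (hψ : ∀ κ, ψ (P.hid κ) = 0)
    (σ σ' : S.Om' k) (he : sg_lab jn r p σ = sg_lab jn r p σ') :
    sg_row jn r j (∑ q, ψ (Pi.single q 1) • p (j, Sum.inl q)) σ =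
      sg_row jn r j (∑ q, ψ (Pi.single q 1) • p (j, Sum.inl q)) σ' := by
  rw [sg_lin_sum, sg_lin_sum]
  by_cases h : j = jn
  · subst h
    have h0 : ∀ G τ, ψ (hidT (S := S) j G τ) = 0 := fun G τ => by
      simp only [hidT, map_sum, map_smul, hψ, smul_zero, Finset.sum_const_zero]
    have key : ∀ τ : S.Om' k, ∑ q, ψ (Pi.single q 1) * (sg_lab j r p τ).2 q =
        ∑ q, ψ (Pi.single q 1) * sg_row j r j (p (j, Sum.inl q)) τ := fun τ => by
      simp only [sg_lab, sg_mat, mul_add, Finset.sum_add_distrib, sg_row_eq]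
      rw [psi_sum ψ (hidT j (fun t => S.ev r.2.2 (low (p t))) (res τ r.1)), h0, add_zero]
    rw [← key, ← key, he]
  · have h1 := congrFun (congrArg Prod.fst he) r.1
    simp only [sg_lab, sg_kids_self] at h1
    have h2 := hS.meas r.2.2 (fun t => low (p t)) j (hj h) ψ hψ _ _ h1
    rw [sg_lin_sum, sg_lin_sum] at h2
    simp only [sg_row_ne r h]
    exact h2

theorem sg_move (hS : S.Good n) (hn : (jn : ℕ) = n + 1) (r : S.Rn' k) (p : P.I → S.Par' k)
    (j : Fin P.T) (hj : j ≠ jn → (j : ℕ) ≤ n) (a : P.K) (x : S.Par' k) (σ : S.Om' k) :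
    sg_lab jn r (Prm.bump j a x p) σ = sg_add jn r j (sg_row jn r j x σ • a) (sg_lab jn r p σ) := by
  by_cases h : j = jn
  · subst h
    rw [sg_add_eq, sg_row_eq]
    refine Prod.ext ?_ (funext fun q => ?_)
    · simp only [sg_lab]
      rw [sg_kids_congr hS r (p := Prm.bump j a x p) (p' := p) fun t ht =>
        Prm.bump_of_ne a x p fun e => by rw [e] at ht; omega]
    · simp only [sg_lab]
      rw [mat_bump]
      change ∑ i, (mat j r p q (i, res σ i) + a q * slc r x (i, res σ i)) =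
        (∑ i, mat j r p q (i, res σ i)) + (∑ i, slc r x (i, res σ i)) * a q
      rw [Finset.sum_add_distrib, ← Finset.mul_sum, mul_comm]
  · rw [sg_add_ne r h, sg_row_ne r h]
    simp only [sg_lab]
    rw [mat_congr r (p := Prm.bump j a x p) (p' := p) fun q => Prm.bump_of_ne a x p (Ne.symm h)]
    refine Prod.ext (funext fun i => ?_) rfl
    by_cases hi : i = r.1
    · subst hi
      simp only [Function.update_self, sg_kids_self, low_bump]
      exact hS.move r.2.2 _ j (hj h) a (low x) _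
    · simp only [Function.update_of_ne hi, sg_kids_ne r _ hi]

theorem sg_vals_lab (hS : S.Good n) {r : S.Rn' k} {σ σ' : S.Om' k}
    (h : ∀ c, c ∉ Set.range (bcs r) → σ c = σ' c) {p p' : P.I → S.Par' k}
    (h1 : ∀ t, (p t).1 = (p' t).1)
    (h2 : ∀ t c, (p t).2 c (σ (bcs r c)) = (p' t).2 c (σ' (bcs r c))) :
    sg_lab jn r p σ = sg_lab jn r p' σ' := by
  refine Prod.ext (funext fun i => ?_) (funext fun q => ?_)
  · by_cases hi : i = r.1
    · subst hi
      simp only [sg_lab, sg_kids_self]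
      exact hS.vals_lab r.2.2 _ _ (sg_res_self h) _ _ (fun t => congrArg Prod.snd (h1 t)) h2
    · simp only [sg_lab, sg_kids_ne r _ hi, sg_res_ne h hi]
  · simp only [sg_lab, sg_mat, hidT]
    rw [(sg_vals hS h (h1 _) (h2 _)).2]
    simp only [fun t => (sg_vals hS h (h1 t) (h2 t)).1]

theorem sg_add_add (hS : S.Good n) (r : S.Rn' k) (j : Fin P.T) (κ κ' : P.K) (w : S.Lab' k) :
    sg_add jn r j κ (sg_add jn r j κ' w) = sg_add jn r j (κ + κ') w := by
  by_cases h : j = jn
  · rw [h, sg_add_eq, sg_add_eq, sg_add_eq]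
    exact Prod.ext rfl (by simp only; abel)
  · rw [sg_add_ne r h, sg_add_ne r h, sg_add_ne r h]
    simp only [Function.update_self, Function.update_idem, hS.add_add]

theorem sg_add_zero (hS : S.Good n) (r : S.Rn' k) (j : Fin P.T) (w : S.Lab' k) :
    sg_add jn r j 0 w = w := by
  by_cases h : j = jn
  · rw [h, sg_add_eq]
    exact Prod.ext rfl (add_zero _)
  · rw [sg_add_ne r h, hS.add_zero]
    exact Prod.ext (Function.update_eq_self _ _) rfl

theorem sg_add_ne' (hS : S.Good n) (r : S.Rn' k) (j : Fin P.T) (hj : j ≠ jn → (j : ℕ) ≤ n)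
    (κ : P.K) (w : S.Lab' k) (hκ : κ ≠ 0) : sg_add jn r j κ w ≠ w := by
  by_cases h : j = jn
  · rw [h, sg_add_eq]
    exact fun e => hκ (add_eq_left.1 (congrArg Prod.snd e))
  · rw [sg_add_ne r h]
    intro e
    have := congrFun (congrArg Prod.fst e) r.1
    simp only [Function.update_self] at this
    exact hS.add_ne r.2.2 j (hj h) κ _ hκ this

end Stage

open Stage in
theorem succ_good {S : Stage P} {n : ℕ} (hS : S.Good n) {jn : Fin P.T} (hj : (jn : ℕ) = n + 1)
    (k : ℕ) : (S.succ jn k).Good (n + 1) := by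
  have hle : ∀ j : Fin P.T, (j : ℕ) ≤ n + 1 → j ≠ jn → (j : ℕ) ≤ n := fun j h1 h2 => by
    have : (j : ℕ) ≠ jn := fun e => h2 (Fin.ext e)
    omega
  refine
    { lab_can := fun d σ => ?_
      botc_inj := fun r c c' h => hS.botc_inj r.2.2 (congrArg Prod.snd h)
      ev_bot := fun r b σ => sg_ev_bot hS r b σ
      row_bot := fun r j b σ => sg_row_bot hS r j b σ
      row_ev := fun r j x => sg_row_ev hS r j x
      spd_congr := fun r p p' hp => Prod.ext
        (sg_kids_congr hS r fun t ht => hp t (ht.trans (Nat.le_succ n)))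
        (mat_congr r fun q => hp _ hj.le)
      meas := fun r p j hj0 ψ hψ σ σ' he => sg_meas hS r p j (hle j hj0) ψ hψ σ σ' he
      move := fun r p j hj0 a x σ => sg_move hS hj r p j (hle j hj0) a x σ
      vals_ev := fun r σ σ' h x x' h1 h2 => (sg_vals hS h h1 h2).2
      vals_lab := fun r σ σ' h p p' h1 h2 => sg_vals_lab hS h h1 h2
      add_add := fun r j κ κ' w => sg_add_add hS r j κ κ' w
      add_zero := fun r j w => sg_add_zero hS r j w
      add_ne := fun r j hj0 κ w hκ => sg_add_ne' hS r j (hle j hj0) κ w hκ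
      card_le := ?_ }
  · refine Prod.ext (funext fun i => hS.lab_can _ _) (funext fun q => ?_)
    change ∑ i, d.2 q (i, res σ i) = (∑ i, (d.2 q (i, res σ i) - d.2 q (i, S.pick (S.can (d.1 i))
      (S.lab (S.can (d.1 i)) (res σ i))))) + ∑ i, d.2 q (i, S.pick (S.can (d.1 i))
        (S.lab (S.can (d.1 i)) (res σ i)))
    rw [Finset.sum_sub_distrib, sub_add_cancel]
  · obtain ⟨w0⟩ : Nonempty S.Lab :=
      Fintype.card_pos_iff.1 (lt_of_lt_of_le (Nat.two_pow_pos _) hS.card_le)
    rw [← sg_card_K]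
    exact Fintype.card_le_of_injective (fun κ : P.K => ((fun _ => w0, κ) : S.Lab' k))
      fun _ _ e => congrArg Prod.snd e

end Vale.Agent.P339
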