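import Vale.Agent.P339.Quot
import Vale.Agent.P339.CS

/-!
The reduction as a polynomial time map (aux names: `to_*`; model: `P325.InnerPT`).
-/

namespace Vale.Agent.P339

open Vale.Agent.P325 Vale.Agent.Lib.H23 Finset
open scoped BigOperators

/-- Names: a finite datum and a family of numbers. -/
noncomputable def to_nm {Z Co : Type} [Fintype Z] [Fintype Co] (v : Z × (Co → ℕ)) : ℕ :=
  Nat.pair (Fintype.equivFin Z v.1 : ℕ) (natI v.2)

theorem to_inj {Z Co : Type} [Fintype Z] [Fintype Co] :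
    Function.Injective (to_nm : Z × (Co → ℕ) → ℕ) := fun _ _ h =>
  Prod.ext ((Fintype.equivFin _).injective (Fin.ext (Nat.pair_eq_pair.mp h).1))
    (natI_injective (Nat.pair_eq_pair.mp h).2)

section

variable {P : Prm} (S : Stage P) {q : ℕ} (eL : S.Lab ≃ Fin (2 * q))
  (π : S.Rn × Fin P.T × P.K → S.Lab → Fin q)

/-- The constraint for given names, projections and seed. -/
noncomputable def to_con (U V : S.Co → ℕ) (πs : S.Co → P.A → P.B) (ω : S.Rn × S.W × Fin P.T) :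
    CP (Fin (2 * q)) (Fin q) :=
  (![to_nm (S.can (S.spd ω.1 (Prm.ppg (S.botc ω.1) πs ω.2.1)), U),
      to_nm ((ω.2.2, ω.1, Prm.setd ω.2.1 ω.2.2 0), Prm.vnf (S.botc ω.1) U V ω.2.1.2.2.2.1)],
    ⟨fun a => π (ω.1, ω.2.2, ω.2.1.1 ω.2.2)
      (S.rel (S.spd ω.1 (Prm.ppg (S.botc ω.1) πs ω.2.1)) (eL.symm a))⟩)

/-- The local map. -/
noncomputable def to_loc (t : Fin (Fintype.card S.Co) → CP P.A P.B) (ω : S.Rn × S.W × Fin P.T) :
    CP (Fin (2 * q)) (Fin q) :=
  to_con S eL π (fun c => (t (Fintype.equivFin _ c)).1 0) (fun c => (t (Fintype.equivFin _ c)).1 1)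
    (fun c => (t (Fintype.equivFin _ c)).2.val) ω

theorem to_pt (ω : S.Rn × S.W × Fin P.T) :
    PT fun p : List (CP P.A P.B) × (Fin (Fintype.card S.Co) → CP P.A P.B) =>
      to_loc S eL π p.2 ω := by
  have hc : ∀ c : S.Co, PT fun p : List (CP P.A P.B) × (Fin (Fintype.card S.Co) → CP P.A P.B) =>
      (p.2 (Fintype.equivFin _ c)).2 := fun c => (pt_apply PT.snd' _).snd
  have hn : ∀ (c : S.Co) (j : Fin 2),
      PT fun p : List (CP P.A P.B) × (Fin (Fintype.card S.Co) → CP P.A P.B) =>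
      (p.2 (Fintype.equivFin _ c)).1 j := fun c j => pt_apply (pt_apply PT.snd' _).fst j
  refine PT.pair (pt_vec2 (pt_pair (pt_codeNum (pt_mkF (fun πs : S.Co → P.A → P.B =>
    S.can (S.spd ω.1 (Prm.ppg (S.botc ω.1) πs ω.2.1))) hc)) (pt_natI fun c => hn c 0))
    (pt_pair (PT.const (Fintype.equivFin _ (ω.2.2, ω.1, Prm.setd ω.2.1 ω.2.2 0) : ℕ))
      (pt_natI fun c => ?_))) (pt_mkF (fun πs : S.Co → P.A → P.B =>
      fun a => π (ω.1, ω.2.2, ω.2.1.1 ω.2.2)
        (S.rel (S.spd ω.1 (Prm.ppg (S.botc ω.1) πs ω.2.1)) (eL.symm a))) hc)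
  by_cases h : ∃ c', S.botc ω.1 (ω.2.1.2.2.2.1, c') = c
  · exact (hn c 1).congr fun x => if_pos h
  · exact (hn c 0).congr fun x => if_neg h

end

theorem top_red {P : Prm} {S : Stage P} {n : ℕ} (hS : S.Good n) (hn : ∀ j : Fin P.T, (j : ℕ) ≤ n)
    (hT : 0 < P.T) (hl : 2 ≤ P.l) :
    ∃ (q : ℕ) (R : List (CP P.A P.B) → List (CP (Fin (2 * q)) (Fin q))), 2 ≤ q ∧ PT R ∧
      ∀ (L : List (CP P.A P.B)) (hL : L ≠ []), R L ≠ [] ∧
        (∀ c ∈ R L, ∀ b, (univ.filter fun a => c.2.val a = b).card = 2) ∧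
        ((∃ f g, ∀ c ∈ L, satP f g c) → ∃ f g, ∀ c ∈ R L, satP f g c) ∧
        ∀ η : ℝ, 0 ≤ η → (∀ j j', j ≠ j' → Bnd S n (egOf P L hL) j j' η) →
          ∀ f g, avg (R L) (fun c => ind (satP f g c)) ≤ √(1 / P.T + η) := by
  obtain ⟨q, hq, π, hπ1, hπ2⟩ := quot_ex
    (fun (ι : S.Rn × Fin P.T × P.K) x => S.add ι.1 ι.2.1 (P.abar ι.2.2) x)
    (fun ι x => by rw [hS.add_add, mod2_add_self, hS.add_zero])
    (fun ι x => hS.add_ne _ _ (hn _) _ _ (Prm.abar_ne _)) (Classical.arbitrary _, ⟨0, hT⟩, 0)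
  have hne : Nonempty (Fin P.T) := ⟨⟨0, hT⟩⟩
  let eL : S.Lab ≃ Fin (2 * q) := Fintype.equivFinOfCardEq hq
  have hq2 : 2 ≤ q := by
    have h1 := hS.card_le
    have h2 : 2 ^ 2 ≤ 2 ^ P.l := Nat.pow_le_pow_right (by norm_num) hl
    omega
  have hsec : ∀ ι b, ∃ x, π ι x = b := fun ι b => by
    have : Nonempty {x // π ι x = b} := (Nat.card_ne_zero.1 (by rw [hπ1]; norm_num)).1
    exact nonempty_subtype.1 this
  choose sec hsec using hsec
  refine ⟨q, fun L => locRed (Fintype.card S.Co) L (to_loc S eL π), hq2,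
    pt_locRed _ PT.id (to_pt S eL π), fun L hL => ⟨locRed_ne_nil _ hL _, fun c hc b => ?_,
      fun ⟨fA, fB, hf⟩ => ?_, fun η hη hb fl fr => ?_⟩⟩
  · obtain ⟨t, -, ω, rfl⟩ := mem_locRed.1 hc
    refine Eq.trans ?_ (hπ1 (ω.1, ω.2.2, ω.2.1.1 ω.2.2) b)
    rw [← Fintype.card_subtype, ← Nat.card_eq_fintype_card]
    exact Nat.card_congr (Equiv.subtypeEquiv (eL.symm.trans (S.rel _)) fun a => Iff.rfl)
  · obtain ⟨Rl, hRl⟩ := top_comp hS hn fA fB
    refine ⟨Function.extend to_nm (fun v : S.Dat × (S.Co → ℕ) =>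
        eL (S.lab v.1 fun c => fA (v.2 c))) fun _ => ⟨0, by omega⟩,
      Function.extend to_nm (fun v : (Fin P.T × S.Rn × S.W) × (S.Co → ℕ) =>
        π (v.1.2.1, v.1.1, v.1.2.2.1 v.1.1) (Rl v.1.1 v.2 v.1.2.1 v.1.2.2)) fun _ => ⟨0, by omega⟩,
      fun c hc => ?_⟩
    obtain ⟨t, ht, ω, rfl⟩ := mem_locRed.1 hc
    choose ε hε using fun i => List.mem_iff_get.1 (ht i)
    obtain rfl : t = fun i => L.get (ε i) := funext fun i => (hε i).symm
    have h := hRl (egOf P L hL) (fun e => hf _ (List.get_mem _ e))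
      (fun c => ε (Fintype.equivFin _ c)) ω.1 ω.2.1 ω.2.2
    rw [hS.lab_can] at h
    simp only [satP, to_loc, to_con, Matrix.cons_val_zero, Matrix.cons_val_one,
      to_inj.extend_apply, Equiv.symm_apply_apply]
    exact (hπ2 _ _ _).2 h
  · let s : Strat S n (egOf P L hL) :=
      { tab := fun U d _ => eL.symm (fl (to_nm (d, U)))
        tab_congr := fun _ _ _ _ _ => rfl
        gam := fun i ε r w => sec (r, i, w.1 i) (fr (to_nm ((i, r, Prm.setd w i 0),
          Stage.vnm (egOf P L hL) ε r w.2.2.2.1)))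
        gam_d := fun i ε r w x => by rw [Prm.setd_setd]; rfl
        gam_v := fun i ε ε' r w h => by rw [h] }
    have h := pair_le (fun i (ω : (S.Co → (egOf P L hL).E) × S.Rn × S.W) =>
      s.pass i ω.1 ω.2.1 ω.2.2) hη fun i j hij => by
        have := hb i j hij s
        simp only [expect_prod'] at this ⊢
        exact this
    rw [Fintype.card_fin] at h
    refine le_trans ?_ h
    rw [avg_locRed, ← expect_equiv' (Equiv.arrowCongr (Fintype.equivFin S.Co) (Equiv.refl _))]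
    simp only [expect_prod']
    refine expect_mono' fun ε => expect_mono' fun r => ?_
    iterate 6 refine expect_mono' fun _ => ?_
    refine ind_mono' fun hs => (hπ2 _ _ _).1 (Eq.trans ?_ (hsec _ _).symm)
    simp only [satP, to_loc, to_con, Equiv.arrowCongr_apply, Equiv.coe_refl, Function.comp_apply,
      Equiv.symm_apply_apply, id] at hs
    exact hs

end Vale.Agent.P339
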