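import Vale.Agent.P339.Core
import Vale.Agent.P339.Peel
import Vale.Agent.P339.StageGood
import Vale.Agent.P339.Par
import Vale.Agent.P339.Top

/-!
The tree and the intermediate statement.
-/

namespace Vale.Agent.P339

open Vale.Agent.P325 Vale.Agent.Lib.H23 Finset
open scoped BigOperators

theorem ma_sqrt {c tv : ℝ} (htv : 0 < tv) : √(c / ((⌈c / tv ^ 2⌉₊ : ℕ) + 1)) ≤ tv := by
  rw [Real.sqrt_le_iff, div_le_iff₀ (by positivity)]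
  refine ⟨htv.le, ?_⟩
  have h := Nat.le_ceil (c / tv ^ 2)
  rw [div_le_iff₀ (by positivity)] at h
  nlinarith [sq_nonneg tv]

/-- The level with number `n`. -/
def ma_lv {T : ℕ} (hT : 0 < T) (n : ℕ) : Fin T := if h : n < T then ⟨n, h⟩ else ⟨0, hT⟩

theorem ma_lv_val {T n : ℕ} (hT : 0 < T) (h : n < T) : (ma_lv hT n : ℕ) = n := by
  rw [ma_lv, dif_pos h]

/-- The nodes of the tree. -/
noncomputable def ma_stage (P : Prm) (hT : 0 < P.T) (tv : ℝ) : ℕ → Stage P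
  | 0 => base ⟨0, hT⟩
  | n + 1 => (ma_stage P hT tv n).succ (ma_lv hT (n + 1))
      ⌈(Fintype.card (ma_stage P hT tv n).Tup : ℝ) / tv ^ 2⌉₊

theorem ma_good (P : Prm) (hT : 0 < P.T) (tv : ℝ) :
    ∀ n, n < P.T → (ma_stage P hT tv n).Good n
  | 0, _ => base_good rfl
  | n + 1, h => succ_good (ma_good P hT tv n (by omega)) (ma_lv_val hT h) _

theorem ma_symm {P : Prm} {S : Stage P} {n : ℕ} {g : Eg P} {j j' : Fin P.T} {η : ℝ}
    (h : Bnd S n g j j' η) : Bnd S n g j' j η := fun s => by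
  simpa only [and_comm] using h s

theorem ma_bnd (P : Prm) (hT : 0 < P.T) {g : Eg P} {ξ ε δ0 tv tv0 θ : ℝ} {r N L p : ℕ}
    (hs : SSEat ξ r ε) (hε : 0 < ε) (hξ : 0 ≤ ξ) (hN : 0 < N) (hg : g.Sound δ0) (hθ : 0 ≤ θ)
    (hw : werr P.l P.e P.ρ p L ≤ θ ^ (2 ^ (p + 1)))
    (htv0 : √((Fintype.card P.Tup0 : ℝ) / (P.m + 1)) ≤ tv0) (htv : 0 < tv) :
    ∀ n, n < P.T → ∀ j j' : Fin P.T, (j : ℕ) ≤ n → (j' : ℕ) ≤ n → j ≠ j' →
      Bnd (ma_stage P hT tv n) n g j j' (cb ξ ε r P.e N L δ0 tv tv0 θ)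
  | 0, _, j, j', h1, h2, h => absurd (Fin.ext (by omega)) h
  | n + 1, hn, j, j', h1, h2, h => by
    have hv := ma_lv_val hT hn
    have hc : ∀ i : Fin P.T, (i : ℕ) ≤ n → Bnd (ma_stage P hT tv (n + 1)) (n + 1) g
        (ma_lv hT (n + 1)) i (cb ξ ε r P.e N L δ0 tv tv0 θ) := fun i hi =>
      core (ma_good P hT tv n (by omega)) hv hi hs hε hξ hN hg hθ hw htv0 (ma_sqrt htv)
    have hne : (j : ℕ) ≠ j' := fun e => h (Fin.ext e)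
    by_cases e1 : (j : ℕ) = n + 1
    · rw [show j = ma_lv hT (n + 1) from Fin.ext (by omega)]
      exact hc j' (by omega)
    · by_cases e2 : (j' : ℕ) = n + 1
      · rw [show j' = ma_lv hT (n + 1) from Fin.ext (by omega)]
        exact ma_symm (hc j (by omega))
      · exact peel hv (by omega) (by omega)
          (ma_bnd P hT hs hε hξ hN hg hθ hw htv0 htv n (by omega) j j' (by omega) (by omega) h)

theorem ma_hid {e l : ℕ} (h : e ≤ l) : ∃ hid : F2 e →ₗ[ZMod 2] F2 l, Function.Injective hid := by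
  refine ⟨LinearMap.pi fun i => if hi : (i : ℕ) < e then LinearMap.proj (⟨i, hi⟩ : Fin e) else 0,
    fun x y hxy => funext fun i => ?_⟩
  simpa using congrFun hxy (Fin.castLE h i)

theorem ma_red (P : Prm) {ξ ε δ δ0 tv tv0 θ : ℝ} {r N L p : ℕ} (hδ : 0 < δ)
    (hT : P.T = ⌈2 / δ ^ 2⌉₊ + 1) (hl : 2 ≤ P.l)
    (hs : SSEat ξ r ε) (hε : 0 < ε) (hξ : 0 ≤ ξ) (hN : 0 < N) (hθ : 0 ≤ θ)
    (hw : werr P.l P.e P.ρ p L ≤ θ ^ (2 ^ (p + 1)))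
    (htv0 : √((Fintype.card P.Tup0 : ℝ) / (P.m + 1)) ≤ tv0) (htv : 0 < tv)
    (hcb : cb ξ ε r P.e N L δ0 tv tv0 θ ≤ δ ^ 2 / 2) :
    ∃ (q : ℕ) (R : List (CP P.A P.B) → List (CP (Fin (2 * q)) (Fin q))), 2 ≤ q ∧ PT R ∧
      ∀ L : List (CP P.A P.B), L ≠ [] → R L ≠ [] ∧
        (∀ c ∈ R L, ∀ b, (univ.filter fun a => c.2.val a = b).card = 2) ∧
        ((∃ f g, ∀ c ∈ L, satP f g c) → ∃ f g, ∀ c ∈ R L, satP f g c) ∧
        ((∀ f g, avg L (fun c => ind (satP f g c)) ≤ δ0) →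
          ∀ f g, avg (R L) (fun c => ind (satP f g c)) ≤ δ) := by
  have hT0 : 0 < P.T := by omega
  have hlt : ⌈2 / δ ^ 2⌉₊ < P.T := by omega
  have hn : ∀ j : Fin P.T, (j : ℕ) ≤ ⌈2 / δ ^ 2⌉₊ := fun j => by have := j.2; omega
  obtain ⟨q, R, hq, hR, hred⟩ := top_red (ma_good P hT0 tv _ hlt) hn hT0 hl
  refine ⟨q, R, hq, hR, fun L hL => ?_⟩
  obtain ⟨b1, b2, b3, b4⟩ := hred L hL
  refine ⟨b1, b2, b3, fun h fl fr => ?_⟩
  have hg : (egOf P L hL).Sound δ0 := fun u v => by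
    have := h u v
    rw [avg_eq_expect] at this
    exact this
  have hb := fun j j' hjj => ma_bnd P hT0 hs hε hξ hN hg hθ hw htv0 htv _ hlt j j'
    (hn j) (hn j') hjj
  refine (b4 (δ ^ 2 / 2) (by positivity) (fun j j' hjj s => (hb j j' hjj s).trans hcb) fl fr).trans ?_
  rw [Real.sqrt_le_iff]
  refine ⟨hδ.le, ?_⟩
  have h1 : (2 : ℝ) / δ ^ 2 ≤ (P.T : ℝ) := (Nat.le_ceil _).trans (by exact_mod_cast hlt.le)
  have h2 : (0 : ℝ) < P.T := by exact_mod_cast hT0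
  rw [div_le_iff₀ (by positivity)] at h1
  have : 1 / (P.T : ℝ) ≤ δ ^ 2 / 2 := by rw [div_le_iff₀ h2]; linarith
  linarith

theorem ma_m (P : Prm) {tv0 : ℝ} (h : 0 < tv0) : ∃ m : ℕ,
    √((Fintype.card ({ P with m := m } : Prm).Tup0 : ℝ) / (m + 1)) ≤ tv0 :=
  ⟨⌈(Fintype.card P.Tup0 : ℝ) / tv0 ^ 2⌉₊, ma_sqrt h⟩

theorem two (hLC : LCStmt) (hS : SSEStmt) : TwoStmt := by
  intro δ hδ
  obtain ⟨ξ, hξ, H⟩ := par_ex (η := δ ^ 2 / 2) (by positivity)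
  obtain ⟨r, ε, hε, hs⟩ := sseat_of hS hξ
  obtain ⟨e, N, p, ρ, L, l, δ0, tv, tv0, θ, hN, hel, hl, hδ0, htv, htv0, hθ, hw, hcb⟩ := H r ε hε
  obtain ⟨A, B, _, _, _, _, _, _, f, hf, hlc⟩ := hLC δ0 hδ0
  obtain ⟨hid, hinj⟩ := ma_hid hel
  have he0 : (1 : F2 l) ≠ 0 := fun h => one_ne_zero (congrFun h ⟨0, by omega⟩)
  obtain ⟨m, hm⟩ := ma_m
    { A := A, B := B, l := l, e := e, ρ := ρ, m := 0, T := ⌈2 / δ ^ 2⌉₊ + 1, hid := hid,
      hinj := hinj, e0 := 1, he0 := he0 } htv0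
  obtain ⟨q, R, hq, hR, hred⟩ := ma_red
    { A := A, B := B, l := l, e := e, ρ := ρ, m := m, T := ⌈2 / δ ^ 2⌉₊ + 1, hid := hid,
      hinj := hinj, e0 := 1, he0 := he0 } hδ rfl hl hs hε hξ.le hN hθ hw hm htv hcb
  refine ⟨q, fun φ => R (f φ), hq, hR.comp hf, fun φ => ?_⟩
  obtain ⟨a1, a2, a3⟩ := hlc φ
  obtain ⟨b1, b2, b3, b4⟩ := hred _ a1
  exact ⟨b1, b2, fun h => b3 (a2 h), fun h => b4 (a3 h)⟩

end Vale.Agent.P339
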