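import Vale.Agent.P339.Basic

/-!
Bilinear forms on random vectors (aux names: `nl_*`).
Basic facts: `𝔼 α, chi (L α) = ind (L = 0)` for additive `L` (`expect_chi_eq_zero`); `ind (∀ a, v a = 0) =
𝔼 γ, chi (γ ⬝ᵥ v)` (`perf_dot.flip.orth`).
`nl_le`: shift `x` by `o` (`expect_add_left'`), split `x = (X, Y)` (`Equiv.sumArrowEquivProdArrow`).
`ind (∀ a b, B (X a) (Y b) = 0) = 𝔼 γ : Fin η × Fin η → ZMod 2, chi (∑ γ (a,b) * B (X a) (Y b))`.
`γ = 0` has probability `(1/2)^(η*η)`.  For `γ (a0, b0) = 1`: the average over `X` is the indicator that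
`X ↦ ∑ a, B (X a) (∑ b, γ (a,b) • Y b)` vanishes, at most `ind (∀ α, B α (∑ b, γ (a0,b) • Y b) = 0)`,
and `∑ b, γ (a0,b) • Y b` is uniform (`expect_update` at `b0`, `expect_add_left'`).
`hid_le`: `chi_sum`, independence over `s` (`expect_pi_prod` after currying `Fin ρ × Bool`), each factor
is `𝔼 β, ind (∀ α, B α β = 0) ∈ [0, 1/2]`: if `B α0 β0 = 1` then the indicator is at most
`ind (B α0 β = 0) = (1 + chi (B α0 β))/2`.
-/

namespace Vale.Agent.P339

open Vale.Agent.P325 Finset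
open scoped BigOperators

/-- A combination of independent uniform vectors with some coefficient one is uniform. -/
theorem nl_unif {V ι : Type} [AddCommGroup V] [Module (ZMod 2) V] [Fintype V] [Fintype ι]
    [DecidableEq ι] (c : ι → ZMod 2) {b0 : ι} (hc : c b0 = 1) (F : V → ℝ) :
    (𝔼 Y : ι → V, F (∑ b, c b • Y b)) = 𝔼 β, F β := by
  have h1 : ∀ β : V, (𝔼 Y : ι → V, F (∑ b, c b • Y b)) = 𝔼 Y : ι → V, F (∑ b, c b • Y b + β) :=
    fun β => by
      rw [← expect_add_right' (fun Y : ι → V => F (∑ b, c b • Y b)) (Pi.single b0 β)]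
      refine Finset.expect_congr rfl fun Y _ => ?_
      congr 1
      simp only [Pi.add_apply, smul_add, Finset.sum_add_distrib]
      congr 1
      rw [Finset.sum_eq_single b0 (fun b _ hb => by simp [hb]) (by simp)]
      simp [hc]
  calc (𝔼 Y : ι → V, F (∑ b, c b • Y b)) = 𝔼 β : V, 𝔼 Y : ι → V, F (∑ b, c b • Y b + β) := by
        rw [← Finset.expect_congr rfl fun β _ => h1 β, Finset.expect_const univ_nonempty]
    _ = 𝔼 Y : ι → V, 𝔼 β : V, F (∑ b, c b • Y b + β) := Finset.expect_comm _ _ _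
    _ = _ := by
        simp only [expect_add_left']
        exact Finset.expect_const univ_nonempty _

theorem nl_fix {V ι : Type} [AddCommGroup V] [Module (ZMod 2) V] [Fintype V] [Fintype ι]
    [DecidableEq ι] (B : V →ₗ[ZMod 2] V →ₗ[ZMod 2] ZMod 2) (γ : ι × ι → ZMod 2) (a0 : ι)
    (Y : ι → V) : (𝔼 X : ι → V, chi (γ ⬝ᵥ fun p => B (X p.1) (Y p.2))) ≤
      ind (∀ α, B α (∑ b, γ (a0, b) • Y b) = 0) := by
  by_cases h : ∀ α, B α (∑ b, γ (a0, b) • Y b) = 0
  · rw [ind_pos h]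
    exact expect_le_of_le fun X => chi_le_one _
  · rw [ind_neg h]
    obtain ⟨α, hα⟩ := not_forall.1 h
    refine le_of_eq (expect_chi_eq_zero (L := fun X : ι → V => γ ⬝ᵥ fun p => B (X p.1) (Y p.2))
      (k := Pi.single a0 α) (fun X X' => ?_) ?_)
    · rw [← dotProduct_add]
      congr 1
      funext p
      simp
    · refine fun e => hα ?_
      rw [← e]
      simp only [dotProduct, Fintype.sum_prod_type, map_sum, map_smul, smul_eq_mul]
      symm
      rw [Finset.sum_eq_single a0 (fun a _ ha => by simp [ha]) (by simp)]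
      simp

theorem nl_gam {V ι : Type} [AddCommGroup V] [Module (ZMod 2) V] [Fintype V] [Fintype ι]
    [DecidableEq ι] (B : V →ₗ[ZMod 2] V →ₗ[ZMod 2] ZMod 2) {θ : ℝ}
    (hθ : (𝔼 β, ind (∀ α, B α β = 0)) ≤ θ) (γ : ι × ι → ZMod 2) :
    (𝔼 Y : ι → V, 𝔼 X : ι → V, chi (γ ⬝ᵥ fun p => B (X p.1) (Y p.2))) ≤ ind (γ = 0) + θ := by
  have h0 : 0 ≤ θ := (Finset.expect_nonneg fun β _ => ind_nonneg _).trans hθ
  by_cases h : γ = 0
  · rw [ind_pos h]
    exact (expect_le_of_le fun Y => expect_le_of_le fun X => chi_le_one _).trans (by linarith)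
  · rw [ind_neg h, zero_add]
    obtain ⟨⟨a0, b0⟩, hp⟩ := Function.ne_iff.1 h
    refine (expect_mono' fun Y => nl_fix B γ a0 Y).trans ?_
    rw [nl_unif (fun b => γ (a0, b)) (z2_ne_zero.1 hp) fun β => ind (∀ α, B α β = 0)]
    exact hθ

/-- The bias of a bilinear form. -/
theorem nl_bias {V : Type} [AddCommGroup V] [Module (ZMod 2) V] [Fintype V]
    (B : V →ₗ[ZMod 2] V →ₗ[ZMod 2] ZMod 2) (hB : B ≠ 0) :
    |𝔼 α, 𝔼 β, chi (B α β)| ≤ 1 / 2 := by
  obtain ⟨α0, h0⟩ := DFunLike.ne_iff.1 hB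
  obtain ⟨β0, h0⟩ := DFunLike.ne_iff.1 h0
  have h1 : ∀ β, (𝔼 α, chi (B α β)) = ind (∀ α, B α β = 0) := fun β => by
    by_cases h : ∀ α, B α β = 0
    · rw [ind_pos h]
      simp [h, Finset.expect_const univ_nonempty]
    · rw [ind_neg h]
      obtain ⟨α, hα⟩ := not_forall.1 h
      exact expect_chi_eq_zero (L := fun α => B α β) (fun x y => by simp) hα
  rw [Finset.expect_comm]
  simp only [h1]
  rw [abs_of_nonneg (Finset.expect_nonneg fun β _ => ind_nonneg _)]
  calc (𝔼 β, ind (∀ α, B α β = 0)) ≤ 𝔼 β, (1 / 2 + 1 / 2 * chi (B α0 β)) := by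
        refine expect_mono' fun β => (ind_mono fun h => h α0).trans (le_of_eq ?_)
        rw [ind_eq_zero_chi]; ring
    _ = 1 / 2 := by
        rw [Finset.expect_add_distrib, ← Finset.mul_expect, Finset.expect_const univ_nonempty,
          expect_chi_eq_zero (L := fun β => B α0 β) (fun x y => by simp) h0]
        ring

theorem nl_le {V : Type} [AddCommGroup V] [Module (ZMod 2) V] [Fintype V]
    (B : V →ₗ[ZMod 2] V →ₗ[ZMod 2] ZMod 2) {θ : ℝ} (hθ : (𝔼 β, ind (∀ α, B α β = 0)) ≤ θ) (η : ℕ)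
    (o : Fin η ⊕ Fin η → V) :
    (𝔼 x : Fin η ⊕ Fin η → V,
      ind (∀ a b, B (o (Sum.inl a) + x (Sum.inl a)) (o (Sum.inr b) + x (Sum.inr b)) = 0)) ≤
      (1 / 2) ^ (η * η) + θ := by
  have h1 := expect_add_left' (fun x : Fin η ⊕ Fin η → V =>
    ind (∀ a b, B (x (Sum.inl a)) (x (Sum.inr b)) = 0)) o
  simp only [Pi.add_apply] at h1
  rw [h1, ← expect_equiv' (Equiv.sumArrowEquivProdArrow (Fin η) (Fin η) V).symm, expect_prod']
  have h2 : ∀ X Y : Fin η → V, ind (∀ a b, B (X a) (Y b) = 0) =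
      𝔼 γ : Fin η × Fin η → ZMod 2, chi (γ ⬝ᵥ fun p => B (X p.1) (Y p.2)) := fun X Y => by
    rw [perf_dot.flip.orth]
    exact ind_congr ⟨fun h => funext fun p => h p.1 p.2, fun h a b => congrFun h (a, b)⟩
  simp only [Equiv.sumArrowEquivProdArrow_symm_apply_inl,
    Equiv.sumArrowEquivProdArrow_symm_apply_inr, h2]
  calc (𝔼 X : Fin η → V, 𝔼 Y : Fin η → V, 𝔼 γ : Fin η × Fin η → ZMod 2,
        chi (γ ⬝ᵥ fun p => B (X p.1) (Y p.2)))
      = 𝔼 γ : Fin η × Fin η → ZMod 2, 𝔼 Y : Fin η → V, 𝔼 X : Fin η → V,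
        chi (γ ⬝ᵥ fun p => B (X p.1) (Y p.2)) := by
        rw [Finset.expect_comm]
        refine Eq.trans (Finset.expect_congr rfl fun Y _ => Finset.expect_comm _ _ _) ?_
        exact Finset.expect_comm _ _ _
    _ ≤ 𝔼 γ : Fin η × Fin η → ZMod 2, (ind (γ = 0) + θ) := expect_mono' fun γ => nl_gam B hθ γ
    _ = _ := by
        rw [Finset.expect_add_distrib, expect_ind_eq, Finset.expect_const univ_nonempty]
        simp

theorem hid_le {V : Type} [AddCommGroup V] [Module (ZMod 2) V] [Fintype V]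
    (B : V →ₗ[ZMod 2] V →ₗ[ZMod 2] ZMod 2) (hB : B ≠ 0) (ρ : ℕ) :
    |𝔼 x : Fin ρ × Bool → V, chi (∑ s, B (x (s, false)) (x (s, true)))| ≤ (1 / 2) ^ ρ := by
  let e : (Fin ρ → V × V) ≃ (Fin ρ × Bool → V) :=
    { toFun := fun y p => if p.2 then (y p.1).2 else (y p.1).1
      invFun := fun x s => (x (s, false), x (s, true))
      left_inv := fun y => by funext s; simp
      right_inv := fun x => by funext ⟨s, b⟩; cases b <;> simp }
  rw [← expect_equiv' e]
  simp only [chi_sum]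
  have h := expect_pi_prod fun (_ : Fin ρ) (y : V × V) => chi (B y.1 y.2)
  rw [show (𝔼 y : Fin ρ → V × V, ∏ s, chi (B (e y (s, false)) (e y (s, true)))) = _ from h,
    Finset.prod_const, Finset.card_univ, Fintype.card_fin, abs_pow, expect_prod']
  exact pow_le_pow_left₀ (abs_nonneg _) (nl_bias B hB) ρ

end Vale.Agent.P339
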