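import Vale.Agent.P339.Basic

/-!
Planting at a random position (aux names: `pl_*`).
Plan.  `ρ i y = card X * 𝔼 ω, ind (ν i ω = y)`; `0 ≤ ρ ≤ card X`, `𝔼 y, ρ i y = 1`.
`𝔼 x, 𝔼 ω, F (update x i (ν i ω)) = 𝔼 x, F x * ρ i (x i)` (`expect_update`, `sum_ind_mul`).
So the difference is `𝔼 x, F x * g x` with `g x = 𝔼 i, (ρ i (x i) - 1)`, at most `c * √(𝔼 g²)`
(`Finset.expect_mul_sq_le_sq_mul_sq`); the terms `i ≠ i'` of `𝔼 g²` vanish (`expect_update` at `i`),
the diagonal terms are `𝔼 ρ² - 1 ≤ card X` (`expect_eval`).  `P325.InnerChi` has a similar computation.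
-/

namespace Vale.Agent.P339

open Vale.Agent.P325 Finset
open scoped BigOperators

theorem pl_var {ι X : Type} [Fintype ι] [DecidableEq ι] [Nonempty ι] [Fintype X] [Nonempty X]
    (h : ι → X → ℝ) {N : ℝ} (h0 : ∀ i, (𝔼 y, h i y) = 0) (h2 : ∀ i, (𝔼 y, h i y * h i y) ≤ N) :
    (𝔼 x : ι → X, (𝔼 i, h i (x i)) ^ 2) ≤ N / Fintype.card ι := by
  have e1 : ∀ x : ι → X, (𝔼 i, h i (x i)) ^ 2 = 𝔼 i, 𝔼 i', h i (x i) * h i' (x i') := fun x => by
    rw [sq, Finset.expect_mul_expect]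
  simp only [e1]
  rw [expect_comm]
  refine expect_le_of_le fun i => ?_
  rw [expect_comm]
  have e2 : ∀ i', (𝔼 x : ι → X, h i (x i) * h i' (x i')) ≤ ind (i' = i) * N := by
    intro i'
    by_cases hi : i' = i
    · subst hi
      rw [ind_pos rfl, one_mul, expect_eval i' fun y => h i' y * h i' y]
      exact h2 i'
    · rw [ind_neg hi, zero_mul, expect_update i]
      refine expect_le_of_le fun x => le_of_eq ?_
      simp only [Function.update_self, Function.update_of_ne hi]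
      rw [← Finset.expect_mul, h0, zero_mul]
  refine (expect_mono' e2).trans (le_of_eq ?_)
  rw [← Finset.expect_mul, expect_ind_eq, inv_mul_eq_div]

theorem plant_le {ι X Ω : Type} [Fintype ι] [DecidableEq ι] [Nonempty ι] [Fintype X] [Nonempty X]
    [Fintype Ω] [Nonempty Ω] (ν : ι → Ω → X) (F : (ι → X) → ℝ) {c : ℝ} (hF : ∀ x, |F x| ≤ c) :
    (𝔼 i, 𝔼 x : ι → X, 𝔼 ω, F (Function.update x i (ν i ω))) ≤
      (𝔼 x, F x) + c * √((Fintype.card X : ℝ) / Fintype.card ι) := by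
  classical
  have hN : (0 : ℝ) < Fintype.card X := by exact_mod_cast Fintype.card_pos
  let ρ : ι → X → ℝ := fun i y => Fintype.card X * 𝔼 ω, ind (ν i ω = y)
  have hρ : ∀ i (G : X → ℝ), (𝔼 y, G y * ρ i y) = 𝔼 ω, G (ν i ω) := by
    intro i G
    have e : ∀ y, G y * ρ i y = Fintype.card X * 𝔼 ω, ind (ν i ω = y) * G y := fun y => by
      simp only [ρ]
      rw [← Finset.expect_mul]; ring
    simp only [e]
    rw [← Finset.mul_expect, Fintype.card_mul_expect, ← Finset.expect_sum_comm]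
    exact expect_congr rfl fun ω _ => sum_ind_mul _ _
  have hρ1 : ∀ i, (𝔼 y, ρ i y) = 1 := fun i => by
    have := hρ i fun _ => 1
    simpa [Finset.expect_const univ_nonempty] using this
  have hρN : ∀ i y, ρ i y ≤ Fintype.card X := fun i y =>
    mul_le_of_le_one_right hN.le (expect_le_of_le fun ω => ind_le_one' _)
  have h0 : ∀ i, (𝔼 y, (ρ i y - 1)) = 0 := fun i => by
    rw [Finset.expect_sub_distrib, hρ1, Finset.expect_const univ_nonempty, sub_self]
  have h2 : ∀ i, (𝔼 y, (ρ i y - 1) * (ρ i y - 1)) ≤ Fintype.card X := fun i => by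
    have e : ∀ y, (ρ i y - 1) * (ρ i y - 1) = (ρ i y - 1) * ρ i y - (ρ i y - 1) := fun y => by ring
    simp only [e]
    rw [Finset.expect_sub_distrib, h0, sub_zero, hρ i fun y => ρ i y - 1]
    exact expect_le_of_le fun ω => by linarith [hρN i (ν i ω)]
  have h3 := pl_var (fun i y => ρ i y - 1) h0 h2
  have e1 : ∀ i, (𝔼 x : ι → X, 𝔼 ω, F (Function.update x i (ν i ω))) =
      𝔼 x : ι → X, F x * ρ i (x i) := fun i => by
    rw [expect_update i fun x => F x * ρ i (x i)]
    refine expect_congr rfl fun x _ => ?_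
    simp only [Function.update_self]
    exact (hρ i fun y => F (Function.update x i y)).symm
  have e2 : (𝔼 i, 𝔼 x : ι → X, F x * ρ i (x i)) =
      (𝔼 x, F x) + 𝔼 x : ι → X, F x * 𝔼 i, (ρ i (x i) - 1) := by
    rw [expect_comm, ← Finset.expect_add_distrib]
    refine expect_congr rfl fun x _ => ?_
    rw [← Finset.mul_expect, Finset.expect_sub_distrib, Finset.expect_const univ_nonempty]
    ring
  simp only [e1]
  rw [e2]
  have hc : 0 ≤ c := (abs_nonneg _).trans (hF (Classical.arbitrary _))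
  have h4 := Finset.expect_mul_sq_le_sq_mul_sq univ F fun x => 𝔼 i, (ρ i (x i) - 1)
  have h5 : (𝔼 x, F x ^ 2) ≤ c ^ 2 := expect_le_of_le fun x => sq_le_sq' (abs_le.1 (hF x)).1
    (abs_le.1 (hF x)).2
  have h6 : (𝔼 x : ι → X, F x * 𝔼 i, (ρ i (x i) - 1)) ^ 2 ≤
      (c * √((Fintype.card X : ℝ) / Fintype.card ι)) ^ 2 := by
    rw [mul_pow, Real.sq_sqrt (by positivity)]
    exact h4.trans (mul_le_mul h5 h3 (Finset.expect_nonneg fun _ _ => sq_nonneg _) (sq_nonneg c))
  have h7 := (abs_le_of_sq_le_sq' h6 (by positivity)).2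
  linarith

end Vale.Agent.P339
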