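import Vale.Agent.P339.Basic

/-!
Quotients by involutions and completeness of the test (aux names: `qu_*`).
`quot_ex`: number `Λ` by `Fin (card Λ)`; `T τ = {x | x < τ x}`; `x ↦ τ x` is a bijection from `T τ` to its
complement, so `2 * card (T τ) = card Λ`.  Take `q = card Λ / 2`, `π x = e (min x (τ x))` with `e : T τ ≃ Fin q`.
`top_comp`: `σ c = fA (u (ε c))`.  `Rl i N r w0 = S.lab (S.spd r p*) σ*` with `σ* c = fA (N c)`,
`p* = plant pos (fun c _ => val c (fB (N (botc r (pos, c))))) (tot w0.1 w0.2.1 w0.2.2.1)`.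
`w = setd w0 i (w0.2.1 i + w.2.1 i)` for `w0 = setd w i 0`; `Prm.ppg_setd`, `move`, `vals_lab` (`botc_inj`: at
`botc r c` with `c.1 ≠ pos` the name is the left name), `z2_cases` for the scalar, `add_zero`; if `w.1 i = 0`
the first alternative holds.
-/

namespace Vale.Agent.P339

open Vale.Agent.P325 Finset
open scoped BigOperators

theorem qu_one {Λ : Type} [Fintype Λ] (τ : Λ → Λ) (h1 : ∀ x, τ (τ x) = x) (h2 : ∀ x, τ x ≠ x) :
    ∃ q : ℕ, Fintype.card Λ = 2 * q ∧ ∃ π : Λ → Fin q, (∀ b, Nat.card {x // π x = b} = 2) ∧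
      ∀ x y, π x = π y ↔ x = y ∨ x = τ y := by
  classical
  let s : Setoid Λ := ⟨fun x y => x = y ∨ x = τ y, fun _ => Or.inl rfl, by
    rintro x y (rfl | rfl)
    exacts [Or.inl rfl, Or.inr (h1 y).symm], by
    rintro x y z (rfl | rfl) (rfl | rfl)
    exacts [Or.inl rfl, Or.inr rfl, Or.inr rfl, Or.inl (h1 z)]⟩
  let e := Fintype.equivFin (Quotient s)
  have hrel : ∀ x y, e (Quotient.mk s x) = e (Quotient.mk s y) ↔ x = y ∨ x = τ y := fun x y => by
    rw [e.injective.eq_iff, Quotient.eq]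
    rfl
  have hfib : ∀ b, (univ.filter fun x => e (Quotient.mk s x) = b).card = 2 := by
    intro b
    obtain ⟨c, rfl⟩ := e.surjective b
    obtain ⟨y, rfl⟩ := Quotient.exists_rep c
    rw [card_eq_two]
    refine ⟨y, τ y, (h2 y).symm, ?_⟩
    ext x
    simp only [mem_filter, mem_univ, true_and, hrel, mem_insert, mem_singleton]
  refine ⟨Fintype.card (Quotient s), ?_, fun x => e (Quotient.mk s x), fun b => ?_, hrel⟩
  · rw [← card_univ, card_eq_sum_card_fiberwise (f := fun x => e (Quotient.mk s x)) (t := univ)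
      fun _ _ => mem_univ _]
    simp only [hfib, sum_const, card_univ, Fintype.card_fin, smul_eq_mul, mul_comm]
  · rw [Nat.card_eq_fintype_card, Fintype.card_subtype]
    exact hfib b

theorem quot_ex {Λ ι : Type} [Fintype Λ] (τ : ι → Λ → Λ) (h1 : ∀ i x, τ i (τ i x) = x)
    (h2 : ∀ i x, τ i x ≠ x) (i0 : ι) : ∃ q : ℕ, Fintype.card Λ = 2 * q ∧
      ∃ π : ι → Λ → Fin q, (∀ i b, Nat.card {x // π i x = b} = 2) ∧
        ∀ i x y, π i x = π i y ↔ x = y ∨ x = τ i y := by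
  obtain ⟨q, hq, -⟩ := qu_one (τ i0) (h1 i0) (h2 i0)
  have h : ∀ i, ∃ π : Λ → Fin q, (∀ b, Nat.card {x // π x = b} = 2) ∧
      ∀ x y, π x = π y ↔ x = y ∨ x = τ i y := by
    intro i
    obtain ⟨q', hq', h⟩ := qu_one (τ i) (h1 i) (h2 i)
    obtain rfl : q' = q := by omega
    exact h
  choose π hπ using h
  exact ⟨q, hq, π, fun i => (hπ i).1, fun i => (hπ i).2⟩

theorem top_comp {P : Prm} {S : Stage P} {n : ℕ} (hS : S.Good n) (hn : ∀ j : Fin P.T, (j : ℕ) ≤ n)
    (fA : ℕ → P.A) (fB : ℕ → P.B) : ∃ Rl : Fin P.T → (S.Co → ℕ) → S.Rn → S.W → S.Lab,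
      ∀ (g : Eg P), (∀ e, g.π e (fA (g.u e)) = fB (g.v e)) →
        ∀ (ε : S.Co → g.E) (r : S.Rn) (w : S.W) (i : Fin P.T),
          S.lab (S.spd r (Stage.pp g ε r w)) (fun c => fA (g.u (ε c))) =
              Rl i (Stage.vnm g ε r w.2.2.2.1) r (Prm.setd w i 0) ∨
            S.lab (S.spd r (Stage.pp g ε r w)) (fun c => fA (g.u (ε c))) =
              S.add r i (P.abar (w.1 i)) (Rl i (Stage.vnm g ε r w.2.2.2.1) r (Prm.setd w i 0)) := by
  refine ⟨fun _ N r w => S.lab (S.spd r (Prm.plant w.2.2.2.1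
    (fun c _ => w.2.2.2.2 c (fB (N (S.botc r (w.2.2.2.1, c))))) (Prm.tot w.1 w.2.1 w.2.2.1)))
    (fun c => fA (N c)), fun g hg ε r w i => ?_⟩
  have key : ∀ w : S.W, S.lab (S.spd r (Stage.pp g ε r w)) (fun c => fA (g.u (ε c))) =
      S.lab (S.spd r (Prm.plant w.2.2.2.1 (fun c _ => w.2.2.2.2 c
        (fB (Stage.vnm g ε r w.2.2.2.1 (S.botc r (w.2.2.2.1, c))))) (Prm.tot w.1 w.2.1 w.2.2.1)))
        (fun c => fA (Stage.vnm g ε r w.2.2.2.1 c)) := by
    intro w
    refine hS.vals_lab r _ _ (fun c hc => ?_) _ _ (fun t => rfl) fun t c => ?_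
    · unfold Stage.vnm Prm.vnf
      rw [if_neg fun ⟨c', h⟩ => hc ⟨_, h⟩]
    · simp only [Stage.pp, Prm.ppg, Prm.plant]
      by_cases hc : c.1 = w.2.2.2.1
      · have h1 : (w.2.2.2.1, c.2) = c := Prod.ext hc.symm rfl
        have h2 : Stage.vnm g ε r w.2.2.2.1 (S.botc r c) = g.v (ε (S.botc r c)) := by
          unfold Stage.vnm Prm.vnf
          rw [if_pos ⟨c.2, by rw [h1]⟩]
        simp only [if_pos hc, Pi.smul_apply, h1, h2, hg]
      · have h2 : Stage.vnm g ε r w.2.2.2.1 (S.botc r c) = g.u (ε (S.botc r c)) := by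
          unfold Stage.vnm Prm.vnf
          rw [if_neg]
          rintro ⟨c', h⟩
          exact hc (by rw [← hS.botc_inj r h])
        simp only [if_neg hc, h2]
  have h0 := key (Prm.setd w i 0)
  have hw : w = Prm.setd (Prm.setd w i 0) i ((Prm.setd w i 0).2.1 i + w.2.1 i) := by
    simp [Prm.setd]
  have h1 : Stage.pp g ε r w = Prm.bump i (w.1 i) (Prm.zer w.2.2.2.1 (w.2.1 i))
      (Stage.pp g ε r (Prm.setd w i 0)) := by
    conv_lhs => rw [hw]
    exact Prm.ppg_setd _ _ _ _ _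
  rw [h1, hS.move r _ i (hn i), h0]
  rcases z2_cases (S.row r i (Prm.zer w.2.2.2.1 (w.2.1 i)) fun c => fA (g.u (ε c))) with h | h
  · left
    rw [h, zero_smul, hS.add_zero]
    rfl
  · rw [h, one_smul]
    by_cases ha : w.1 i = 0
    · left
      rw [ha, hS.add_zero]
      rfl
    · right
      rw [Prm.abar, if_neg ha]
      rfl

end Vale.Agent.P339
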