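import Vale.Agent.P339.Basic

/-!
Even and odd part of a cell; selection of one term (aux names: `sp_*`).
`pr` is a perfect pairing (`Perf pr`; test with `Matrix.single`).
`ann_expect`: if `M ∈ B` all characters are one (`ann B` contains `0`).  Otherwise there is `Γ0 ∈ ann B` with
`pr Γ0 M = 1` (a functional from `Submodule.exists_dual_map_eq_bot_of_notMem`, written as
`Γ0 q x = ψ (Matrix.single q x 1)`), and `Γ ↦ Γ + Γ0` permutes `ann B` and flips the sign.
`cell_split`: let `ev = 𝔼 κ ∈ K1, ind (c.mem (M + hid κ ⊗ t))`.  By `ann_expect`,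
`ev = 𝔼 Γ ∈ ann B, chi (pr Γ (M - T)) * 𝔼 κ ∈ K1, chi (pr Γ (hid κ ⊗ t))`, the last average is the indicator
that `Γ` is even (shift by an odd `κ0 ∈ K1`), so `ind (c.mem M) = ev + c.odd`.  If `¬ c.big` then
`ind (c.mem M) = 0`.  `ev * 𝔼 κ, ind (κ ∈ K1) = 𝔼 κ, ind (κ ∈ K1 ∧ ..)`.
`select_ex`: for a key `z` let `v z t = ∑ ω with key ω = z, Ψ ω t`; choose `t ∈ A z` with `w z t ≠ 0`
maximizing `v z t` if there is one with `0 ≤ v z t`, else `none`; group the sum over `ω` by keys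
(`Finset.sum_fiberwise_of_maps_to` over the image of `key`).
-/

namespace Vale.Agent.P339

open Vale.Agent.P325 Finset
open scoped BigOperators

theorem sp_add_left {l : ℕ} {X : Type} [Fintype X] (Γ Γ' M : Mat l X) :
    pr (Γ + Γ') M = pr Γ M + pr Γ' M := by
  unfold pr
  rw [← Finset.sum_add_distrib]
  exact Finset.sum_congr rfl fun q _ => add_dotProduct (Γ q) (Γ' q) (M q)

theorem sp_add_right {l : ℕ} {X : Type} [Fintype X] (Γ M M' : Mat l X) :
    pr Γ (M + M') = pr Γ M + pr Γ M' := by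
  unfold pr
  rw [← Finset.sum_add_distrib]
  exact Finset.sum_congr rfl fun q _ => dotProduct_add (Γ q) (M q) (M' q)

theorem sp_zero_left {l : ℕ} {X : Type} [Fintype X] (M : Mat l X) : pr 0 M = 0 := by
  unfold pr
  exact Finset.sum_eq_zero fun q _ => zero_dotProduct (M q)

theorem sp_mem_ann {l : ℕ} {X : Type} [Fintype X] [DecidableEq X]
    {B : Submodule (ZMod 2) (Mat l X)} {Γ : Mat l X} : Γ ∈ ann B ↔ ∀ b ∈ B, pr Γ b = 0 := by
  simp [ann]

theorem sp_ann_nonempty {l : ℕ} {X : Type} [Fintype X] [DecidableEq X]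
    (B : Submodule (ZMod 2) (Mat l X)) : (ann B).Nonempty :=
  ⟨0, sp_mem_ann.2 fun b _ => sp_zero_left b⟩

/-- Every functional on matrices is given by the pairing. -/
theorem sp_dual {l : ℕ} {X : Type} [Fintype X] [DecidableEq X]
    (ψ : Module.Dual (ZMod 2) (Mat l X)) : ∃ Γ : Mat l X, ∀ M, pr Γ M = ψ M := by
  refine ⟨fun q x => ψ (Matrix.single q x 1), fun M => ?_⟩
  conv_rhs => rw [Matrix.matrix_eq_sum_single M]
  rw [map_sum]
  unfold pr
  refine Finset.sum_congr rfl fun q _ => ?_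
  rw [map_sum]
  refine Finset.sum_congr rfl fun x _ => ?_
  have h : Matrix.single q x (M q x) = M q x • (Matrix.single q x 1 : Mat l X) := by
    rw [Matrix.smul_single, smul_eq_mul, mul_one]
  rw [h, map_smul, smul_eq_mul, mul_comm]

theorem ann_expect {l : ℕ} {X : Type} [Fintype X] [DecidableEq X]
    (B : Submodule (ZMod 2) (Mat l X)) (M : Mat l X) :
    (𝔼 Γ ∈ ann B, chi (pr Γ M)) = ind (M ∈ B) := by
  by_cases hM : M ∈ B
  · rw [ind_pos hM, Finset.expect_congr rfl (g := fun _ => (1 : ℝ)) fun Γ hΓ => by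
      rw [sp_mem_ann.1 hΓ M hM, chi_zero]]
    exact Finset.expect_const (sp_ann_nonempty B) 1
  · rw [ind_neg hM]
    obtain ⟨ψ, hψ, hB⟩ := Submodule.exists_dual_map_eq_bot_of_notMem hM inferInstance
    obtain ⟨Γ0, hΓ0⟩ := sp_dual ψ
    have h0 : ∀ b ∈ B, pr Γ0 b = 0 := fun b hb => by
      rw [hΓ0]
      have : ψ b ∈ B.map ψ := Submodule.mem_map_of_mem hb
      rwa [hB, Submodule.mem_bot] at this
    have h1 : pr Γ0 M = 1 := by rw [hΓ0]; exact z2_ne_zero.1 hψ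
    have h : (𝔼 Γ ∈ ann B, chi (pr (Γ + Γ0) M)) = 𝔼 Γ ∈ ann B, chi (pr Γ M) := by
      refine Finset.expect_equiv (Equiv.addRight Γ0) (fun Γ => ?_) fun Γ _ => rfl
      simp only [sp_mem_ann, Equiv.coe_addRight, sp_add_left]
      exact forall₂_congr fun b hb => by rw [h0 b hb, add_zero]
    simp only [sp_add_left, chi_add, h1, chi_one, mul_neg_one] at h
    rw [Finset.expect_neg_distrib] at h
    linarith

/-- The average of a character over a subspace. -/
theorem sp_sub {e : ℕ} (K1 : Submodule (ZMod 2) (F2 e)) {L : F2 e → ZMod 2}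
    (hL : ∀ x y, L (x + y) = L x + L y) :
    (𝔼 κ : F2 e, ind (κ ∈ K1) * chi (L κ)) =
      (𝔼 κ : F2 e, ind (κ ∈ K1)) * (1 - ind (∃ κ ∈ K1, L κ ≠ 0)) := by
  by_cases h : ∃ κ ∈ K1, L κ ≠ 0
  · rw [ind_pos h, sub_self, mul_zero]
    obtain ⟨k, hk, hk'⟩ := h
    have h2 := expect_add_right' (fun κ => ind (κ ∈ K1) * chi (L κ)) k
    simp only [hL, chi_add, z2_ne_zero.1 hk', chi_one, mul_neg, mul_one,
      K1.add_mem_iff_left hk] at h2
    rw [Finset.expect_neg_distrib] at h2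
    linarith
  · rw [ind_neg h, sub_zero, mul_one]
    refine Finset.expect_congr rfl fun κ _ => ?_
    by_cases hκ : κ ∈ K1
    · rw [not_not.1 fun h' => h ⟨κ, hκ, h'⟩, chi_zero, mul_one]
    · rw [ind_neg hκ, zero_mul]

theorem cell_split {l e r : ℕ} {X Λ : Type} [Fintype X] [DecidableEq X]
    (hid : F2 e →ₗ[ZMod 2] F2 l) (t : X → ZMod 2) (c : Cell l e X Λ)
    (h : (1 : ℝ) ≤ 2 ^ r * 𝔼 κ : F2 e, ind (κ ∈ c.K1)) (M : Mat l X) :
    ind (c.mem M) ≤
      2 ^ r * (𝔼 κ : F2 e, ind (κ ∈ c.K1 ∧ c.mem (M + Matrix.vecMulVec (hid κ) t))) +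
        ind (c.big hid M) * c.odd hid t M := by
  have hQ0 : 0 ≤ 𝔼 κ : F2 e, ind (κ ∈ c.K1 ∧ c.mem (M + Matrix.vecMulVec (hid κ) t)) :=
    Finset.expect_nonneg fun κ _ => ind_nonneg' _
  by_cases hb : c.big hid M
  swap
  · rw [ind_neg hb, zero_mul, add_zero,
      ind_neg fun hm : c.mem M => hb (Submodule.mem_sup_left hm)]
    positivity
  rw [ind_pos hb, one_mul]
  set p : ℝ := 𝔼 κ : F2 e, ind (κ ∈ c.K1) with hp
  have hmem : ∀ M' : Mat l X, ind (c.mem M') = 𝔼 Γ ∈ ann c.B, chi (pr Γ (M' - c.T)) :=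
    fun M' => (ann_expect c.B _).symm
  have hQ : (𝔼 κ : F2 e, ind (κ ∈ c.K1 ∧ c.mem (M + Matrix.vecMulVec (hid κ) t))) =
      p * (ind (c.mem M) - c.odd hid t M) := by
    have h1 : ∀ κ : F2 e, ind (κ ∈ c.K1 ∧ c.mem (M + Matrix.vecMulVec (hid κ) t)) =
        𝔼 Γ ∈ ann c.B, chi (pr Γ (M - c.T)) *
          (ind (κ ∈ c.K1) * chi (pr Γ (Matrix.vecMulVec (hid κ) t))) := fun κ => by
      by_cases hκ : κ ∈ c.K1
      · rw [ind_congr' (and_iff_right hκ), hmem, ind_pos hκ]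
        refine Finset.expect_congr rfl fun Γ _ => ?_
        rw [add_sub_right_comm, sp_add_right, chi_add, one_mul]
      · rw [ind_neg fun h' => hκ h'.1, ind_neg hκ]
        simp
    simp only [h1]
    rw [Finset.expect_comm, hmem, Cell.odd, ← Finset.expect_sub_distrib, Finset.mul_expect]
    refine Finset.expect_congr rfl fun Γ _ => ?_
    rw [← Finset.mul_expect, sp_sub c.K1 (L := fun κ => pr Γ (Matrix.vecMulVec (hid κ) t))
      fun x y => by rw [map_add, Matrix.add_vecMulVec, sp_add_right]]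
    ring
  rw [hQ] at hQ0 ⊢
  have h2 : (0 : ℝ) < 2 ^ r := by positivity
  have hp0 : 0 < p := by
    by_contra hn
    have := mul_nonpos_of_nonneg_of_nonpos h2.le (not_lt.1 hn)
    linarith
  have h3 : 0 ≤ ind (c.mem M) - c.odd hid t M := nonneg_of_mul_nonneg_right hQ0 hp0
  nlinarith [mul_le_mul_of_nonneg_right h h3]

theorem select_ex {Ω Z 𝒯 : Type} [Fintype Ω] (key : Ω → Z) (A : Z → Finset 𝒯) (w : Z → 𝒯 → ℝ)
    {W : ℝ} (hw : ∀ z t, 0 ≤ w z t) (hW : ∀ z, ∑ t ∈ A z, w z t ≤ W) (Ψ : Ω → 𝒯 → ℝ) :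
    ∃ sel : Z → Option 𝒯, (∀ z t, sel z = some t → t ∈ A z ∧ w z t ≠ 0) ∧
      (𝔼 ω, ∑ t ∈ A (key ω), w (key ω) t * Ψ ω t) ≤ W * 𝔼 ω, (sel (key ω)).elim 0 (Ψ ω) := by
  classical
  have hz : ∀ z : Z, ∃ o : Option 𝒯, (∀ t, o = some t → t ∈ A z ∧ w z t ≠ 0) ∧
      ∑ ω with key ω = z, ∑ t ∈ A z, w z t * Ψ ω t ≤
        W * ∑ ω with key ω = z, o.elim 0 (Ψ ω) := fun z => by
    have hW0 : 0 ≤ W := (Finset.sum_nonneg fun t _ => hw z t).trans (hW z)
    have hs : ∑ ω with key ω = z, ∑ t ∈ A z, w z t * Ψ ω t =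
        ∑ t ∈ A z, w z t * ∑ ω with key ω = z, Ψ ω t := by
      rw [Finset.sum_comm]
      exact Finset.sum_congr rfl fun t _ => by rw [Finset.mul_sum]
    rw [hs]
    by_cases hex : ∃ t ∈ A z, w z t ≠ 0 ∧ 0 ≤ ∑ ω with key ω = z, Ψ ω t
    · obtain ⟨t1, ht1, hw1, hv1⟩ := hex
      obtain ⟨t0, ht0, hmax⟩ := Finset.exists_max_image ((A z).filter fun t => w z t ≠ 0)
        (fun t => ∑ ω with key ω = z, Ψ ω t) ⟨t1, Finset.mem_filter.2 ⟨ht1, hw1⟩⟩
      have hv0 := hv1.trans (hmax t1 (Finset.mem_filter.2 ⟨ht1, hw1⟩))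
      refine ⟨some t0, fun t ht => ?_, ?_⟩
      · cases ht
        exact Finset.mem_filter.1 ht0
      · simp only [Option.elim]
        refine le_trans (Finset.sum_le_sum (g := fun t => w z t * ∑ ω with key ω = z, Ψ ω t0)
          fun t ht => ?_) ?_
        · by_cases hwt : w z t = 0
          · rw [hwt, zero_mul, zero_mul]
          · exact mul_le_mul_of_nonneg_left (hmax t (Finset.mem_filter.2 ⟨ht, hwt⟩)) (hw z t)
        · rw [← Finset.sum_mul]
          exact mul_le_mul_of_nonneg_right (hW z) hv0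
    · refine ⟨none, fun t ht => (by cases ht), ?_⟩
      simp only [Option.elim, Finset.sum_const_zero, mul_zero]
      refine Finset.sum_nonpos fun t ht => ?_
      by_cases hwt : w z t = 0
      · rw [hwt, zero_mul]
      · exact mul_nonpos_of_nonneg_of_nonpos (hw z t)
          (not_le.1 fun h => hex ⟨t, ht, hwt, h⟩).le
  choose sel hsel hle using hz
  refine ⟨sel, hsel, ?_⟩
  rw [Fintype.expect_eq_sum_div_card, Fintype.expect_eq_sum_div_card, ← mul_div_assoc]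
  refine div_le_div_of_nonneg_right ?_ (Nat.cast_nonneg _)
  have hm : ∀ ω ∈ (univ : Finset Ω), key ω ∈ univ.image key := fun ω hω =>
    Finset.mem_image_of_mem key hω
  rw [← Finset.sum_fiberwise_of_maps_to hm, ← Finset.sum_fiberwise_of_maps_to hm
    (fun ω => (sel (key ω)).elim 0 (Ψ ω)), Finset.mul_sum]
  refine Finset.sum_le_sum fun z _ => ?_
  refine le_trans (le_of_eq ?_) ((hle z).trans (le_of_eq ?_))
  · exact Finset.sum_congr rfl fun ω hω => by rw [(Finset.mem_filter.1 hω).2]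
  · congr 1
    exact Finset.sum_congr rfl fun ω hω => by rw [(Finset.mem_filter.1 hω).2]

end Vale.Agent.P339
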