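import Vale.Agent.P325.Stmt

/-! Definitions used in the statement of the 2-to-1 games theorem. -/

namespace Vale.Agent.P339

open Vale.Agent.P325

/-- A projection game with alphabets of sizes `2 q` and `q`: a list of constraints `(u, v, π)`
(`u` a left vertex, `v` a right vertex), with the uniform distribution on the list. -/
abbrev Game (q : ℕ) : Type := List (ℕ × ℕ × (Fin (2 * q) → Fin q))

/-- Every constraint is 2-to-1. -/
def TwoToOne {q : ℕ} (G : Game q) : Prop :=
  ∀ c ∈ G, ∀ b : Fin q, (Finset.univ.filter fun a => c.2.2 a = b).card = 2

/-- The value: the largest fraction of constraints satisfied by one labeling of the left and of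
the right vertices. -/
noncomputable def value {q : ℕ} (G : Game q) : ℝ :=
  ⨆ s : (ℕ → Fin (2 * q)) × (ℕ → Fin q),
    ((G.countP fun c => decide (c.2.2 (s.1 c.1) = s.2 c.2.1)) : ℝ) / G.length

/-- Code of a game; a projection is given by its list of values. -/
def codeGame (q : ℕ) : Game q → List Bool :=
  bList (bPair bNat (bPair bNat fun π => bList bNat (List.ofFn fun i => (π i : ℕ))))

end Vale.Agent.P339
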