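import Vale.Agent.P339.Basic

/-!
Doubling a random walk (aux names: `wk_*`).
Plan.  `Θ J = 𝔼 D, 𝔼 ξ : J → Ξ, ∑ y, h D y * h (D + ∑ u, s (ξ u)) y` for a finite type `J`.
With `A D y = 𝔼 ξ : J → Ξ, h (D + ∑ u, s (ξ u)) y`: `Θ J = 𝔼 D, ∑ y, h D y * A D y`, so
`(Θ J)² ≤ (𝔼 D, ∑ h²) (𝔼 D, ∑ A²) ≤ 𝔼 D, ∑ y, A D y ² = Θ (J ⊕ J)` (Cauchy-Schwarz on `G × Y`;
`Equiv.sumArrowEquivProdArrow`, `Fintype.sum_sum_type`, shift `D` by `∑ u, s (ξ u)` with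
`expect_add_right'` and `h2`).  `Θ` is invariant under equivalences of `J` (`Equiv.arrowCongr`,
`Equiv.sum_comp`), `Fin (2^p) ⊕ Fin (2^p) ≃ Fin (2^(p+1))`.  Induction: `|Θ1|^(2^p) ≤ |Θ (Fin (2^p))|`.
-/

namespace Vale.Agent.P339

open Vale.Agent.P325 Finset
open scoped BigOperators

theorem wk_double {G Z Y : Type} [AddCommGroup G] [Fintype G] [Fintype Z] [Fintype Y]
    (h2 : ∀ x : G, x + x = 0) (σ : Z → G) (h : G → Y → ℝ) (hh : ∀ D, ∑ y, h D y ^ 2 ≤ 1) :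
    (𝔼 D, 𝔼 z, ∑ y, h D y * h (D + σ z) y) ^ 2 ≤
      𝔼 D, 𝔼 z, 𝔼 z', ∑ y, h D y * h (D + (σ z + σ z')) y := by
  have e1 : ∀ D, (𝔼 z, ∑ y, h D y * h (D + σ z) y) = ∑ y, h D y * 𝔼 z, h (D + σ z) y := by
    intro D
    rw [Finset.expect_sum_comm]
    exact Finset.sum_congr rfl fun y _ => (Finset.mul_expect _ _ _).symm
  have e2 : ∀ D, ∑ y, (𝔼 z, h (D + σ z) y) ^ 2 =
      𝔼 z, 𝔼 z', ∑ y, h (D + σ z) y * h (D + σ z') y := by
    intro D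
    simp only [Finset.expect_sum_comm]
    exact Finset.sum_congr rfl fun y _ => by rw [sq, Finset.expect_mul_expect]
  have h1 := Finset.expect_mul_sq_le_sq_mul_sq (univ : Finset G) (fun _ => (1 : ℝ))
    fun D => 𝔼 z, ∑ y, h D y * h (D + σ z) y
  simp only [one_mul, one_pow, Finset.expect_const univ_nonempty] at h1
  refine h1.trans ((expect_mono' (g := fun D => 𝔼 z, 𝔼 z', ∑ y, h (D + σ z) y * h (D + σ z') y)
    fun D => ?_).trans_eq ?_)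
  · rw [e1, ← e2]
    refine (Finset.sum_mul_sq_le_sq_mul_sq _ _ _).trans ?_
    exact mul_le_of_le_one_left (Finset.sum_nonneg fun y _ => sq_nonneg _) (hh D)
  · rw [Finset.expect_comm, Finset.expect_comm (univ : Finset G)]
    refine expect_congr rfl fun z _ => ?_
    rw [← expect_add_right' (fun D => 𝔼 z', ∑ y, h (D + σ z) y * h (D + σ z') y) (σ z)]
    simp only [add_assoc, h2, add_zero]

/-- The correlation after a walk indexed by `J`. -/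
noncomputable def wkTh {G Ξ Y : Type} [AddCommGroup G] [Fintype G] [Fintype Ξ] [Fintype Y]
    (s : Ξ → G) (h : G → Y → ℝ) (J : Type) [Fintype J] [DecidableEq J] : ℝ :=
  𝔼 D, 𝔼 ξ : J → Ξ, ∑ y, h D y * h (D + ∑ u, s (ξ u)) y

theorem wk_equiv {G Ξ Y : Type} [AddCommGroup G] [Fintype G] [Fintype Ξ] [Fintype Y]
    (s : Ξ → G) (h : G → Y → ℝ) {J J' : Type} [Fintype J] [DecidableEq J] [Fintype J']
    [DecidableEq J'] (e : J ≃ J') : wkTh s h J = wkTh s h J' := by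
  refine expect_congr rfl fun D _ => ?_
  rw [← expect_equiv' (Equiv.arrowCongr e (Equiv.refl Ξ))]
  refine expect_congr rfl fun ξ _ => ?_
  rw [← Equiv.sum_comp e.symm fun u => s (ξ u)]
  rfl

theorem wk_sq {G Ξ Y : Type} [AddCommGroup G] [Fintype G] [Fintype Ξ] [Fintype Y]
    (h2 : ∀ x : G, x + x = 0) (s : Ξ → G) (h : G → Y → ℝ) (hh : ∀ D, ∑ y, h D y ^ 2 ≤ 1)
    (J : Type) [Fintype J] [DecidableEq J] : wkTh s h J ^ 2 ≤ wkTh s h (J ⊕ J) := by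
  refine (wk_double h2 (fun ξ : J → Ξ => ∑ u, s (ξ u)) h hh).trans_eq ?_
  refine expect_congr rfl fun D _ => ?_
  rw [← expect_equiv' (Equiv.sumArrowEquivProdArrow J J Ξ).symm, expect_prod']
  refine expect_congr rfl fun ξ _ => expect_congr rfl fun ξ' _ => ?_
  rw [Fintype.sum_sum_type]
  rfl

theorem walk_le {G Ξ Y : Type} [AddCommGroup G] [Fintype G] [Fintype Ξ] [Nonempty Ξ] [Fintype Y]
    (h2 : ∀ x : G, x + x = 0) (s : Ξ → G) (h : G → Y → ℝ) (hh : ∀ D, ∑ y, h D y ^ 2 ≤ 1) (p : ℕ) :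
    (𝔼 D, 𝔼 ξ, ∑ y, h D y * h (D + s ξ) y) ^ (2 ^ (p + 1)) ≤
      𝔼 D, 𝔼 ξ : Fin (2 ^ p) ⊕ Fin (2 ^ p) → Ξ, ∑ y, h D y * h (D + ∑ u, s (ξ u)) y := by
  show _ ≤ wkTh s h (Fin (2 ^ p) ⊕ Fin (2 ^ p))
  induction p with
  | zero =>
    refine le_trans (le_of_eq ?_) (wk_sq h2 s h hh _)
    rw [← wk_equiv s h (finCongr (show 1 = 2 ^ 0 from rfl)), zero_add, pow_one]
    congr 1
    refine expect_congr rfl fun D _ => ?_
    simp only [Fin.sum_univ_one]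
    exact (expect_eval (0 : Fin 1) fun ξ => ∑ y, h D y * h (D + s ξ) y).symm
  | succ p ih =>
    refine le_trans ?_ (wk_sq h2 s h hh _)
    rw [← wk_equiv s h (finSumFinEquiv.trans
      (finCongr (show 2 ^ p + 2 ^ p = 2 ^ (p + 1) by ring))), pow_succ 2 (p + 1), pow_mul]
    refine pow_le_pow_left₀ ?_ ih 2
    rw [pow_succ' 2 p, pow_mul]
    positivity

end Vale.Agent.P339
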